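import Crest.Agent.N346.Defs

/-!
Row 346, Part 0.0(b): the minimum enclosing area of an asymptotically flat metric is positive.
-/

set_option autoImplicit false
open MeasureTheory Filter Topology
open scoped ContDiff ENNReal
open Crest.GeometryTopology.CoordMetric
open Crest.MathPhysics.ExteriorData

noncomputable section

namespace Crest.Agent.N346

namespace Apos

variable {n : ℕ}

/-- The quadratic form of the adjugate. -/
def adjForm (M : Matrix (Fin n) (Fin n) ℝ) (ξ : E n) : ℝ :=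
  ∑ i, ∑ j, M.adjugate i j * ξ i * ξ j

lemma continuous_adjForm :
    Continuous fun p : Matrix (Fin n) (Fin n) ℝ × E n => adjForm p.1 p.2 := by
  unfold adjForm
  refine continuous_finsetSum _ fun i _ => continuous_finsetSum _ fun j _ => ?_
  have h : Continuous fun p : Matrix (Fin n) (Fin n) ℝ × E n => p.1.adjugate :=
    continuous_fst.matrix_adjugate
  exact ((h.matrix_elem i j).mul (by fun_prop)).mul (by fun_prop)

lemma adjForm_eq {M : Matrix (Fin n) (Fin n) ℝ} (hM : M.PosDef) (ξ : E n) :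
    adjForm M ξ = M.det * ∑ i, ∑ j, M⁻¹ i j * ξ i * ξ j := by
  have hd : M.det ≠ 0 := hM.det_pos.ne'
  unfold adjForm
  rw [Finset.mul_sum]
  refine Finset.sum_congr rfl fun i _ => ?_
  rw [Finset.mul_sum]
  refine Finset.sum_congr rfl fun j _ => ?_
  rw [Matrix.inv_def, Ring.inverse_eq_inv', Matrix.smul_apply, smul_eq_mul]
  field_simp

lemma invForm_pos {M : Matrix (Fin n) (Fin n) ℝ} (hM : M.PosDef) {ξ : E n} (hξ : ξ ≠ 0) :
    0 < ∑ i, ∑ j, M⁻¹ i j * ξ i * ξ j := by
  have hξ' : (fun i => ξ i) ≠ 0 := by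
    intro h
    apply hξ
    ext i
    exact congrFun h i
  have h := hM.inv.dotProduct_mulVec_pos hξ'
  simp only [dotProduct, Matrix.mulVec, star_trivial, Finset.mul_sum] at h
  refine h.trans_eq (Finset.sum_congr rfl fun i _ => Finset.sum_congr rfl fun j _ => ?_)
  ring

lemma adjForm_smul (M : Matrix (Fin n) (Fin n) ℝ) (t : ℝ) (ξ : E n) :
    adjForm M (t • ξ) = t ^ 2 * adjForm M ξ := by
  unfold adjForm
  rw [Finset.mul_sum]
  refine Finset.sum_congr rfl fun i _ => ?_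
  rw [Finset.mul_sum]
  refine Finset.sum_congr rfl fun j _ => ?_
  simp only [PiLp.smul_apply, smul_eq_mul]
  ring

lemma tendsto_one {q : ℝ} (hq : 0 < q) {g : MetricField n}
    (hd : ∀ i j, DecaysAt 0 q fun x => g x i j - (1 : Matrix (Fin n) (Fin n) ℝ) i j) :
    Tendsto g (cocompact (E n)) (𝓝 1) := by
  refine tendsto_pi_nhds.2 fun i => tendsto_pi_nhds.2 fun j => ?_
  obtain ⟨C, hC⟩ := hd i j 0 le_rfl
  have hn : Tendsto (fun x : E n => ‖x‖) (cocompact (E n)) atTop := tendsto_norm_cocompact_atTop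
  have h0 : Tendsto (fun x : E n => C * ‖x‖ ^ (-q)) (cocompact (E n)) (𝓝 0) := by
    simpa using ((tendsto_rpow_neg_atTop hq).comp hn).const_mul C
  rw [← tendsto_sub_nhds_zero_iff]
  refine squeeze_zero_norm' ?_ h0
  filter_upwards [hn.eventually_ge_atTop 1] with x hx
  simpa using hC x hx

/-- Uniform lower bound `√det g · |ξ|_{g⁻¹} ≥ c |ξ|`. -/
lemma exists_lower {q : ℝ} (hq : 0 < q) {g : MetricField n} (hg : IsRiemannianOn g Set.univ)
    (hd : ∀ i j, DecaysAt 0 q fun x => g x i j - (1 : Matrix (Fin n) (Fin n) ℝ) i j) :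
    ∃ c > 0, ∀ x, ∀ ξ : E n, ξ ≠ 0 →
      c ≤ volDensity g x * Real.sqrt (∑ i, ∑ j, inverseField g x i j * ξ i * ξ j) / ‖ξ‖ := by
  have hc : Continuous g := by
    refine continuous_pi fun i => continuous_pi fun j => ?_
    exact (contDiffOn_univ.1 (hg.contDiffOn i j)).continuous
  have hK : IsCompact (insert 1 (Set.range g)) :=
    (tendsto_one hq hd).isCompact_insert_range_of_cocompact hc
  have hPD : ∀ M ∈ insert 1 (Set.range g), M.PosDef := by
    rintro M (rfl | ⟨x, rfl⟩)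
    · exact Matrix.PosDef.one
    · exact hg.posDef x trivial
  obtain ⟨c, hc0, hc⟩ := (hK.prod (isCompact_sphere (0 : E n) 1)).exists_forall_le'
    (continuous_adjForm (n := n)).continuousOn (a := 0) (by
      rintro ⟨M, ξ⟩ ⟨hM, hξ⟩
      have hξ0 : ξ ≠ 0 := by
        rintro rfl
        simp at hξ
      have hM' := hPD M hM
      show 0 < adjForm M ξ
      rw [adjForm_eq hM']
      exact mul_pos hM'.det_pos (invForm_pos hM' hξ0))
  refine ⟨Real.sqrt c, Real.sqrt_pos.2 hc0, fun x ξ hξ => ?_⟩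
  have hn : 0 < ‖ξ‖ := norm_pos_iff.2 hξ
  have hx := hg.posDef x trivial
  have h1 : c ≤ adjForm (g x) (‖ξ‖⁻¹ • ξ) :=
    hc (g x, ‖ξ‖⁻¹ • ξ) ⟨Or.inr ⟨x, rfl⟩, by simp [norm_smul, hn.ne']⟩
  rw [adjForm_smul, adjForm_eq hx] at h1
  rw [le_div_iff₀ hn, volDensity, ← Real.sqrt_mul hx.det_pos.le]
  apply Real.le_sqrt_of_sq_le
  rw [mul_pow, Real.sq_sqrt hc0.le]
  have h2 := mul_le_mul_of_nonneg_right h1 (sq_nonneg ‖ξ‖)
  have h3 : ∀ a : ℝ, ‖ξ‖⁻¹ ^ 2 * a * ‖ξ‖ ^ 2 = a := fun a => by field_simp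
  rw [h3] at h2
  exact h2

/-- Dropping the first coordinate. -/
def tl {m : ℕ} (x : E (m + 1)) : E m := WithLp.toLp 2 fun i => x i.succ

/-- Prepending a coordinate. -/
def cs {m : ℕ} (t : ℝ) (y : E m) : E (m + 1) := WithLp.toLp 2 (Fin.cons t fun i => y i)

lemma tl_cs {m : ℕ} (t : ℝ) (y : E m) : tl (cs t y) = y := by
  ext i
  simp [tl, cs]

lemma norm_cs_sq {m : ℕ} (t : ℝ) (y : E m) : ‖cs t y‖ ^ 2 = t ^ 2 + ‖y‖ ^ 2 := by
  simp [EuclideanSpace.real_norm_sq_eq, cs, Fin.sum_univ_succ]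

lemma continuous_cs {m : ℕ} (y : E m) : Continuous fun t => cs t y := by
  unfold cs
  refine (PiLp.continuous_toLp 2 _).comp (continuous_pi fun i => ?_)
  refine Fin.cases ?_ (fun i => ?_) i
  · simpa using continuous_id'
  · simpa using continuous_const

lemma lipschitz_tl {m : ℕ} : LipschitzWith 1 (tl : E (m + 1) → E m) := by
  refine LipschitzWith.of_dist_le_mul fun x y => ?_
  simp only [NNReal.coe_one, one_mul, EuclideanSpace.dist_eq]
  apply Real.sqrt_le_sqrt
  rw [Fin.sum_univ_succ]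
  simp only [tl]
  have := sq_nonneg (dist (x 0) (y 0))
  linarith

lemma ball_subset {m : ℕ} {u : E (m + 1) → ℝ} (hu : IsEnclosingCut u) :
    Metric.ball (0 : E m) 1 ⊆ tl '' {x | u x = 0} := by
  obtain ⟨hs, -, hin, R, hout⟩ := hu
  intro y hy
  have hy' : ‖y‖ < 1 := by simpa using hy
  have h0 : u (cs 0 y) < 0 := by
    apply hin
    have := norm_cs_sq 0 y
    have h2 : ‖cs 0 y‖ ^ 2 < 1 ^ 2 := by nlinarith [norm_nonneg y]
    exact lt_of_pow_lt_pow_left₀ 2 zero_le_one h2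
  have h1 : 0 < u (cs |R| y) := by
    apply hout
    have := norm_cs_sq |R| y
    have h2 : |R| ^ 2 ≤ ‖cs |R| y‖ ^ 2 := by nlinarith [sq_nonneg ‖y‖]
    exact (le_abs_self R).trans (le_of_pow_le_pow_left₀ two_ne_zero (norm_nonneg _) h2)
  have hc : Continuous fun t => u (cs t y) := hs.continuous.comp (continuous_cs y)
  obtain ⟨t, -, ht⟩ := intermediate_value_Icc (abs_nonneg R) hc.continuousOn
    (show (0 : ℝ) ∈ Set.Icc (u (cs 0 y)) (u (cs |R| y)) from ⟨h0.le, h1.le⟩)
  exact ⟨cs t y, ht, tl_cs t y⟩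

lemma measure_ge {m : ℕ} {u : E (m + 1) → ℝ} (hu : IsEnclosingCut u) :
    volume (Metric.ball (0 : E m) 1) ≤ μHE[m] {x | u x = 0} := by
  rw [← EuclideanSpace.euclideanHausdorffMeasure_eq_volume m]
  refine (measure_mono (ball_subset hu)).trans ?_
  simp only [Measure.euclideanHausdorffMeasure_def, Measure.smul_apply]
  have h := (lipschitz_tl (m := m)).hausdorffMeasure_image_le (d := (m : ℝ)) (Nat.cast_nonneg m)
    {x | u x = 0}
  simp only [ENNReal.coe_one, ENNReal.one_rpow, one_mul] at h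
  exact smul_le_smul_left _ h

end Apos

/-- Part 0.0(b). -/
theorem apos : AposStmt := by
  intro n hn q hq g hg hd
  obtain ⟨m, rfl⟩ : ∃ m, n = m + 1 := ⟨n - 1, by omega⟩
  obtain ⟨c, hc0, hc⟩ := Apos.exists_lower hq hg hd
  have hb : 0 < volume (Metric.ball (0 : E m) 1) := Metric.measure_ball_pos _ _ one_pos
  have hpos : 0 < ENNReal.ofReal c * volume (Metric.ball (0 : E m) 1) :=
    ENNReal.mul_pos (ENNReal.ofReal_pos.2 hc0).ne' hb.ne'
  refine hpos.trans_le (le_iInf fun u => ?_)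
  obtain ⟨u, hu⟩ := u
  have hm : MeasurableSet {x | u x = 0} :=
    (isClosed_eq hu.1.continuous continuous_const).measurableSet
  calc ENNReal.ofReal c * volume (Metric.ball (0 : E m) 1)
      ≤ ENNReal.ofReal c * μHE[m] {x | u x = 0} := by gcongr; exact Apos.measure_ge hu
    _ = ∫⁻ _ in {x | u x = 0}, ENNReal.ofReal c ∂μHE[m] := by rw [setLIntegral_const]
    _ ≤ levelSetArea g u := by
      unfold levelSetArea
      refine setLIntegral_mono' hm fun x hx => ?_
      exact ENNReal.ofReal_le_ofReal (hc x _ (hu.2.1 x hx))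

end Crest.Agent.N346

end
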