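import Mathlib
import Crest.Agent.R241.AF2

/-! Row 346 (helper41): the COAREA FORMULA for `C¹` functions on a Euclidean space, on a measurable
set where the gradient does not vanish:
`∫⁻ t, ∫⁻ x in S ∩ u ⁻¹' {t}, h x ∂μHE[dim - 1] = ∫⁻ x in S, h x * ‖fderiv ℝ u x‖ₑ`
(`Crest.Agent.N346.Coarea.coarea`). -/

set_option autoImplicit false
set_option linter.unusedSectionVars false
open MeasureTheory MeasureTheory.Measure Metric Filter Set Module TopologicalSpace
open scoped NNReal ENNReal Topology RealInnerProductSpace Function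

noncomputable section

namespace Crest.Agent.N346.Coarea

open Crest.Agent.R241.AF

variable {V : Type*} [NormedAddCommGroup V] [InnerProductSpace ℝ V] [FiniteDimensional ℝ V]

/-- determinant of a rank one perturbation of the identity. -/
theorem det_id_add (l : V →L[ℝ] ℝ) (v : V) :
    (ContinuousLinearMap.id ℝ V + l.smulRight v).det = 1 + l v := by
  classical
  let b := Module.finBasis ℝ V
  rw [ContinuousLinearMap.det, ← LinearMap.det_toMatrix b]
  have h1 : ((ContinuousLinearMap.id ℝ V + l.smulRight v : V →L[ℝ] V) : V →ₗ[ℝ] V)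
      = LinearMap.id + (l : V →ₗ[ℝ] ℝ).smulRight v := by
    ext x; simp
  rw [h1, map_add, LinearMap.toMatrix_id, LinearMap.toMatrix_smulRight,
    Matrix.vecMulVec_eq Unit, Matrix.det_one_add_replicateCol_mul_replicateRow]
  congr 1
  conv_rhs => rw [← b.sum_repr v]
  simp only [_root_.map_sum, map_smul, smul_eq_mul, dotProduct, Function.comp_apply,
    ContinuousLinearMap.coe_coe, mul_comm]

/-- the graph map over the hyperplane orthogonal to `e`. -/
def gr (e : V) (l : V →L[ℝ] ℝ) : (ℝ ∙ e)ᗮ →L[ℝ] V :=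
  (ℝ ∙ e)ᗮ.subtypeL - ((l e)⁻¹ • (l.comp (ℝ ∙ e)ᗮ.subtypeL)).smulRight e

theorem gr_apply (e : V) (l : V →L[ℝ] ℝ) (y : (ℝ ∙ e)ᗮ) :
    gr e l y = (y : V) - ((l e)⁻¹ * l y) • e := by
  simp [gr]

theorem jac_gr {e : V} (he : ‖e‖ = 1) {l : V →L[ℝ] ℝ} (hl : l e ≠ 0) :
    jac (gr e l) = ‖l‖ / |l e| := by
  classical
  set H := (ℝ ∙ e)ᗮ with hH
  set w : V := (InnerProductSpace.toDual ℝ V).symm l with hw
  have hlw : ∀ x, l x = ⟪w, x⟫ := fun x => by simp [hw]
  have hnw : ‖l‖ = ‖w‖ := by simp [hw]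
  have hee : ⟪e, e⟫ = 1 := by rw [real_inner_self_eq_norm_sq, he]; norm_num
  have hperp : ∀ y : H, ⟪e, (y : V)⟫ = 0 := fun y =>
    Submodule.mem_orthogonal_singleton_iff_inner_right.1 y.2
  -- the component of `w` in `H`
  have hmem : w - (l e) • e ∈ H := by
    rw [hH, Submodule.mem_orthogonal_singleton_iff_inner_right, inner_sub_right, inner_smul_right,
      hee, hlw e, real_inner_comm]
    ring
  set p : H := ⟨w - (l e) • e, hmem⟩ with hp
  have hpy : ∀ y : H, ⟪p, y⟫ = l y := fun y => by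
    rw [Submodule.coe_inner, hp]
    simp only [inner_sub_left, inner_smul_left, hperp y, hlw]
    simp
  have hpp : ‖p‖ ^ 2 = ‖w‖ ^ 2 - (l e) ^ 2 := by
    rw [← real_inner_self_eq_norm_sq, hpy p, hp]
    simp only [map_sub, map_smul, smul_eq_mul]
    rw [hlw w, real_inner_self_eq_norm_sq]; ring
  have hadj : (gr e l).adjoint ∘L gr e l
      = ContinuousLinearMap.id ℝ H + (((l e)⁻¹ ^ 2) • (innerSL ℝ p)).smulRight p := by
    ext1 y
    refine ext_inner_left ℝ fun z => ?_
    rw [ContinuousLinearMap.comp_apply, ContinuousLinearMap.adjoint_inner_right, gr_apply, gr_apply]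
    have h1 : ⟪(z : V), e⟫ = 0 := by rw [real_inner_comm]; exact hperp z
    simp only [inner_sub_left, inner_sub_right, inner_smul_left, inner_smul_right, hee, hperp, h1,
      _root_.add_apply,
      ContinuousLinearMap.smulRight_apply, _root_.smul_apply, innerSL_apply_apply,
      inner_add_right, smul_eq_mul, hpy, real_inner_comm p z, Submodule.coe_inner]
    simp only [conj_trivial]
    change _ = ⟪(z : V), (y : V)⟫ + _
    ring
  have hsq : jac (gr e l) ^ 2 = (‖l‖ / |l e|) ^ 2 := by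
    rw [jac_sq, hadj, det_id_add]
    simp only [_root_.smul_apply, innerSL_apply_apply, smul_eq_mul]
    rw [real_inner_self_eq_norm_sq, hpp, div_pow, sq_abs, hnw]
    field_simp
    ring
  exact (pow_left_inj₀ (jac_nonneg _) (by positivity) two_ne_zero).1 hsq

variable [MeasurableSpace V] [BorelSpace V]

/-- the orthogonal splitting `ℝ × e^⊥ → V` preserves the volume. -/
theorem lintegral_split {e : V} (he : ‖e‖ = 1) {G : V → ℝ≥0∞} (hG : Measurable G) :
    ∫⁻ x, G x = ∫⁻ t : ℝ, ∫⁻ y : (ℝ ∙ e)ᗮ, G (t • e + (y : V)) := by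
  have h1 := ((ℝ ∙ e).measurePreserving_measurableEquivProd (0 : V)).symm
  rw [InnerProductSpace.euclideanHausdorffMeasure_eq_volume] at h1
  have h2 := (LinearIsometryEquiv.toSpanUnitSingleton (𝕜 := ℝ) e he).measurePreserving
  have h3 := h2.prod (MeasurePreserving.id (volume : Measure (ℝ ∙ e)ᗮ))
  have h4 := h1.comp h3
  rw [← h4.lintegral_comp hG]
  refine (lintegral_prod _ (hG.comp h4.measurable).aemeasurable).trans ?_
  simp

/-- the chart `x ↦ x + (u x - ⟪e, x⟫) e`. -/
def chart (e : V) (u : V → ℝ) (x : V) : V := x + (u x - ⟪e, x⟫) • e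

/-- its derivative. -/
def dchart (e : V) (l : V →L[ℝ] ℝ) : V →L[ℝ] V :=
  ContinuousLinearMap.id ℝ V + (l - innerSL ℝ e).smulRight e

theorem det_dchart {e : V} (he : ‖e‖ = 1) (l : V →L[ℝ] ℝ) : (dchart e l).det = l e := by
  rw [dchart, det_id_add]
  simp [he]

theorem hasStrictFDerivAt_chart (e : V) {u : V → ℝ} {l : V →L[ℝ] ℝ} {x : V}
    (h : HasStrictFDerivAt u l x) : HasStrictFDerivAt (chart e u) (dchart e l) x :=
  (hasStrictFDerivAt_id x).add ((h.sub (innerSL ℝ e).hasStrictFDerivAt).smul_const e)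

theorem dchart_gr {e : V} (he : ‖e‖ = 1) {l : V →L[ℝ] ℝ} (hl : l e ≠ 0) (y : (ℝ ∙ e)ᗮ) :
    dchart e l (gr e l y) = y := by
  have hee : ⟪e, e⟫ = 1 := by rw [real_inner_self_eq_norm_sq, he]; norm_num
  have hperp : ⟪e, (y : V)⟫ = 0 := Submodule.mem_orthogonal_singleton_iff_inner_right.1 y.2
  rw [gr_apply]
  simp only [dchart, _root_.add_apply, ContinuousLinearMap.id_apply,
    ContinuousLinearMap.smulRight_apply, _root_.sub_apply, innerSL_apply_apply, map_sub, map_smul,
    hee, hperp]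
  have : (l e)⁻¹ * l y * l e = l y := by field_simp
  rw [show e + (l e - 1) • e = (l e) • e by module, smul_smul, this]
  module

/-- the coarea formula inside one chart. -/
theorem coarea_chart {e : V} (he : ‖e‖ = 1) {u : V → ℝ} (hu : ContDiff ℝ 1 u)
    (Φ : OpenPartialHomeomorph V V) (hΦ : (Φ : V → V) = chart e u) {S : Set V}
    (hS : MeasurableSet S) (hSΦ : S ⊆ Φ.source) (hne : ∀ x ∈ S, fderiv ℝ u x e ≠ 0)
    {h : V → ℝ≥0∞} (hh : Measurable h) :
    Measurable (fun t : ℝ => ∫⁻ x in S ∩ u ⁻¹' {t}, h x ∂μHE[finrank ℝ V - 1]) ∧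
    ∫⁻ t : ℝ, ∫⁻ x in S ∩ u ⁻¹' {t}, h x ∂μHE[finrank ℝ V - 1]
      = ∫⁻ x in S, h x * ‖fderiv ℝ u x‖ₑ := by
  classical
  have he0 : e ≠ 0 := by rintro rfl; simp at he
  have hee : ⟪e, e⟫ = 1 := by rw [real_inner_self_eq_norm_sq, he]; norm_num
  have hrk : finrank ℝ (ℝ ∙ e)ᗮ = finrank ℝ V - 1 := by
    have := (ℝ ∙ e).finrank_add_finrank_orthogonal
    rw [finrank_span_singleton he0] at this
    omega
  have hus : ∀ x, HasStrictFDerivAt u (fderiv ℝ u x) x := fun x =>
    hu.contDiffAt.hasStrictFDerivAt one_ne_zero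
  have hΦd : ∀ x, HasFDerivAt Φ (dchart e (fderiv ℝ u x)) x := fun x => by
    rw [hΦ]; exact (hasStrictFDerivAt_chart e (hus x)).hasFDerivAt
  have hinj : InjOn Φ S := Φ.injOn.mono hSΦ
  have hT : MeasurableSet (Φ '' S) :=
    hS.image_of_continuousOn_injOn (Φ.continuousOn.mono hSΦ) hinj
  -- a measurable version of the inverse
  let Ψ : V → V := Φ.target.piecewise Φ.symm (fun _ => 0)
  have hΨ : Measurable Ψ := ContinuousOn.measurable_piecewise Φ.continuousOn_symm
    continuousOn_const Φ.open_target.measurableSet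
  have hΨΦ : ∀ x ∈ S, Ψ (Φ x) = x := fun x hx => by
    simp only [Ψ, piecewise, if_pos (Φ.map_source (hSΦ hx))]
    exact Φ.left_inv (hSΦ hx)
  have hdc : Continuous (fderiv ℝ u) := hu.continuous_fderiv one_ne_zero
  let J : V → ℝ≥0∞ := fun x => ENNReal.ofReal (‖fderiv ℝ u x‖ / |fderiv ℝ u x e|)
  have hJ : Measurable J := by
    refine ENNReal.measurable_ofReal.comp (Measurable.div hdc.norm.measurable ?_)
    exact (hdc.clm_apply continuous_const).abs.measurable
  let G : V → ℝ≥0∞ := (Φ '' S).indicator fun q => J (Ψ q) * h (Ψ q)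
  have hG : Measurable G := ((hJ.comp hΨ).mul (hh.comp hΨ)).indicator hT
  -- the slices
  have hslice : ∀ t : ℝ, ∫⁻ x in S ∩ u ⁻¹' {t}, h x ∂μHE[finrank ℝ V - 1]
      = ∫⁻ y : (ℝ ∙ e)ᗮ, G (t • e + (y : V)) := by
    intro t
    let ι : (ℝ ∙ e)ᗮ → V := fun y => t • e + (y : V)
    have hι : Continuous ι := by fun_prop
    let St : Set (ℝ ∙ e)ᗮ := ι ⁻¹' (Φ '' S)
    have hSt : MeasurableSet St := hι.measurable hT
    have himg : (fun y => Φ.symm (ι y)) '' St = S ∩ u ⁻¹' {t} := by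
      ext x
      constructor
      · rintro ⟨y, ⟨x', hx', hxy⟩, rfl⟩
        simp only
        rw [← hxy, Φ.left_inv (hSΦ hx')]
        refine ⟨hx', ?_⟩
        have h1 : ⟪e, Φ x'⟫ = ⟪e, ι y⟫ := by rw [hxy]
        have hperp : ⟪e, (y : V)⟫ = 0 := Submodule.mem_orthogonal_singleton_iff_inner_right.1 y.2
        rw [hΦ] at h1
        simp only [chart, ι, inner_add_right, inner_smul_right, hee, hperp] at h1
        simp only [mem_preimage, mem_singleton_iff]
        linarith
      · rintro ⟨hx, hxt⟩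
        have hxt' : u x = t := hxt
        have hmem : x - ⟪e, x⟫ • e ∈ (ℝ ∙ e)ᗮ := by
          rw [Submodule.mem_orthogonal_singleton_iff_inner_right, inner_sub_right,
            inner_smul_right, hee]
          ring
        have h1 : ι ⟨_, hmem⟩ = Φ x := by
          rw [hΦ]
          simp only [ι, chart, hxt', sub_smul]
          abel
        refine ⟨⟨_, hmem⟩, ⟨x, hx, h1.symm⟩, ?_⟩
        simp only
        rw [h1, Φ.left_inv (hSΦ hx)]
    have hder : ∀ y ∈ St, HasFDerivWithinAt (fun y => Φ.symm (ι y))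
        (gr e (fderiv ℝ u (Ψ (ι y)))) St y := by
      rintro y ⟨x, hx, hxy⟩
      have hdet : (dchart e (fderiv ℝ u x)).det ≠ 0 := by
        rw [det_dchart he]; exact hne x hx
      let L := (dchart e (fderiv ℝ u x)).toContinuousLinearEquivOfDetNeZero hdet
      have h1 : HasFDerivAt Φ.symm (L.symm : V →L[ℝ] V) (ι y) := by
        refine Φ.hasFDerivAt_symm (hxy ▸ Φ.map_source (hSΦ hx)) ?_
        rw [← hxy, Φ.left_inv (hSΦ hx)]
        simpa [L] using hΦd x
      have h2 : HasFDerivAt ι (ℝ ∙ e)ᗮ.subtypeL y := (ℝ ∙ e)ᗮ.subtypeL.hasFDerivAt.const_add _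
      have h3 := (h1.comp y h2).hasFDerivWithinAt (s := St)
      rw [← hxy, hΨΦ x hx]
      refine h3.congr_fderiv ?_
      ext1 z
      simp only [ContinuousLinearMap.comp_apply, ContinuousLinearEquiv.coe_coe,
        Submodule.subtypeL_apply]
      rw [ContinuousLinearEquiv.symm_apply_eq]
      simpa [L] using (dchart_gr he (hne x hx) z).symm
    have hinj' : InjOn (fun y => Φ.symm (ι y)) St := by
      rintro y ⟨x, hx, hxy⟩ y' ⟨x', hx', hxy'⟩ hyy
      simp only at hyy
      rw [← hxy, ← hxy', Φ.left_inv (hSΦ hx), Φ.left_inv (hSΦ hx')] at hyy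
      have : ι y = ι y' := by rw [← hxy, ← hxy', hyy]
      exact Subtype.ext (add_left_cancel this)
    have key := lintegral_image_eq hSt hder hinj' h
    rw [himg, hrk] at key
    rw [key, ← lintegral_indicator hSt]
    refine lintegral_congr fun y => ?_
    by_cases hy : y ∈ St
    · obtain ⟨x, hx, hxy⟩ := hy
      have hy' : y ∈ St := ⟨x, hx, hxy⟩
      change _ = G (ι y)
      rw [indicator_of_mem hy']
      simp only [G]
      rw [indicator_of_mem (show ι y ∈ Φ '' S from hy'), ← hxy, hΨΦ x hx, Φ.left_inv (hSΦ hx),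
        jac_gr he (hne x hx)]
    · change _ = G (ι y)
      rw [indicator_of_notMem hy]
      simp only [G]
      rw [indicator_of_notMem (show ι y ∉ Φ '' S from hy)]
  simp_rw [hslice]
  refine ⟨?_, ?_⟩
  · refine Measurable.lintegral_prod_right' (f := fun p : ℝ × (ℝ ∙ e)ᗮ => G (p.1 • e + (p.2 : V)))
      (hG.comp ?_)
    fun_prop
  · rw [← lintegral_split he hG]
    simp only [G]
    rw [lintegral_indicator hT, lintegral_image_eq_lintegral_abs_det_fderiv_mul volume hS
      (fun x _ => (hΦd x).hasFDerivWithinAt) hinj]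
    refine setLIntegral_congr_fun hS fun x hx => ?_
    simp only [J]
    rw [hΨΦ x hx, det_dchart he, ← mul_assoc, ← ENNReal.ofReal_mul (abs_nonneg _),
      mul_div_cancel₀ _ (abs_ne_zero.2 (hne x hx)), mul_comm, ofReal_norm]

/-- **COAREA FORMULA** on a measurable set of regular points of a `C¹` function. -/
theorem coarea {u : V → ℝ} (hu : ContDiff ℝ 1 u) {S : Set V} (hS : MeasurableSet S)
    (hne : ∀ x ∈ S, fderiv ℝ u x ≠ 0) {h : V → ℝ≥0∞} (hh : Measurable h) :
    Measurable (fun t : ℝ => ∫⁻ x in S ∩ u ⁻¹' {t}, h x ∂μHE[finrank ℝ V - 1]) ∧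
    ∫⁻ t : ℝ, ∫⁻ x in S ∩ u ⁻¹' {t}, h x ∂μHE[finrank ℝ V - 1]
      = ∫⁻ x in S, h x * ‖fderiv ℝ u x‖ₑ := by
  classical
  have hdc : Continuous (fderiv ℝ u) := hu.continuous_fderiv one_ne_zero
  have loc : ∀ x ∈ S, ∃ O : Set V, IsOpen O ∧ x ∈ O ∧ ∀ T : Set V, MeasurableSet T → T ⊆ O →
      Measurable (fun t : ℝ => ∫⁻ x in T ∩ u ⁻¹' {t}, h x ∂μHE[finrank ℝ V - 1]) ∧
      ∫⁻ t : ℝ, ∫⁻ x in T ∩ u ⁻¹' {t}, h x ∂μHE[finrank ℝ V - 1]
        = ∫⁻ x in T, h x * ‖fderiv ℝ u x‖ₑ := by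
    intro x hx
    obtain ⟨v, hv⟩ : ∃ v, fderiv ℝ u x v ≠ 0 := by
      by_contra hc
      push Not at hc
      exact hne x hx (ContinuousLinearMap.ext hc)
    have hv0 : v ≠ 0 := by rintro rfl; simp at hv
    set e : V := ‖v‖⁻¹ • v with he'
    have he : ‖e‖ = 1 := norm_smul_inv_norm hv0
    have hle : fderiv ℝ u x e ≠ 0 := by
      rw [he', map_smul]
      exact smul_ne_zero (inv_ne_zero (norm_ne_zero_iff.2 hv0)) hv
    have hdet : (dchart e (fderiv ℝ u x)).det ≠ 0 := by rw [det_dchart he]; exact hle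
    let L := (dchart e (fderiv ℝ u x)).toContinuousLinearEquivOfDetNeZero hdet
    have hst : HasStrictFDerivAt (chart e u) (L : V →L[ℝ] V) x := by
      simpa [L] using hasStrictFDerivAt_chart e (hu.contDiffAt.hasStrictFDerivAt one_ne_zero)
    let Φ := hst.toOpenPartialHomeomorph (chart e u)
    refine ⟨Φ.source ∩ {y | fderiv ℝ u y e ≠ 0}, Φ.open_source.inter
      (isOpen_ne_fun (hdc.clm_apply continuous_const) continuous_const),
      ⟨hst.mem_toOpenPartialHomeomorph_source, hle⟩, fun T hT hTO => ?_⟩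
    exact coarea_chart he hu Φ rfl hT (fun y hy => (hTO hy).1) (fun y hy => (hTO hy).2) hh
  choose! O hO hxO hcO using loc
  rcases S.eq_empty_or_nonempty with rfl | hSne
  · simp
  obtain ⟨T, hTS, hTc, hcov⟩ := TopologicalSpace.countable_cover_nhdsWithin
    (f := O) (s := S) (fun x hx => mem_nhdsWithin_of_mem_nhds ((hO x hx).mem_nhds (hxO x hx)))
  have hTne : T.Nonempty := by
    obtain ⟨x, hx⟩ := hSne
    obtain ⟨y, hy⟩ := mem_iUnion.1 (hcov hx)
    obtain ⟨hy, -⟩ := mem_iUnion.1 hy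
    exact ⟨y, hy⟩
  obtain ⟨c, hc⟩ := hTc.exists_eq_range hTne
  have hcS : ∀ k, c k ∈ S := fun k => hTS (hc ▸ mem_range_self k)
  let B : ℕ → Set V := fun k => O (c k)
  let D : ℕ → Set V := fun k => S ∩ disjointed B k
  have hD : ∀ k, MeasurableSet (D k) := fun k =>
    hS.inter (MeasurableSet.disjointed (fun i => (hO _ (hcS i)).measurableSet) k)
  have hDO : ∀ k, D k ⊆ O (c k) := fun k => inter_subset_right.trans (disjointed_subset B k)
  have hDd : Pairwise (Disjoint on D) :=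
    pairwise_disjoint_mono (disjoint_disjointed B) fun k => inter_subset_right
  have hSD : S = ⋃ k, D k := by
    rw [← inter_iUnion, iUnion_disjointed, eq_comm, inter_eq_left]
    intro x hx
    obtain ⟨y, hy⟩ := mem_iUnion.1 (hcov hx)
    obtain ⟨hy, hxy⟩ := mem_iUnion.1 hy
    rw [hc] at hy
    obtain ⟨k, rfl⟩ := hy
    exact mem_iUnion.2 ⟨k, hxy⟩
  have hlev : ∀ t : ℝ, MeasurableSet (u ⁻¹' {t}) := fun t =>
    hu.continuous.measurable (measurableSet_singleton t)
  have hsum : ∀ t : ℝ, ∫⁻ x in S ∩ u ⁻¹' {t}, h x ∂μHE[finrank ℝ V - 1]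
      = ∑' k, ∫⁻ x in D k ∩ u ⁻¹' {t}, h x ∂μHE[finrank ℝ V - 1] := by
    intro t
    conv_lhs => rw [hSD, iUnion_inter]
    exact lintegral_iUnion (fun k => (hD k).inter (hlev t))
      (pairwise_disjoint_mono hDd fun k => inter_subset_left) _
  simp_rw [hsum]
  have hk := fun k => hcO (c k) (hcS k) (D k) (hD k) (hDO k)
  refine ⟨Measurable.tsum fun k => (hk k).1, ?_⟩
  rw [lintegral_tsum fun k => (hk k).1.aemeasurable]
  conv_rhs => rw [hSD]
  rw [lintegral_iUnion hD hDd]
  exact tsum_congr fun k => (hk k).2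

end Crest.Agent.N346.Coarea
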