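import Mathlib
import Crest.Agent.N346.Defs
import Crest.Agent.N346.P0.Coarea

/-! Row 346 (helper41): `bv0 : BV0Stmt` (generic tilt + coarea formula). -/

set_option autoImplicit false
open MeasureTheory Filter Topology Set Metric Module
open scoped ContDiff ENNReal RealInnerProductSpace
open Crest.GeometryTopology.CoordMetric
open Crest.MathPhysics.ExteriorData

noncomputable section

namespace Crest.Agent.N346.BV0

variable {n : ℕ}

theorem fderiv_eq_inner (u : E n → ℝ) (x v : E n) : fderiv ℝ u x v = ⟪euclidGrad u x, v⟫ := by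
  conv_lhs => rw [← (EuclideanSpace.basisFun (Fin n) ℝ).sum_repr v]
  simp only [map_sum, map_smul, smul_eq_mul, PiLp.inner_apply, euclidGrad, pderiv,
    EuclideanSpace.basisFun_apply, EuclideanSpace.basisFun_repr]
  simp

theorem fderiv_eq_innerSL (u : E n → ℝ) (x : E n) : fderiv ℝ u x = innerSL ℝ (euclidGrad u x) := by
  ext v; simp [fderiv_eq_inner]

theorem norm_fderiv (u : E n → ℝ) (x : E n) : ‖fderiv ℝ u x‖ = ‖euclidGrad u x‖ := by
  rw [fderiv_eq_innerSL, innerSL_apply_norm]

theorem contDiff_euclidGrad {u : E n → ℝ} (hu : ContDiff ℝ ∞ u) : ContDiff ℝ ∞ (euclidGrad u) := by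
  rw [contDiff_euclidean]
  intro i
  exact (hu.fderiv_right (m := ∞) (by simp)).clm_apply contDiff_const

theorem euclidGrad_of_hasFDerivAt {u : E n → ℝ} {x w : E n} (h : HasFDerivAt u (innerSL ℝ w) x) :
    euclidGrad u x = w := by
  ext i
  simp [euclidGrad, pderiv, h.fderiv, EuclideanSpace.inner_single_right]

/-- generic tilts: for almost every `a`, the critical values of `F + ⟪a, ·⟫` form a null set. -/
theorem ae_tilt {F : E n → ℝ} (hF : ContDiff ℝ ∞ F) :
    ∀ᵐ a : E n, ∀ᵐ t : ℝ, ∀ x, euclidGrad F x + a = 0 → F x + ⟪a, x⟫ ≠ t := by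
  let f : E n × ℝ → E n × ℝ := fun p => (-euclidGrad F p.1, F p.1 - ⟪euclidGrad F p.1, p.1⟫)
  have hG := contDiff_euclidGrad hF
  have hf : ContDiff ℝ ∞ f := by
    refine ContDiff.prodMk (hG.comp contDiff_fst).neg ((hF.comp contDiff_fst).sub ?_)
    exact (hG.comp contDiff_fst).inner ℝ contDiff_fst
  have hd : Differentiable ℝ f := hf.differentiable (by simp)
  have h0 : ((volume : Measure (E n)).prod (volume : Measure ℝ)) (f '' univ) = 0 := by
    refine addHaar_image_eq_zero_of_det_fderivWithin_eq_zero _ (f' := fderiv ℝ f)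
      (fun p _ => (hd p).hasFDerivAt.hasFDerivWithinAt) fun p _ => ?_
    have h1 : fderiv ℝ f p (0, 1) = 0 := by
      have h2 : HasDerivAt (fun s : ℝ => p + s • ((0, 1) : E n × ℝ)) (0, 1) 0 := by
        simpa using ((hasDerivAt_id (0 : ℝ)).smul_const ((0, 1) : E n × ℝ)).const_add p
      have h3 := (hd (p + (0 : ℝ) • ((0, 1) : E n × ℝ))).hasFDerivAt.comp_hasDerivAt 0 h2
      have h4 : (f ∘ fun s : ℝ => p + s • ((0, 1) : E n × ℝ)) = fun _ => f p := by
        ext1 s; simp [f]
      rw [h4] at h3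
      simpa using h3.unique (hasDerivAt_const 0 (f p))
    by_contra hdet
    have h5 := (LinearMap.equivOfDetNeZero _ hdet).injective
    have h6 : (LinearMap.equivOfDetNeZero _ hdet) (0, 1) = (LinearMap.equivOfDetNeZero _ hdet) 0 := by
      rw [map_zero]; exact h1
    simpa using h5 h6
  filter_upwards [Measure.measure_ae_null_of_prod_null h0] with a ha
  have ha' : volume (Prod.mk a ⁻¹' (f '' univ)) = 0 := ha
  filter_upwards [measure_eq_zero_iff_ae_notMem.1 ha'] with t ht x hx hxt
  refine ht ⟨(x, 0), mem_univ _, ?_⟩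
  have : euclidGrad F x = -a := eq_neg_of_add_eq_zero_left hx
  simp only [f, this, neg_neg, inner_neg_left, sub_neg_eq_add, hxt]

/-- the area density `√det g · |ξ|_{g⁻¹}`. -/
def dens (g : MetricField n) (x ξ : E n) : ℝ :=
  volDensity g x * Real.sqrt (∑ i, ∑ j, inverseField g x i j * ξ i * ξ j)

theorem dens_nonneg (g : MetricField n) (x ξ : E n) : 0 ≤ dens g x ξ :=
  mul_nonneg (Real.sqrt_nonneg _) (Real.sqrt_nonneg _)

theorem continuous_dens {g : MetricField n} (hg : IsRiemannianOn g univ) :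
    Continuous fun p : E n × E n => dens g p.1 p.2 := by
  have hc : Continuous g := continuous_matrix fun i j =>
    (contDiffOn_univ.1 (hg.contDiffOn i j)).continuous
  have hdet : Continuous fun x => (g x).det := hc.matrix_det
  have hinv : ∀ i j, Continuous fun x => inverseField g x i j := fun i j => by
    simp only [inverseField, Matrix.inv_def, Ring.inverse_eq_inv', Matrix.smul_apply, smul_eq_mul]
    exact (hdet.inv₀ fun x => (hg.posDef x (mem_univ x)).det_pos.ne').mul
      (hc.matrix_adjugate.matrix_elem i j)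
  unfold dens volDensity
  refine ((hdet.comp continuous_fst).sqrt).mul (Continuous.sqrt ?_)
  refine continuous_finsetSum _ fun i _ => continuous_finsetSum _ fun j _ => ?_
  refine (((hinv i j).comp continuous_fst).mul ?_).mul ?_ <;> fun_prop

/-- the estimate for one good tilt. -/
theorem tilt_bound (hn : 3 ≤ n) {g : MetricField n} (hg : IsRiemannianOn g univ) {A : ℝ}
    (hA : ENNReal.ofReal A ≤ minEnclosingArea g) {F : E n → ℝ} (hF : ContDiff ℝ ∞ F)
    (h0 : ∀ x ∈ closedBall (0 : E n) 1, F x = 0) {R : ℝ} (hR : 1 ≤ R)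
    (h1 : ∀ x, R ≤ ‖x‖ → F x = 1) {δ : ℝ} (hδ : 0 < δ) (hδ' : δ < 1 / 2) {a : E n}
    (ha : ‖a‖ * (2 * R) < δ)
    (hgood : ∀ᵐ t : ℝ, ∀ x, euclidGrad F x + a = 0 → F x + ⟪a, x⟫ ≠ t) :
    A * (1 - 2 * δ) ≤ ∫ x in closedBall (0 : E n) R, dens g x (euclidGrad F x + a) := by
  let χ : ContDiffBump (0 : E n) := ⟨R, 2 * R, by linarith, by linarith⟩
  let u : E n → ℝ := fun x => F x + χ x * ⟪a, x⟫
  have hu : ContDiff ℝ ∞ u := hF.add (χ.contDiff.mul (contDiff_const.inner ℝ contDiff_id))
  have hsmall : ∀ x, |χ x * ⟪a, x⟫| < δ := by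
    intro x
    by_cases hx : 2 * R ≤ ‖x‖
    · rw [χ.zero_of_le_dist (by simpa using hx)]; simpa using hδ
    · push Not at hx
      rw [abs_mul, abs_of_nonneg χ.nonneg]
      calc χ x * |⟪a, x⟫| ≤ 1 * (‖a‖ * ‖x‖) :=
            mul_le_mul χ.le_one (abs_real_inner_le_norm a x) (abs_nonneg _) zero_le_one
        _ ≤ ‖a‖ * (2 * R) := by rw [one_mul]; gcongr
        _ < δ := ha
  have hin : ∀ x, u x < 1 - δ → ‖x‖ < R := by
    intro x hx
    by_contra hc
    have := h1 x (not_lt.1 hc)
    have h2 := (abs_lt.1 (hsmall x)).1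
    simp only [u, this] at hx
    linarith
  have hgrad : ∀ x, ‖x‖ < R → euclidGrad u x = euclidGrad F x + a ∧ u x = F x + ⟪a, x⟫ := by
    intro x hx
    have hev : u =ᶠ[𝓝 x] fun y => F y + ⟪a, y⟫ := by
      filter_upwards [isOpen_ball.mem_nhds (mem_ball_zero_iff.2 hx)] with y hy
      simp only [u]
      rw [χ.one_of_mem_closedBall (ball_subset_closedBall hy), one_mul]
    refine ⟨euclidGrad_of_hasFDerivAt (HasFDerivAt.congr_of_eventuallyEq ?_ hev), hev.self_of_nhds⟩
    have h2 := ((hF.differentiable (by simp)) x).hasFDerivAt.add (innerSL ℝ a).hasFDerivAt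
    rw [fderiv_eq_innerSL] at h2
    rw [map_add]
    exact h2
  have hGc : Continuous (euclidGrad u) := (contDiff_euclidGrad hu).continuous
  let S : Set (E n) := {x | u x < 1 - δ} ∩ {x | euclidGrad u x ≠ 0}
  have hS : MeasurableSet S := ((isOpen_lt hu.continuous continuous_const).inter
    (isOpen_ne_fun hGc continuous_const)).measurableSet
  let h : E n → ℝ≥0∞ := fun x => ENNReal.ofReal (dens g x (euclidGrad u x) / ‖euclidGrad u x‖)
  have hdc : Continuous fun x => dens g x (euclidGrad u x) :=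
    (continuous_dens hg).comp (continuous_id.prodMk hGc)
  have hh : Measurable h := ENNReal.measurable_ofReal.comp (hdc.measurable.div hGc.norm.measurable)
  have hco := (Coarea.coarea (hu.of_le (by simp)) hS (fun x hx hc => hx.2 (by
    rw [← norm_eq_zero, ← norm_fderiv, hc, norm_zero])) hh).2
  rw [finrank_euclideanSpace_fin] at hco
  have hlow : ∀ᵐ t : ℝ, (Ioo δ (1 - δ)).indicator (fun _ => ENNReal.ofReal A) t
      ≤ ∫⁻ x in S ∩ u ⁻¹' {t}, h x ∂μHE[n - 1] := by
    filter_upwards [hgood] with t ht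
    by_cases htI : t ∈ Ioo δ (1 - δ)
    swap
    · rw [indicator_of_notMem htI]; exact zero_le
    rw [indicator_of_mem htI]
    have hg' : ∀ x, euclidGrad (fun y => u y - t) x = euclidGrad u x := fun x => by
      ext i; simp [euclidGrad, pderiv, fderiv_sub_const]
    have hreg : ∀ x, u x = t → euclidGrad u x ≠ 0 := by
      intro x hx hc
      obtain ⟨e1, e2⟩ := hgrad x (hin x (hx ▸ htI.2))
      exact ht x (e1 ▸ hc) (e2 ▸ hx)
    have hcut : IsEnclosingCut fun y => u y - t := by
      refine ⟨hu.sub contDiff_const, fun x hx => ?_, fun x hx => ?_, R, fun x hx => ?_⟩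
      · rw [hg']; exact hreg x (sub_eq_zero.1 hx)
      · have h2 := (abs_lt.1 (hsmall x)).2
        simp only [u, h0 x (mem_closedBall_zero_iff.2 hx.le)]
        linarith [htI.1]
      · have h2 := (abs_lt.1 (hsmall x)).1
        simp only [u, h1 x hx]
        linarith [htI.2]
    refine hA.trans ((iInf_le _ ⟨_, hcut⟩).trans (le_of_eq ?_))
    have hset : {x | u x - t = 0} = S ∩ u ⁻¹' {t} := by
      ext x
      simp only [mem_ofPred_eq, sub_eq_zero, S, mem_inter_iff, mem_preimage, mem_singleton_iff]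
      exact ⟨fun hx => ⟨⟨hx ▸ htI.2, hreg x hx⟩, hx⟩, fun hx => hx.2⟩
    simp only [levelSetArea, hg', hset]
    rfl
  have hle := lintegral_mono_ae hlow
  rw [lintegral_indicator measurableSet_Ioo, setLIntegral_const, Real.volume_Ioo, hco] at hle
  have hdc' : Continuous fun x => dens g x (euclidGrad F x + a) :=
    (continuous_dens hg).comp (continuous_id.prodMk
      ((contDiff_euclidGrad hF).continuous.add continuous_const))
  have hup : ∫⁻ x in S, h x * ‖fderiv ℝ u x‖ₑ
      ≤ ∫⁻ x in closedBall (0 : E n) R, ENNReal.ofReal (dens g x (euclidGrad F x + a)) := by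
    have hSR : S ⊆ closedBall 0 R := fun x hx => mem_closedBall_zero_iff.2 (hin x hx.1).le
    refine le_trans (le_of_eq (setLIntegral_congr_fun hS fun x hx => ?_)) (lintegral_mono_set hSR)
    simp only [h]
    rw [← ofReal_norm, norm_fderiv, ← ENNReal.ofReal_mul (div_nonneg (dens_nonneg _ _ _)
      (norm_nonneg _)), div_mul_cancel₀ _ (norm_ne_zero_iff.2 hx.2), (hgrad x (hin x hx.1)).1]
  rw [← ofReal_integral_eq_lintegral_ofReal (hdc'.continuousOn.integrableOn_compact
    (isCompact_closedBall _ _)) (ae_of_all _ fun x => dens_nonneg _ _ _)] at hup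
  have hfin := hle.trans hup
  have hnn : 0 ≤ ∫ x in closedBall (0 : E n) R, dens g x (euclidGrad F x + a) :=
    integral_nonneg fun x => dens_nonneg _ _ _
  rcases le_or_gt A 0 with hA0 | hA0
  · exact le_trans (mul_nonpos_of_nonpos_of_nonneg hA0 (by linarith)) hnn
  rw [← ENNReal.ofReal_mul hA0.le, ENNReal.ofReal_le_ofReal_iff hnn] at hfin
  convert hfin using 2
  ring

end Crest.Agent.N346.BV0

namespace Crest.Agent.N346

open BV0

theorem bv0 : BV0Stmt := by
  intro n hn g hg A hA F hF h0 ⟨R0, h1⟩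
  set R := max R0 1 with hR
  have hR1 : 1 ≤ R := le_max_right _ _
  have h1' : ∀ x : E n, R ≤ ‖x‖ → F x = 1 := fun x hx => h1 x ((le_max_left _ _).trans hx)
  let I : E n → ℝ := fun a => ∫ x in closedBall (0 : E n) R, dens g x (euclidGrad F x + a)
  have hI : Continuous I := by
    refine continuous_parametric_integral_of_continuous ?_ (isCompact_closedBall _ _)
    exact (continuous_dens hg).comp (continuous_snd.prodMk
      (((contDiff_euclidGrad hF).continuous.comp continuous_snd).add continuous_fst))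
  have hI0 : I 0 = ∫ x, Real.sqrt (gradSq g F x) * volDensity g x := by
    have e1 : ∀ x, dens g x (euclidGrad F x + 0) = Real.sqrt (gradSq g F x) * volDensity g x :=
      fun x => by rw [add_zero, mul_comm]; rfl
    simp only [I, e1]
    refine setIntegral_eq_integral_of_forall_compl_eq_zero fun x hx => ?_
    have hx' : R < ‖x‖ := by simpa using hx
    have hev : F =ᶠ[𝓝 x] fun _ => 1 := by
      filter_upwards [(isOpen_lt continuous_const continuous_norm).mem_nhds hx'] with y hy
      exact h1' y (le_of_lt hy)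
    simp [gradSq, gradDot, pderiv, hev.fderiv_eq]
  rw [← hI0]
  have key : ∀ δ : ℝ, 0 < δ → δ < 1 / 2 → A * (1 - 2 * δ) ≤ I 0 := by
    intro δ hδ hδ'
    by_contra hc
    push Not at hc
    have hopen : IsOpen ({a : E n | I a < A * (1 - 2 * δ)} ∩ {a | ‖a‖ * (2 * R) < δ}) :=
      (isOpen_lt hI continuous_const).inter (isOpen_lt (by fun_prop) continuous_const)
    have hpos := hopen.measure_pos (volume : Measure (E n)) ⟨0, hc, by simpa using hδ⟩
    obtain ⟨a, ha, hgood⟩ := Measure.exists_mem_of_measure_ne_zero_of_ae hpos.ne'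
      (ae_restrict_of_ae (ae_tilt hF))
    exact absurd (tilt_bound hn hg hA hF h0 hR1 h1' hδ hδ' ha.2 hgood) (not_le.2 ha.1)
  have hT : Tendsto (fun δ : ℝ => A * (1 - 2 * δ)) (𝓝[>] 0) (𝓝 (A * (1 - 2 * 0))) :=
    Tendsto.mono_left (Continuous.tendsto (by fun_prop) 0) nhdsWithin_le_nhds
  rw [mul_zero, sub_zero, mul_one] at hT
  refine le_of_tendsto hT ?_
  filter_upwards [Ioo_mem_nhdsGT (show (0 : ℝ) < 1 / 2 by norm_num)] with δ hδ
  exact key δ hδ.1 hδ.2

end Crest.Agent.N346
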