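import Crest.Agent.N346.P0.Lin
import Crest.Agent.N346.T.Sphere

/-! Row 346, Part 0 (helper66): averaged ADM fluxes, `flbd : FlBdStmt` and `avg : AvgStmt`. -/

set_option autoImplicit false
open MeasureTheory Filter Topology Set Metric
open scoped ContDiff
open Crest.GeometryTopology.CoordMetric
open Crest.MathPhysics.ExteriorData
open Crest.Agent.R202.SphDiv (Sph sig polar)

noncomputable section

namespace Crest.Agent.N346.P0
open Bs

variable {n : ℕ}

theorem flbd : FlBdStmt := by
  intro n
  obtain ⟨C, hC, h⟩ := exists_eta_grad n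
  refine ⟨n * C * (2 ^ n * volume.real (closedBall (0 : E n) 1)), by positivity,
    fun V R a hR ha hV hb => ?_⟩
  rw [integral_eta_divE hR fun i => smooth_one (hV i), abs_neg,
    ← setIntegral_eq_integral_of_forall_compl_eq_zero (s := closedBall 0 (2 * R)) fun x hx =>
      Finset.sum_eq_zero fun i _ => by
        rw [pd_eta_of_ge hR (not_le.1 (mt mem_closedBall_zero_iff.2 hx)).le, zero_mul]]
  rw [← Real.norm_eq_abs]
  refine (norm_setIntegral_le_of_norm_le_const (C := n * (C / R * a))
    (isCompact_closedBall (0 : E n) _).measure_lt_top fun x hx => ?_).trans (le_of_eq ?_)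
  · refine (Finset.abs_sum_le_sum_abs _ _).trans ((Finset.sum_le_card_nsmul _ _ (C / R * a)
      fun i _ => ?_).trans (by simp))
    rcases le_total ‖x‖ R with h1 | h1
    · rw [pd_eta_of_le hR h1, zero_mul, abs_zero]
      positivity
    · rw [abs_mul]
      exact mul_le_mul ((abs_pd_le i _ x).trans (h R hR x))
        (hb x h1 (mem_closedBall_zero_iff.1 hx) i) (abs_nonneg _) (by positivity)
  · rw [Measure.addHaar_real_closedBall' _ _ (by positivity), finrank_euclideanSpace_fin,
      Real.rpow_sub_one hR.ne', Real.rpow_natCast, mul_pow]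
    ring

/-- the averaged flux has the same limit as the flux through spheres -/
theorem avg_flux (hn : 0 < n) {V : VectorField n} (hV : ∀ i, ContDiff ℝ 1 fun x => V x i) {L : ℝ}
    (h : Tendsto (fun R => ∫ x in sphere (0 : E n) R, ∑ i, V x i * (x i / R) ∂μHE[n - 1]) atTop
      (𝓝 L)) : Tendsto (fun R => ∫ x, eta R x * divE V x) atTop (𝓝 L) := by
  set Φ : ℝ → ℝ := fun ρ =>
    ρ ^ (n - 1) * ∫ z : Sph n, ∑ i, V (ρ • (z : E n)) i * (z : E n) i ∂(sig n) with hΦ
  have hΦc : Continuous Φ := by
    refine (continuous_pow _).mul (T.continuous_slice (continuous_finsetSum _ fun i _ => ?_))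
    exact ((hV i).continuous.comp (by fun_prop)).mul (by fun_prop)
  have hΦt : Tendsto Φ atTop (𝓝 L) := by
    refine h.congr' ((eventually_gt_atTop 0).mono fun R hR => ?_)
    simp only [T.integral_sphere hn hR, hΦ, PiLp.smul_apply, smul_eq_mul,
      mul_div_cancel_left₀ _ hR.ne']
  rw [Metric.tendsto_atTop] at hΦt ⊢
  intro ε hε
  obtain ⟨N, hN⟩ := hΦt (ε / 2) (half_pos hε)
  refine ⟨max N 1, fun R hR' => ?_⟩
  have hR : 0 < R := one_pos.trans_le ((le_max_right _ _).trans hR')
  set f : ℝ → ℝ := fun r => Real.smoothTransition ((4 - r ^ 2 / R ^ 2) / 3) with hf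
  have hf1 : ContDiff ℝ 1 f := Real.smoothTransition.contDiff.comp (by fun_prop)
  have hf2 : HasCompactSupport f := .intro (isCompact_closedBall 0 (2 * R)) fun r hr => by
    refine Real.smoothTransition.zero_of_nonpos ?_
    rw [mem_closedBall_zero_iff, Real.norm_eq_abs, not_le] at hr
    have : 4 ≤ r ^ 2 / R ^ 2 := by rw [le_div_iff₀ (by positivity), ← sq_abs r]; nlinarith
    linarith
  have hd : ∀ r, deriv f r =
      -(2 / (3 * R ^ 2) * deriv Real.smoothTransition ((4 - r ^ 2 / R ^ 2) / 3) * r) := fun r => by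
    have h1 := ((Real.smoothTransition.contDiff (n := 1)).differentiable one_ne_zero
      ((4 - r ^ 2 / R ^ 2) / 3)).hasDerivAt.comp r
      ((((hasDerivAt_pow 2 r).div_const (R ^ 2)).const_sub 4).div_const 3)
    refine h1.deriv.trans ?_
    push_cast
    ring
  have hw0 : ∀ r, 0 ≤ r → deriv f r ≤ 0 := fun r hr => by
    rw [hd, neg_nonpos]
    have := Real.smoothTransition.monotone.deriv_nonneg (x := (4 - r ^ 2 / R ^ 2) / 3)
    positivity
  have hw1 : ∀ r, 0 ≤ r → r ≤ R → deriv f r = 0 := fun r hr hrR => by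
    refine IsLocalMax.deriv_eq_zero (.of_forall fun y =>
      (Real.smoothTransition.le_one _).trans (Real.smoothTransition.one_of_one_le ?_).ge)
    have : r ^ 2 / R ^ 2 ≤ 1 := (div_le_one (by positivity)).2 (by gcongr)
    linarith
  have hI : ∫ r in Ioi (0 : ℝ), deriv f r = -1 := by
    rw [hf2.integral_Ioi_deriv_eq hf1, hf]
    simp only
    rw [Real.smoothTransition.one_of_one_le (by norm_num)]
  have hc := hf1.continuous_deriv le_rfl
  have i1 : IntegrableOn (deriv f) (Ioi 0) :=
    (hc.integrable_of_hasCompactSupport hf2.deriv).integrableOn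
  have i2 : IntegrableOn (fun r => deriv f r * Φ r) (Ioi 0) :=
    ((hc.mul hΦc).integrable_of_hasCompactSupport hf2.deriv.mul_right).integrableOn
  have e : ∫ x, eta R x * divE V x = -∫ r in Ioi (0 : ℝ), deriv f r * Φ r := by
    rw [integral_eta_divE hR hV, polar hn (fun x => ∑ i, pderiv i (eta R) x * V x i)
      (integrable_finsetSum _ fun i _ =>
      ((contDiff_pd (contDiff_eta R) i).continuous.mul
        (hV i).continuous).integrable_of_hasCompactSupport
          (hasCompactSupport_pd (hasCompactSupport_eta hR) i).mul_right)]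
    congr 1
    refine setIntegral_congr_fun measurableSet_Ioi fun r hr => ?_
    simp only [hΦ]
    rw [mul_left_comm, ← integral_const_mul (deriv f r)]
    congr 2
    funext z
    rw [Finset.mul_sum]
    refine Finset.sum_congr rfl fun i _ => ?_
    rw [pd_eta, hd, norm_smul, mem_sphere_zero_iff_norm.1 z.2, mul_one, Real.norm_eq_abs, sq_abs,
      PiLp.smul_apply, smul_eq_mul]
    ring
  have e2 : (∫ x, eta R x * divE V x) - L = ∫ r in Ioi (0 : ℝ), deriv f r * (L - Φ r) := by
    simp only [mul_sub]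
    rw [integral_sub (i1.mul_const L) i2, integral_mul_const, hI, e]
    ring
  rw [dist_eq_norm, e2]
  refine (norm_integral_le_of_norm_le (i1.neg.mul_const (ε / 2))
    ((ae_restrict_iff' measurableSet_Ioi).2 (.of_forall fun r hr => ?_))).trans_lt ?_
  · rw [norm_mul, Real.norm_of_nonpos (hw0 r (le_of_lt hr)), Pi.neg_apply]
    rcases le_total r R with h1 | h1
    · simp [hw1 r (le_of_lt hr) h1]
    · refine mul_le_mul_of_nonneg_left ?_ (neg_nonneg.2 (hw0 r (le_of_lt hr)))
      rw [← dist_eq_norm, dist_comm]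
      exact (hN r (((le_max_left _ _).trans hR').trans h1)).le
  · simp only [Pi.neg_apply]
    rw [integral_mul_const, integral_neg, hI]
    linarith

theorem abs_sum_sum_le {F : Fin n → Fin n → ℝ} {c : ℝ} (h : ∀ a b, |F a b| ≤ c) :
    |∑ a, ∑ b, F a b| ≤ n * (n * c) :=
  (Finset.abs_sum_le_sum_abs _ _).trans ((Finset.sum_le_card_nsmul _ _ (n * c) fun a _ =>
    (Finset.abs_sum_le_sum_abs _ _).trans ((Finset.sum_le_card_nsmul _ _ c fun b _ =>
      h a b).trans (by simp))).trans (by simp))

theorem trace_diff {g K : MetricField n} {x : E n} {α κ : ℝ} (hg : (g x).PosDef)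
    (hα : ∀ i j, |g x i j - (1 : Matrix (Fin n) (Fin n) ℝ) i j| ≤ α) (hs : n * α ≤ 1 / 2)
    (hκ : ∀ i j, |K x i j| ≤ κ) (i j : Fin n) :
    |traceK g K x * g x i j - (∑ a, K x a a) * (1 : Matrix (Fin n) (Fin n) ℝ) i j| ≤
      (2 * n ^ 2 + 2 * n ^ 3) * (α * κ) := by
  have hα0 : 0 ≤ α := (abs_nonneg _).trans (hα i j)
  have hκ0 : 0 ≤ κ := (abs_nonneg _).trans (hκ i j)
  have hlo : Lo 2 g x := fun v => by
    have h1 := abs_quadForm_sub_le (g := fun _ => 1) (g' := g) hα v
    rw [quadForm_one] at h1
    nlinarith [(abs_le.1 h1).1, sq_nonneg ‖v‖]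
  have hi := hlo.abs_inv_le two_pos hg
  have h1 : ∀ a b, |inverseField g x a b - (1 : Matrix (Fin n) (Fin n) ℝ) a b| ≤ n * (2 * α) := by
    intro a b
    have e : inverseField g x a b - (1 : Matrix (Fin n) (Fin n) ℝ) a b =
        -∑ c, inverseField g x a c * (g x c b - (1 : Matrix (Fin n) (Fin n) ℝ) c b) := by
      simp only [mul_sub, Finset.sum_sub_distrib, inverseField, sum_inv_mul hg, Matrix.one_apply]
      simp
    rw [e, abs_neg]
    refine (Finset.abs_sum_le_sum_abs _ _).trans ((Finset.sum_le_card_nsmul _ _ (2 * α)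
      fun c _ => ?_).trans (by simp))
    rw [abs_mul]
    exact mul_le_mul (hi a c) (hα c b) (abs_nonneg _) two_pos.le
  have h2 : |traceK g K x| ≤ n * (n * (2 * κ)) := abs_sum_sum_le fun a b => by
    rw [abs_mul]
    exact mul_le_mul (hi a b) (hκ a b) (abs_nonneg _) two_pos.le
  have h3 : |traceK g K x - ∑ a, K x a a| ≤ n * (n * (n * (2 * α) * κ)) := by
    have e : traceK g K x - ∑ a, K x a a =
        ∑ a, ∑ b, (inverseField g x a b - (1 : Matrix (Fin n) (Fin n) ℝ) a b) * K x a b := by
      simp [traceK, sub_mul, Finset.sum_sub_distrib, Matrix.one_apply]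
    rw [e]
    refine abs_sum_sum_le fun a b => ?_
    rw [abs_mul]
    exact mul_le_mul (h1 a b) (hκ a b) (abs_nonneg _) (by positivity)
  have h4 : |(1 : Matrix (Fin n) (Fin n) ℝ) i j| ≤ 1 := by
    rw [Matrix.one_apply]
    split_ifs <;> simp
  calc _ = |traceK g K x * (g x i j - (1 : Matrix (Fin n) (Fin n) ℝ) i j) +
        (traceK g K x - ∑ a, K x a a) * (1 : Matrix (Fin n) (Fin n) ℝ) i j| := by congr 1; ring
    _ ≤ n * (n * (2 * κ)) * α + n * (n * (n * (2 * α) * κ)) * 1 := by
        refine (abs_add_le _ _).trans ?_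
        rw [abs_mul, abs_mul]
        gcongr
        exact hα i j
    _ = _ := by ring

theorem exists_entry_decay {F : Fin n → Fin n → E n → ℝ} {j : ℕ} {s : ℝ}
    (h : ∀ a b, DecaysAt j s (F a b)) :
    ∃ C : ℝ, 0 ≤ C ∧ ∀ x : E n, 1 ≤ ‖x‖ → ∀ a b, |F a b x| ≤ C * ‖x‖ ^ (-s) := by
  choose C hC0 hC using fun a b => jb_of_decaysAt (h a b)
  refine ⟨∑ a, ∑ b, C a b, Finset.sum_nonneg fun a _ => Finset.sum_nonneg fun b _ => hC0 a b,
    fun x hx a b => (hC a b x hx).abs_le.trans ?_⟩
  gcongr
  exact (Finset.single_le_sum (f := fun b => C a b) (fun b _ => hC0 a b) (Finset.mem_univ b)).trans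
    (Finset.single_le_sum (f := fun a => ∑ b, C a b)
      (fun a _ => Finset.sum_nonneg fun b _ => hC0 a b) (Finset.mem_univ a))

theorem avg : AvgStmt := by
  intro n hn q g K EE En P Q hD
  have hn0 : 0 < n := by omega
  have hn3 : (3 : ℝ) ≤ n := by exact_mod_cast hn
  have hω := T.unitSphereArea_pos hn0
  have hn1 : (n : ℝ) - 1 ≠ 0 := by linarith
  have hg := sm_riem hD.riem
  refine ⟨?_, fun i => ?_⟩
  · have h1 := avg_flux hn0 (V := eV fun y => g y - 1)
      (fun i => smooth_one (contDiff_eV (hg.sub (Sm.const 1)) i))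
      (L := 2 * ((n : ℝ) - 1) * unitSphereArea n * En) <| by
        refine (hD.energy.const_mul (2 * ((n : ℝ) - 1) * unitSphereArea n)).congr fun R => ?_
        rw [energyFlux, ← mul_assoc, mul_one_div_cancel (by positivity), one_mul]
        simp only [eV, Matrix.sub_apply, pd_sub_const, Finset.sum_mul]
    convert h1.div_const 2 using 2
    · rw [← integral_div]
      simp only [Lmu, mul_div_assoc]
    · ring
  · have hT : ContDiff ℝ ∞ (traceK g K) := ContDiff.sum fun a _ => ContDiff.sum fun b _ =>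
      (contDiff_inv hD.riem a b).mul (hD.K_smooth a b)
    have hW : ∀ j, ContDiff ℝ ∞ fun x => K x i j - traceK g K x * g x i j := fun j =>
      (hD.K_smooth i j).sub (hT.mul (hg i j))
    have hS : ∀ j, ContDiff ℝ ∞ fun x => traceK g K x * g x i j -
        (∑ a, K x a a) * (1 : Matrix (Fin n) (Fin n) ℝ) i j := fun j =>
      (hT.mul (hg i j)).sub ((ContDiff.sum fun a _ => hD.K_smooth a a).mul contDiff_const)
    have h1 := avg_flux hn0 (V := fun x j => K x i j - traceK g K x * g x i j)
      (fun j => smooth_one (hW j)) (L := ((n : ℝ) - 1) * unitSphereArea n * P i) <| by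
        refine ((hD.momentum i).const_mul (((n : ℝ) - 1) * unitSphereArea n)).congr fun R => ?_
        rw [momentumFlux, ← mul_assoc, mul_one_div_cancel (by positivity), one_mul]
    obtain ⟨C, hC, hb⟩ := flbd n
    obtain ⟨A, hA, hA'⟩ := exists_entry_decay hD.g_decay
    obtain ⟨B, hB, hB'⟩ := exists_entry_decay hD.K_decay
    have hq := hD.q_gt
    have hq0 : 0 < q := by linarith
    have h2 : Tendsto (fun R => ∫ x, eta R x * divE (fun x j => traceK g K x * g x i j -
        (∑ a, K x a a) * (1 : Matrix (Fin n) (Fin n) ℝ) i j) x) atTop (𝓝 0) := by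
      have t1 := (tendsto_rpow_neg_atTop hq0).const_mul (n * A)
      have t2 := (tendsto_rpow_neg_atTop (show 0 < 2 * q - (n - 2) by linarith)).const_mul
        (C * ((2 * n ^ 2 + 2 * n ^ 3) * (A * B)))
      rw [mul_zero] at t1 t2
      refine squeeze_zero_norm' ?_ t2
      filter_upwards [eventually_ge_atTop 1, t1.eventually (ge_mem_nhds one_half_pos)]
        with R hR hR'
      have hR0 : 0 < R := by linarith
      refine (hb _ R ((2 * n ^ 2 + 2 * n ^ 3) * (A * R ^ (-q) * (B * R ^ (-(1 + q))))) hR0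
        (by positivity) hS fun x hx _ j => ?_).trans (le_of_eq ?_)
      · refine trace_diff (riem_posDef hD.riem x) (fun a b => (hA' x (hR.trans hx) a b).trans ?_)
          (by linarith) (fun a b => (hB' x (hR.trans hx) a b).trans ?_) i j
        · exact mul_le_mul_of_nonneg_left (Real.rpow_le_rpow_of_nonpos hR0 hx (by linarith)) hA
        · exact mul_le_mul_of_nonneg_left (Real.rpow_le_rpow_of_nonpos hR0 hx (by linarith)) hB
      · rw [show -(2 * q - (n - 2)) = -q + -(1 + q) + ((n : ℝ) - 1) by ring, Real.rpow_add hR0,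
          Real.rpow_add hR0]
        ring
    have h3 := h1.add h2
    rw [add_zero] at h3
    refine h3.congr' ((eventually_gt_atTop 0).mono fun R hR => ?_)
    have hi : ∀ {V : VectorField n}, (∀ j, ContDiff ℝ ∞ fun x => V x j) →
        Integrable fun x => eta R x * divE V x := fun hV =>
      ((contDiff_eta R).continuous.mul (contDiff_divE hV).continuous).integrable_of_hasCompactSupport
        (hasCompactSupport_eta hR).mul_right
    simp only
    rw [← integral_add (hi hW) (hi hS)]
    refine integral_congr_ae (.of_forall fun x => ?_)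
    simp only
    rw [← mul_add, ← divE_add hW hS, LJ]
    congr 2
    funext y j
    simp [pV]

end Crest.Agent.N346.P0

end
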