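import Crest.Agent.N346.P0.Lin

/-! Row 346, Part 0 (helper20): step 0.4, bending the slice to `t = 0`
(`bend : STIStmt → PertStmt → BendStmt`). -/

set_option autoImplicit false
open MeasureTheory Filter Topology Matrix
open scoped ContDiff
open Crest.GeometryTopology.CoordMetric
open Crest.MathPhysics.ExteriorData

noncomputable section

namespace Crest.Agent.N346.P0
open Bs

namespace BendAux

variable {n : ℕ}

theorem exists_deriv_bound : ∃ M : ℝ, 0 < M ∧ ∀ t, |deriv Real.smoothTransition t| ≤ M := by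
  have hc : Continuous (deriv Real.smoothTransition) :=
    (Real.smoothTransition.contDiff (n := 1)).continuous_deriv le_rfl
  obtain ⟨M, hM⟩ := isCompact_Icc.exists_bound_of_continuousOn (s := Set.Icc (0 : ℝ) 1)
    hc.continuousOn
  refine ⟨|M| + 1, by positivity, fun t => ?_⟩
  have h0 := abs_nonneg M
  rcases le_total t 0 with h | h
  · rw [IsLocalMin.deriv_eq_zero (.of_forall fun y =>
      (Real.smoothTransition.zero_of_nonpos h).le.trans (Real.smoothTransition.nonneg y))]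
    simp only [abs_zero]; linarith
  rcases le_total 1 t with h' | h'
  · rw [IsLocalMax.deriv_eq_zero (.of_forall fun y =>
      (Real.smoothTransition.le_one y).trans (Real.smoothTransition.one_of_one_le h').ge)]
    simp only [abs_zero]; linarith
  · exact (hM t ⟨h, h'⟩).trans (by linarith [le_abs_self M])

/-- the logarithmic cut-off of the linear function `ξ · x` -/
theorem exists_cut (ξ : E n) {δ : ℝ} (hδ : 0 < δ) (ρ : ℝ) :
    ∃ (f : E n → ℝ) (R : ℝ), ContDiff ℝ ∞ f ∧ (∀ x, ‖x‖ ≤ ρ → f x = dotF ξ x) ∧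
      (∀ x, R ≤ ‖x‖ → f x = 0) ∧ ∀ x, ∃ (t : ℝ) (d : E n), 0 ≤ t ∧ t ≤ 1 ∧ ‖d‖ ≤ δ ∧
        ∀ i, pderiv i f x = t * ξ i + d i := by
  obtain ⟨M, hM0, hM⟩ := exists_deriv_bound
  obtain ⟨ι, hι, hιδ⟩ : ∃ ι : ℝ, 0 < ι ∧ 2 * M * ι * ‖ξ‖ ≤ δ := by
    refine ⟨δ / (2 * M * (‖ξ‖ + 1)), by positivity, ?_⟩
    have : 2 * M * (δ / (2 * M * (‖ξ‖ + 1))) * ‖ξ‖ = δ * (‖ξ‖ / (‖ξ‖ + 1)) := by field_simp
    rw [this]
    exact mul_le_of_le_one_right hδ.le (div_le_one_of_le₀ (by linarith) (by positivity))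
  set L := Real.log (1 + ρ ^ 2) with hL
  have hpos : ∀ y : E n, 0 < 1 + ‖y‖ ^ 2 := fun y => by positivity
  have hq : ContDiff ℝ ∞ fun y : E n => 1 + ‖y‖ ^ 2 := contDiff_const.add (contDiff_norm_sq ℝ)
  have hl : ContDiff ℝ ∞ fun y : E n => Real.log (1 + ‖y‖ ^ 2) := hq.log fun y => (hpos y).ne'
  have hu : ContDiff ℝ ∞ fun y : E n => 1 - ι * (Real.log (1 + ‖y‖ ^ 2) - L) :=
    contDiff_const.sub (contDiff_const.mul (hl.sub contDiff_const))
  have hχ : ContDiff ℝ ∞ fun y : E n =>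
      Real.smoothTransition (1 - ι * (Real.log (1 + ‖y‖ ^ 2) - L)) :=
    Real.smoothTransition.contDiff.comp hu
  refine ⟨fun y => Real.smoothTransition (1 - ι * (Real.log (1 + ‖y‖ ^ 2) - L)) * dotF ξ y,
    Real.exp (L + 1 / ι) + 1, hχ.mul (contDiff_dotF ξ), fun x hx => ?_, fun x hx => ?_,
    fun x => ?_⟩
  · have : Real.log (1 + ‖x‖ ^ 2) ≤ L := Real.log_le_log (hpos x) (by gcongr)
    beta_reduce
    rw [Real.smoothTransition.one_of_one_le (by nlinarith), one_mul]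
  · have h1 := Real.exp_pos (L + 1 / ι)
    have h2 : L + 1 / ι ≤ Real.log (1 + ‖x‖ ^ 2) := by
      rw [Real.le_log_iff_exp_le (hpos x)]; nlinarith
    have h3 : ι * (1 / ι) = 1 := by field_simp
    beta_reduce
    rw [Real.smoothTransition.zero_of_nonpos (by nlinarith), zero_mul]
  · set s := deriv Real.smoothTransition (1 - ι * (Real.log (1 + ‖x‖ ^ 2) - L)) with hs
    refine ⟨Real.smoothTransition (1 - ι * (Real.log (1 + ‖x‖ ^ 2) - L)),
      (-(s * ι * 2 * dotF ξ x / (1 + ‖x‖ ^ 2))) • x, Real.smoothTransition.nonneg _,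
      Real.smoothTransition.le_one _, ?_, fun i => ?_⟩
    · rw [norm_smul, Real.norm_eq_abs, abs_neg, abs_div, abs_of_pos (hpos x), abs_mul, abs_mul,
        abs_mul, abs_of_pos hι, abs_two, div_mul_eq_mul_div, div_le_iff₀ (hpos x)]
      calc |s| * ι * 2 * |dotF ξ x| * ‖x‖ ≤ M * ι * 2 * (‖ξ‖ * ‖x‖) * ‖x‖ := by
            gcongr
            · exact hM _
            · exact abs_dotF_le ξ x
        _ = 2 * M * ι * ‖ξ‖ * ‖x‖ ^ 2 := by ring
        _ ≤ δ * (1 + ‖x‖ ^ 2) := by gcongr; linarith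
    · have h1 := pd_comp (u := fun y : E n => 1 - ι * (Real.log (1 + ‖y‖ ^ 2) - L)) (x := x)
        ((Real.smoothTransition.contDiff (n := 1)).differentiable one_ne_zero _).hasDerivAt
        (smooth_diff hu x) i
      have h2 := pd_comp (u := fun y : E n => 1 + ‖y‖ ^ 2) (x := x)
        (Real.hasDerivAt_log (hpos x).ne') (smooth_diff hq x) i
      rw [pd_const_add, pd_normSq] at h2
      rw [pd_const_sub, pd_const_mul, pd_sub_const, h2, ← hs] at h1
      rw [pd_mul (smooth_diff hχ x) (smooth_diff (contDiff_dotF ξ) x), h1, pd_dotF]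
      simp only [PiLp.smul_apply, smul_eq_mul]
      ring

variable {b : Matrix (Fin n) (Fin n) ℝ} {c f f' : E n → ℝ} {x : E n}

theorem gS_congr (h : f =ᶠ[𝓝 x] f') : gS b c f x = gS b c f' x := by
  simp only [gS, Id.XX, pd_congr h]

theorem gS_congr' (h : f =ᶠ[𝓝 x] f') : gS b c f =ᶠ[𝓝 x] gS b c f' :=
  h.eventually_nhds.mono fun _ hy => gS_congr hy

theorem KS_congr (h : f =ᶠ[𝓝 x] f') : KS b c f x = KS b c f' x := by
  have h1 : R202.Tens.Gam (gS b c f) x = R202.Tens.Gam (gS b c f') x := by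
    simp only [R202.Tens.Gam, R202.Tens.christoffel_congr (gS_congr' h)]
  simp only [KS, Id.hh, Id.hessM, R247.Bo84.hess, Id.gm, Id.sq, R247.Bo84.gam, inverseField,
    pd_congr h, gS_congr h, h1, h.fderiv.fderiv_eq, h.fderiv_eq]

theorem KS_congr' (h : f =ᶠ[𝓝 x] f') : KS b c f =ᶠ[𝓝 x] KS b c f' :=
  h.eventually_nhds.mono fun _ hy => KS_congr hy

theorem quadForm_gS (b : Matrix (Fin n) (Fin n) ℝ) (c f : E n → ℝ) (x v : E n) :
    quadForm (gS b c f) x v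
      = Real.exp (2 * c x) * qb b v v - ph c x ^ 2 * (∑ i, pderiv i f x * v i) ^ 2 := by
  rw [sq (∑ i, _), Finset.sum_mul_sum]
  simp only [quadForm, gS, Id.XX, qb, Matrix.sub_apply, Matrix.smul_apply, Matrix.of_apply,
    smul_eq_mul, sub_mul, Finset.sum_sub_distrib, Finset.mul_sum]
  congr 1 <;> exact Finset.sum_congr rfl fun i _ => Finset.sum_congr rfl fun j _ => by ring

theorem qb_add_le {A : Matrix (Fin n) (Fin n) ℝ} (hA : A.PosDef) {u v : Fin n → ℝ} {p q t : ℝ}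
    (hp : 0 ≤ p) (hq : 0 ≤ q) (ht0 : 0 ≤ t) (ht1 : t ≤ 1) (hu : qb A u u ≤ p ^ 2)
    (hv : qb A v v ≤ q ^ 2) :
    qb A (fun i => t * u i + v i) (fun i => t * u i + v i) ≤ (p + q) ^ 2 := by
  have e : qb A (fun i => t * u i + v i) (fun i => t * u i + v i)
      = t ^ 2 * qb A u u + t * qb A u v + t * qb A v u + qb A v v := by
    simp only [qb, Finset.mul_sum, ← Finset.sum_add_distrib]
    exact Finset.sum_congr rfl fun i _ => Finset.sum_congr rfl fun j _ => by ring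
  have h0 := qb_nonneg hA u
  have h1 : qb A u v ≤ p * q := by
    refine (abs_le_of_sq_le_sq' ((qb_sq_le hA u v).trans ?_) (by positivity)).2
    rw [mul_pow]
    exact mul_le_mul hu hv (qb_nonneg hA v) (by positivity)
  have h2 : t * qb A u v ≤ p * q :=
    (mul_le_mul_of_nonneg_left h1 ht0).trans (mul_le_of_le_one_left (by positivity) ht1)
  have h3 : t ^ 2 * qb A u u ≤ p ^ 2 :=
    (mul_le_of_le_one_left h0 (pow_le_one₀ ht0 ht1)).trans hu
  rw [e, qb_comm (posDef_symm hA) v u]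
  nlinarith

theorem sq_dot_le {ξ d v : E n} {t δ : ℝ} (ht0 : 0 ≤ t) (ht1 : t ≤ 1) (hd : ‖d‖ ≤ δ)
    (hδ : δ ≤ 1) : (∑ i, (t * ξ i + d i) * v i) ^ 2
      ≤ (∑ i, ξ i * v i) ^ 2 + (2 * ‖ξ‖ + 1) * δ * ‖v‖ ^ 2 := by
  have e : ∑ i, (t * ξ i + d i) * v i = t * dotF ξ v + dotF d v := by
    simp only [dotF, Finset.mul_sum, ← Finset.sum_add_distrib]
    exact Finset.sum_congr rfl fun i _ => by ring
  have hδ0 : 0 ≤ δ := (norm_nonneg _).trans hd
  have h1 := abs_dotF_le ξ v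
  have h2 : |dotF d v| ≤ δ * ‖v‖ := (abs_dotF_le d v).trans (by gcongr)
  have h3 : t * dotF ξ v * dotF d v ≤ ‖ξ‖ * δ * ‖v‖ ^ 2 := by
    refine (le_abs_self _).trans ?_
    rw [abs_mul, abs_mul, abs_of_nonneg ht0]
    calc t * |dotF ξ v| * |dotF d v| ≤ 1 * (‖ξ‖ * ‖v‖) * (δ * ‖v‖) := by gcongr
      _ = _ := by ring
  have h4 : dotF d v ^ 2 ≤ δ * ‖v‖ ^ 2 := by
    calc dotF d v ^ 2 = |dotF d v| ^ 2 := (sq_abs _).symm
      _ ≤ (δ * ‖v‖) ^ 2 := by gcongr
      _ = δ * (δ * ‖v‖ ^ 2) := by ring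
      _ ≤ _ := mul_le_of_le_one_left (by positivity) hδ
  have h5 : (t * dotF ξ v) ^ 2 ≤ dotF ξ v ^ 2 := by
    rw [mul_pow]; exact mul_le_of_le_one_left (sq_nonneg _) (pow_le_one₀ ht0 ht1)
  rw [e]
  change _ ≤ dotF ξ v ^ 2 + _
  nlinarith

theorem one_sub_le_sqrt (n : ℕ) {κ ε : ℝ} (h0 : 0 ≤ κ) (h1 : κ ≤ 1) (h2 : n * κ ≤ ε) :
    1 - ε ≤ √((1 - κ) ^ (n - 1)) := by
  have h3 := one_add_mul_le_pow (a := -κ) (by linarith) (n - 1)
  have h4 : ((n - 1 : ℕ) : ℝ) ≤ n := by exact_mod_cast Nat.sub_le n 1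
  have h5 : (1 - κ) ^ (n - 1) ≤ 1 := pow_le_one₀ (by linarith) (by linarith)
  have h6 : 0 ≤ (1 - κ) ^ (n - 1) := pow_nonneg (by linarith) _
  rw [← sub_eq_add_neg] at h3
  refine le_trans (by nlinarith) (Real.le_sqrt_of_sq_le (x := (1 - κ) ^ (n - 1)) (by nlinarith))

end BendAux

open BendAux

set_option maxHeartbeats 800000 in
theorem bend : STIStmt → PertStmt → BendStmt := by
  intro hSTI hP n hn w ξ g0 B hB
  have hw1 := hB.w_lt
  have hw0 := norm_nonneg w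
  have hg0 := hB.g0_pos
  obtain ⟨C1, β0, hC1, hβ0, hS⟩ := hSTI n hn _ hB.posDef ((1 + ‖w‖) / 2) (by positivity)
    (by linarith)
  obtain ⟨C2, hC2, hP⟩ := hP n C1 hC1
  refine ⟨β0, hβ0, fun e0 m A Q g K EE ψ R1 C c0 θ0 r1 he0 he1 hA hM ε hε => ?_⟩
  set b := Bᵀ * B with hb
  set c : E n → ℝ := fun y => ψ (lin B y) with hc
  have hcs : ContDiff ℝ ∞ c := contDiff_comp_lin B hM.far.smooth
  have hcb : ∀ x, |c x| ≤ β0 := fun x => hM.ψ_small _
  have hn3 : (3 : ℝ) ≤ n := by exact_mod_cast hn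
  have hc0 := hM.c0_pos
  have hR1 := hM.R1_ge
  have hC : 0 ≤ C := by
    have := (norm_nonneg _).trans (hM.far.decay 0 (by norm_num) 0)
    simpa using this
  -- the unbent static data
  obtain ⟨hr0, hl0, -, hK0, hY0, -⟩ := hS c (dotF ξ) hcs (contDiff_dotF ξ) hcb fun x => by
    simp only [pd_dotF]
    exact hB.qb_inv_ξ.le.trans (by nlinarith)
  -- constants
  set Φ := Real.exp (((n : ℝ) - 2) * β0) ^ 2 with hΦ
  have hΦ0 : 0 < Φ := by positivity
  have hph : ∀ x, ph c x ^ 2 ≤ Φ := fun x => by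
    refine pow_le_pow_left₀ (Real.exp_pos _).le (Real.exp_le_exp.2 ?_) 2
    have := (abs_le.1 (hcb x)).1
    nlinarith
  obtain ⟨δ, hδ0, hδ1, hδ2, hδ3, hδ4⟩ : ∃ δ : ℝ, 0 < δ ∧ δ ≤ 1 ∧ δ ≤ (1 - ‖w‖) / 2 ∧
      C1 * (Φ * ((2 * ‖ξ‖ + 1) * δ)) ≤ 1 / 2 ∧ n * (C1 * (Φ * ((2 * ‖ξ‖ + 1) * δ))) ≤ ε := by
    have t0 : Tendsto (fun δ : ℝ => δ) (𝓝[>] 0) (𝓝 0) := tendsto_nhdsWithin_of_tendsto_nhds tendsto_id
    have t1 : Tendsto (fun δ : ℝ => C1 * (Φ * ((2 * ‖ξ‖ + 1) * δ))) (𝓝[>] 0) (𝓝 0) := by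
      simpa using ((t0.const_mul (2 * ‖ξ‖ + 1)).const_mul Φ).const_mul C1
    have t2 : Tendsto (fun δ : ℝ => n * (C1 * (Φ * ((2 * ‖ξ‖ + 1) * δ)))) (𝓝[>] 0) (𝓝 0) := by
      simpa using t1.const_mul (n : ℝ)
    exact ((eventually_mem_nhdsWithin (a := (0 : ℝ)) (s := Set.Ioi 0)).and
      ((t0.eventually (ge_mem_nhds one_pos)).and
      ((t0.eventually (ge_mem_nhds (by linarith))).and
      ((t1.eventually (ge_mem_nhds (by norm_num))).and (t2.eventually (ge_mem_nhds hε)))))).exists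
  set κ := C1 * (Φ * ((2 * ‖ξ‖ + 1) * δ)) with hκ
  have hκ0 : 0 ≤ κ := by positivity
  set a := C1⁻¹ * (c0 * g0 ^ (-(n : ℝ) - e0)) with ha
  have ha0 : 0 < a := by positivity
  set D := C2 * (n * C ^ 2) + C1 * (C * g0) ^ 2 with hD
  obtain ⟨ρ, hρ1, hρ2⟩ : ∃ ρ : ℝ, R1 < ρ ∧ ∀ r, ρ ≤ r → D * r ^ (-((n : ℝ) - 2 - e0)) ≤ a / 2 := by
    have t1 : Tendsto (fun r : ℝ => D * r ^ (-((n : ℝ) - 2 - e0))) atTop (𝓝 0) := by
      simpa using (tendsto_rpow_neg_atTop (y := (n : ℝ) - 2 - e0) (by linarith)).const_mul D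
    exact ((eventually_gt_atTop R1).and
      (eventually_forall_ge_atTop.2 (t1.eventually (ge_mem_nhds (half_pos ha0))))).exists
  obtain ⟨f, R, hfs, hf1, hf0, hfd⟩ := exists_cut ξ hδ0 ρ
  obtain ⟨hr1, hl1, hb1, hK1, hY1, hE1⟩ := hS c f hcs hfs hcb fun x => by
    obtain ⟨t, d, ht0, ht1, hd, hdf⟩ := hfd x
    simp only [hdf]
    refine (qb_add_le hB.posDef.inv hw0 (by linarith : 0 ≤ (1 - ‖w‖) / 2) ht0 ht1
      hB.qb_inv_ξ.le ?_).trans (le_of_eq (by ring))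
    rw [hB.qb_inv, ← norm_sq_eq]
    have : ‖d‖ ^ 2 ≤ ((1 - ‖w‖) / 2) ^ 2 := by gcongr; linarith
    nlinarith [sq_nonneg (∑ i, w i * d i)]
  set g' : MetricField n := fun x => g x + (gS b c f x - gS b c (dotF ξ) x) with hg'
  set K' : MetricField n := fun x => K x + (KS b c f x - KS b c (dotF ξ) x) with hK'
  have hfin : ∀ x : E n, ‖x‖ < ρ → f =ᶠ[𝓝 x] dotF ξ := fun x hx =>
    ((isOpen_lt continuous_norm continuous_const).eventually_mem hx).mono fun y hy => hf1 y hy.le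
  have hgin : ∀ x : E n, ‖x‖ < ρ → g' =ᶠ[𝓝 x] g := fun x hx =>
    (gS_congr' (b := b) (c := c) (hfin x hx)).mono fun y hy => by simp only [hg', hy, sub_self, add_zero]
  have hKin : ∀ x : E n, ‖x‖ < ρ → K' =ᶠ[𝓝 x] K := fun x hx =>
    (KS_congr' (b := b) (c := c) (hfin x hx)).mono fun y hy => by simp only [hK', hy, sub_self, add_zero]
  have hgout : ∀ x : E n, R1 ≤ ‖x‖ → g' x = gS b c f x := fun x hx => by
    simp only [hg', hM.g_far x hx]; abel
  have hKout : ∀ x : E n, R1 ≤ ‖x‖ → K' x = KS b c f x := fun x hx => by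
    simp only [hK', hM.K_far x hx]; abel
  have hcomp : ∀ x v, (1 - κ) * quadForm g x v ≤ quadForm g' x v := by
    intro x v
    rcases lt_or_ge ‖x‖ ρ with hx | hx
    · rw [quadForm_eq g', (hgin x hx).self_of_nhds, quadForm_eq]
      have := qb_nonneg (riem_posDef hM.riem x) v
      nlinarith
    · have hx' : R1 ≤ ‖x‖ := by linarith
      obtain ⟨t, d, ht0, ht1, hd, hdf⟩ := hfd x
      rw [quadForm_eq g', quadForm_eq, hgout x hx', hM.g_far x hx', ← quadForm_eq, ← quadForm_eq]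
      have h1 := (hl0 x).norm_sq_le (by linarith) v
      have h2 := sq_dot_le (ξ := ξ) (v := v) ht0 ht1 hd hδ1
      have h3 := mul_le_mul_of_nonneg_left h2 (sq_nonneg (ph c x))
      have h4 : ph c x ^ 2 * ((2 * ‖ξ‖ + 1) * δ * ‖v‖ ^ 2)
          ≤ Φ * ((2 * ‖ξ‖ + 1) * δ * (C1 * quadForm (gS b c (dotF ξ)) x v)) := by
        gcongr; exact hph x
      have h5 := quadForm_gS b c f x v
      have h6 := quadForm_gS b c (dotF ξ) x v
      simp only [hdf] at h5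
      simp only [pd_dotF] at h6
      rw [h5, hκ]
      nlinarith
  have hr' : IsRiemannianOn g' Set.univ := by
    have hs : Sm g' := (sm_riem hM.riem).add ((sm_riem hr1).sub (sm_riem hr0))
    have hy : Sy g' := (sy_riem hM.riem).add ((sy_riem hr1).sub (sy_riem hr0))
    refine ⟨isOpen_univ, fun i j => (hs i j).contDiffOn, fun x _ => posDef_of_qb (hy x) fun v hv => ?_⟩
    have h1 := hcomp x (WithLp.toLp 2 v)
    have h2 := qb_pos (riem_posDef hM.riem x) hv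
    exact lt_of_lt_of_le (mul_pos (by linarith) h2) h1
  have hfout : ∀ x : E n, R < ‖x‖ → f =ᶠ[𝓝 x] fun _ => 0 := fun x hx =>
    ((isOpen_lt continuous_const continuous_norm).eventually_mem hx).mono fun y hy => hf0 y hy.le
  refine ⟨g', K', max R R1 + 1, min c0 (a / 2),
    { R1_ge := by linarith [le_max_right R R1]
      c0_pos := lt_min hc0 (half_pos ha0)
      θ0_pos := hM.θ0_pos
      r1_gt := hM.r1_gt
      r1_lt := hM.r1_lt
      riem := hr'
      K_smooth := hM.K_smooth.add (hK1.sub hK0)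
      K_symm := hM.K_symm.add (hY1.sub hY0)
      far := hM.far.mono (by linarith [le_max_right R R1]) le_rfl (min_le_left _ _) le_rfl
      ψ_small := hM.ψ_small
      g_far := fun x hx => (hgout x (by linarith [le_max_right R R1])).trans
        (gS_congr (hfout x (by linarith [le_max_left R R1])))
      K_far := fun x hx => (hKout x (by linarith [le_max_right R R1])).trans
        (KS_congr (hfout x (by linarith [le_max_left R R1])))
      EE_smooth := hM.EE_smooth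
      EE_decay := hM.EE_decay
      EE_div := hM.EE_div
      charge := hM.charge
      dec := fun x hx => ?_
      trap := fun x h1 h2 => ?_
      area := (hM.area.mono_metric hM.riem hr' (by linarith) fun x _ => hcomp x).mono_area
        (mul_le_mul_of_nonneg_right (one_sub_le_sqrt n hκ0 (by linarith) hδ4) hA) }⟩
  · have hx0 : 0 < ‖x‖ := by linarith
    rcases lt_or_ge ‖x‖ ρ with hxρ | hxρ
    · exact DECE_congr (hgin x hxρ) (hKin x hxρ)
        (DECE_mono (hM.dec x hx) (by gcongr; exact min_le_left _ _))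
    have hU : ∀ᶠ y in 𝓝 x, R1 < ‖y‖ :=
      (isOpen_lt continuous_const continuous_norm).eventually_mem (show R1 < ‖x‖ by linarith)
    refine DECE_congr (hU.mono fun y hy => hgout y hy.le) (hU.mono fun y hy => hKout y hy.le) ?_
    rw [DECE_iff]
    intro v hv
    have hBx := hB.lo x
    have hlap : c0 * g0 ^ (-(n : ℝ) - e0) * ‖x‖ ^ (-(n : ℝ) - e0) ≤ -bl b⁻¹ c x := by
      rw [hb, hc, bl_comp_lin hB.det_ne hM.far.smooth, mul_assoc, ← Real.mul_rpow hg0.le hx0.le]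
      refine le_trans ?_ (hM.far.lap_pos _ (by linarith))
      exact mul_le_mul_of_nonneg_left
        (Real.rpow_le_rpow_of_nonpos (by linarith) (hB.hi x) (by linarith)) hc0.le
    have h1 := hE1 x (le_trans (by positivity) hlap) v hv
    have hp := riem_posDef hr1 x
    have h2 := (hP _ _ EE x 0 hp hp (hl1 x) (hl1 x) (hb1 x) (hb1 x) le_rfl (by simp) v hv).2.1
    have hr : ∀ y : ℝ, ‖x‖ ≤ y → (1 + y) ^ (1 - (n : ℝ)) ≤ ‖x‖ ^ (1 - (n : ℝ)) := fun y hy =>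
      Real.rpow_le_rpow_of_nonpos hx0 (by linarith) (by linarith)
    have h3 : ∑ i, EE x i ^ 2 ≤ n * (C * ‖x‖ ^ (1 - (n : ℝ))) ^ 2 := by
      have : ∀ i, EE x i ^ 2 ≤ (C * ‖x‖ ^ (1 - (n : ℝ))) ^ 2 := fun i => by
        rw [← sq_abs]
        gcongr
        exact (hM.EE_decay x i).trans (mul_le_mul_of_nonneg_left (hr _ le_rfl) hC)
      simpa using Finset.sum_le_sum (s := Finset.univ) fun i _ => this i
    have h4 : ‖fderiv ℝ c x‖ ≤ C * ‖x‖ ^ (1 - (n : ℝ)) * g0 := by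
      have e := ((smooth_diff hM.far.smooth (lin B x)).hasFDerivAt.comp x (lin B).hasFDerivAt).fderiv
      rw [show c = ψ ∘ lin B from rfl, e]
      refine (ContinuousLinearMap.opNorm_comp_le _ _).trans ?_
      have h5 := hM.far.decay 1 (by norm_num) (lin B x)
      rw [norm_iteratedFDeriv_one, Nat.cast_one, show 2 - (n : ℝ) - 1 = 1 - n by ring] at h5
      exact mul_le_mul (h5.trans (mul_le_mul_of_nonneg_left (hr _ hBx) hC)) hB.norm_lin_le
        (norm_nonneg _) (by positivity)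
    have h5 : (‖x‖ ^ (1 - (n : ℝ))) ^ 2 = ‖x‖ ^ (-((n : ℝ) - 2 - e0)) * ‖x‖ ^ (-(n : ℝ) - e0) := by
      rw [sq, ← Real.rpow_add hx0, ← Real.rpow_add hx0]; congr 1; ring
    have hs : 0 < ‖x‖ ^ (-(n : ℝ) - e0) := by positivity
    have h6 : D * (‖x‖ ^ (1 - (n : ℝ))) ^ 2 ≤ a / 2 * ‖x‖ ^ (-(n : ℝ) - e0) := by
      rw [h5, ← mul_assoc]
      exact mul_le_mul_of_nonneg_right (hρ2 _ hxρ) hs.le
    have h7 : C1 * ‖fderiv ℝ c x‖ ^ 2 ≤ C1 * (C * ‖x‖ ^ (1 - (n : ℝ)) * g0) ^ 2 := by gcongr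
    have h8 := mul_le_mul_of_nonneg_left h3 hC2
    have h9 := mul_le_mul_of_nonneg_left hlap (inv_pos.2 (by linarith : 0 < C1)).le
    have h10 : min c0 (a / 2) * ‖x‖ ^ (-(n : ℝ) - e0) ≤ a / 2 * ‖x‖ ^ (-(n : ℝ) - e0) := by
      gcongr; exact min_le_right _ _
    have h11 : C1⁻¹ * (c0 * g0 ^ (-(n : ℝ) - e0) * ‖x‖ ^ (-(n : ℝ) - e0))
        = a * ‖x‖ ^ (-(n : ℝ) - e0) := by rw [ha]; ring
    have h12 : D * (‖x‖ ^ (1 - (n : ℝ))) ^ 2 = C2 * (n * (C * ‖x‖ ^ (1 - (n : ℝ))) ^ 2)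
        + C1 * (C * ‖x‖ ^ (1 - (n : ℝ)) * g0) ^ 2 := by rw [hD]; ring
    linarith
  · have hx : ‖x‖ < ρ := by
      have := hM.r1_lt
      nlinarith [norm_nonneg x]
    rw [levelExp_congr (hgin x hx) (hKin x hx).self_of_nhds]
    exact hM.trap x h1 h2

end Crest.Agent.N346.P0

end
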