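import Crest.Agent.N346.P0.GA3

/-! Row 346, Part 0, step GA (helper15): `ga : NewtStmt → VStmt → FlBdStmt → GAStmt`. -/

set_option autoImplicit false
open MeasureTheory Filter Topology Matrix
open scoped ContDiff
open Crest.GeometryTopology.CoordMetric
open Crest.MathPhysics.ExteriorData

noncomputable section

namespace Crest.Agent.N346.P0
open Bs GA

variable {n : ℕ}

theorem GA.abs_sum_mul_le {e : Fin n → ℝ} {v : E n} {L : ℝ} (hv : ‖v‖ ≤ L) :
    |∑ i, e i * v i| ≤ (∑ i, |e i|) * L := by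
  rw [Finset.sum_mul]
  refine (Finset.abs_sum_le_sum_abs _ _).trans (Finset.sum_le_sum fun i _ => ?_)
  rw [abs_mul]
  gcongr
  exact (PiLp.norm_apply_le v i).trans hv

theorem GA.jb_annulus {k K : MetricField n} {Λ q R : ℝ} (hΛ : 0 ≤ Λ) (hq : 0 ≤ q) (hR : 0 < R)
    {x : E n} (hx : R ≤ ‖x‖) (h : JB k K x ‖x‖ (Λ * ‖x‖ ^ (-q))) : JB k K x R (Λ * R ^ (-q)) := by
  have h1 : Λ * ‖x‖ ^ (-q) ≤ Λ * R ^ (-q) :=
    mul_le_mul_of_nonneg_left (Real.rpow_le_rpow_of_nonpos hR hx (by linarith)) hΛ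
  exact ⟨fun i j => ((h.1 i j).scale hR hx).mono hR h1,
    fun i j => ((h.2 i j).scale hR hx).mono hR (by gcongr)⟩

theorem ga (hN : NewtStmt) (hV : VStmt) (hF : FlBdStmt) : GAStmt := by
  intro n q e0 hE g K EE E1 P Q A Λ c0 θ0 r1 S E' w ξ g0 B hE' hP hB Λ' hΛ'
  have hn := hE.n_ge
  have h3 : (3 : ℝ) ≤ n := by exact_mod_cast hn
  have hq := hE.q_lt
  have hq0 : 0 ≤ q := by linarith [hE.q_gt]
  have hΛ : 0 ≤ Λ := by linarith [S.Λ_ge]
  have hω := unitSphereArea_pos (n := n) (by omega)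
  have hk : Sm fun y => g y - 1 := (sm_riem S.riem).sub (Sm.const 1)
  have hK := S.K_smooth
  obtain ⟨CF, hCF, hFs⟩ := exists_F n
  obtain ⟨Cρ, hCρ, hρ⟩ := exists_rho n
  obtain ⟨CT, hCT, hT⟩ := exists_T hN hn
  obtain ⟨Cf, hCf, hF⟩ := hF n
  obtain ⟨Ω, hΩ⟩ : ∃ Ω : ℝ, Ω = ((n : ℝ) - 1) * unitSphereArea n := ⟨_, rfl⟩
  have hΩ0 : 0 < Ω := by rw [hΩ]; exact mul_pos (by linarith) hω
  set M0 := CF * Λ + (|Ω * E'| + Cf * n * Λ) * Cρ
  have hM0 : 0 ≤ M0 := by positivity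
  set M1 := CF * Λ + M0 + Cρ
  have hM1 : 0 ≤ M1 := by positivity
  obtain ⟨Cψ, c1, hCψ, hc1, hψ⟩ := exists_psi hN hV hE hB hM0
  refine ⟨Cψ + CT * (M1 * 3 ^ n), c1, by positivity, hc1, fun η hη => ?_⟩
  obtain ⟨η', hη', h1, h2⟩ : ∃ η' : ℝ, 0 < η' ∧ η' ≤ η ∧ η' * (1 + Λ') + n * η' * Λ' ≤ η := by
    have h : η / ((n + 1) * (1 + Λ')) * ((n + 1) * (1 + Λ')) = η := by field_simp
    have h0 : 0 < η / ((n + 1) * (1 + Λ')) := by positivity
    exact ⟨_, h0, div_le_self hη.le (by nlinarith), by nlinarith⟩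
  have hδ : Tendsto (fun R => ∑ i, |Ω * P i - ∫ x, eta R x * LJ K x i|) atTop (𝓝 0) := by
    have := tendsto_finsetSum Finset.univ fun i _ =>
      ((S.momentum i).const_sub (Ω * P i)).abs
    simpa [hΩ] using this
  have hδ' := hδ.mul_const Λ'
  rw [zero_mul] at hδ'
  filter_upwards [hψ η' hη', S.energy, eventually_ge_atTop 1, hδ.eventually_le_const one_pos,
    hδ'.eventually_le_const (mul_pos hΩ0 (sub_pos.2 hE'))] with R hψ hEn hR1 hδ1 hδ2
  rw [← hΩ] at hEn hψ
  have hR : 0 < R := by linarith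
  have hann : ∀ x : E n, R ≤ ‖x‖ → JB (fun y => g y - 1) K x R (Λ * R ^ (-q)) := fun x hx =>
    jb_annulus hΛ hq0 hR hx (S.decay x (hR1.trans hx))
  obtain ⟨hF0, hFi⟩ := hFs _ K hk hK R _ hR (by positivity) fun x hx _ => hann x hx
  have e1 : CF * (Λ * R ^ (-q) / R ^ 2) = CF * Λ * R ^ (-q - 2) := by
    rw [Real.rpow_sub hR, Real.rpow_two]; ring
  rw [e1] at hF0 hFi
  have hp : 0 < R ^ (-q - 2) := by positivity
  have e2 : R ^ ((n : ℝ) - q - 2) = R ^ (-q - 2) * R ^ n := by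
    rw [← Real.rpow_natCast, ← Real.rpow_add hR]; congr 1; ring
  have e3 : 1 ≤ R ^ (-q - 2) * R ^ n := e2 ▸ Real.one_le_rpow hR1 (by linarith)
  have hρ' : ∀ a b : ℝ, |a| ≤ b * (R ^ (-q - 2) * R ^ n) →
      Src (fun y : E n => a * rho R y) (3 * R) (b * Cρ * R ^ (-q - 2)) := fun a b h =>
    ((hρ R hR).const_mul a).mono (by positivity) (by
      calc _ ≤ b * (R ^ (-q - 2) * R ^ n) * (Cρ / R ^ n) := by gcongr
        _ = _ := by field_simp)
  obtain ⟨a, ha⟩ : ∃ a : ℝ, a = Ω * E' - ∫ x, eta R x * Lmu (fun y => g y - 1) x := ⟨_, rfl⟩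
  have ha0 : Ω * (E' - E1) ≤ a := by rw [ha]; linarith
  have ha1 : |a| ≤ (|Ω * E'| + Cf * n * Λ) * (R ^ (-q - 2) * R ^ n) := by
    have h := hF (eV fun y => g y - 1) R _ hR (by positivity) (contDiff_eV hk)
      fun x hx _ i => (jb_eV (j := 1) hR hk (hann x hx).1 i).abs_le
    have e4 : ∫ x, eta R x * Lmu (fun y => g y - 1) x
        = (∫ x, eta R x * divE (eV fun y => g y - 1) x) / 2 := by
      rw [← integral_div]; simp only [Lmu, mul_div_assoc]
    have e5 : Cf * (n * (Λ * R ^ (-q) / R + Λ * R ^ (-q) / R)) * R ^ ((n : ℝ) - 1)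
        = Cf * n * Λ * (R ^ (-q - 2) * R ^ n) * 2 := by
      rw [Real.rpow_sub hR, Real.rpow_sub hR, Real.rpow_two, Real.rpow_one, Real.rpow_natCast]
      field_simp
      ring
    rw [e5] at h
    rw [ha, e4]
    refine (abs_sub _ _).trans ?_
    rw [abs_div, abs_two]
    have := mul_le_mul_of_nonneg_left e3 (abs_nonneg (Ω * E'))
    linarith
  set δ : Fin n → ℝ := fun i => Ω * P i - ∫ x, eta R x * LJ K x i with hδd
  have hδi : ∀ i, |δ i| ≤ 1 * (R ^ (-q - 2) * R ^ n) := fun i =>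
    ((Finset.single_le_sum (f := fun i => |δ i|) (fun i _ => abs_nonneg _)
      (Finset.mem_univ i)).trans hδ1).trans (by linarith)
  have hw : ∀ i, |-w i| ≤ 1 := fun i => by
    rw [abs_neg]; exact (PiLp.norm_apply_le w i).trans hB.w_lt.le
  have s0 := hρ' a _ ha1
  have hG0 := (hF0.neg.add s0).mono (M' := M0 * R ^ (-q - 2)) (by positivity)
    (le_of_eq (by simp only [M0]; ring))
  have i0 : ∫ x, -F0 (fun y => g y - 1) R x + a * rho R x = Ω * E' := by
    rw [integral_add hF0.neg.integrable s0.integrable, integral_neg, integral_const_mul,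
      integral_rho hR, integral_F0 hk hR hF0.integrable, ha]
    ring
  have hGi := fun i => (((hFi i).neg.add (hG0.const_mul (-w i))).add (hρ' _ _ (hδi i))).mono
    (M' := M1 * R ^ (-q - 2)) (by positivity) (by
      have := mul_le_mul_of_nonneg_right (hw i) (mul_nonneg hM0 hp.le)
      simp only [M1]; linarith)
  obtain ⟨T, R2, hTs, hTy, hT0, hTj, hTl⟩ := hT _ _ _ (by linarith) hGi (fun i => by
    rw [integral_add ((hFi i).neg.add (hG0.const_mul (-w i))).integrable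
      (hρ' _ _ (hδi i)).integrable, integral_add (hFi i).neg.integrable
      (hG0.const_mul (-w i)).integrable, integral_neg, integral_const_mul, integral_const_mul,
      integral_rho hR, integral_Fi hK hR i (hFi i).integrable, i0, hδd, hP]
    simp only [PiLp.smul_apply, smul_eq_mul]
    ring) e0 hE.e0_pos.le hE.e0_lt_one η' hη'
  obtain ⟨ψ, s2, C', c', hfar, hc', hψj, hs0, hs1, hs2, hψl⟩ := hψ _ E' hG0 i0
  have hCT' : 0 ≤ CT * (M1 * 3 ^ n) := by positivity
  refine ⟨ψ, T, s2, max (g0 * (3 * R)) R2, C', c',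
    hfar.mono (le_max_left _ _) le_rfl le_rfl (by linarith), hc',
    fun k hk y => (hψj k hk y).trans (by gcongr; linarith), hTs, hTy, fun i j k hk x => ?_,
    le_max_of_le_left (by nlinarith [hB.g0_ge]), fun x hx => hT0 x ((le_max_right _ _).trans hx),
    hs0, fun x => (hs1 x).trans (by gcongr; linarith), hs2, fun x hx v hv => ?_⟩
  · have hx := norm_nonneg x
    have hr : 0 < R + ‖x‖ := by positivity
    refine (((hTj i j x).scale hr (by linarith)).mono hr ?_).to_rpow hr k hk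
    have := size (n := n) (ρ := 3 * R) (s := 1 - (n : ℝ)) hR (by linarith) hx hq.le (by linarith)
    rw [show (n : ℝ) - q - 2 + (1 - n) = -q - 1 by ring] at this
    calc _ = CT * (M1 * 3 ^ n) * (R ^ (-q - 2) * R ^ n * (3 * R + ‖x‖) ^ (1 - (n : ℝ))) := by
          rw [mul_pow]; ring
      _ ≤ _ := by gcongr; linarith
  · have b1 := hψl x hx
    have b2 := hTl x hx
    obtain ⟨p, hp⟩ : ∃ p : ℝ, p = ‖x‖ ^ (-(n : ℝ) - e0) := ⟨_, rfl⟩
    have hp0 : 0 ≤ p := by rw [hp]; positivity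
    rw [← hp] at b1 b2 ⊢
    obtain ⟨L, hL⟩ : ∃ L : ℝ, L = ((n : ℝ) - 1) * g0 ^ 2 * lap ψ (lin B x) := ⟨_, rfl⟩
    rw [← hL] at b1 ⊢
    change _ ≤ F0 (fun y => g y - 1) R x - L - ∑ i, (Fi K R i x - w i * L + LJ T x i) * v i
    set f := F0 (fun y => g y - 1) R x
    set e := L + (-f + a * rho R x) + s2 x with he
    set ε : Fin n → ℝ := fun i =>
      LJ T x i - (-Fi K R i x + -w i * (-f + a * rho R x) + δ i * rho R x) with hε
    have e4 : ∑ i, (Fi K R i x - w i * L + LJ T x i) * v i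
        = rho R x * ∑ i, δ i * v i + (s2 x - e) * dotF w v + ∑ i, ε i * v i := by
      simp only [dotF, Finset.mul_sum, ← Finset.sum_add_distrib, he, hε]
      exact Finset.sum_congr rfl fun i _ => by ring
    have b3 : ∑ i, δ i * v i ≤ a := ((le_abs_self _).trans (abs_sum_mul_le hv)).trans
      (hδ2.trans ha0)
    have b4 : ∑ i, ε i * v i ≤ n * η' * Λ' * p := by
      refine ((le_abs_self _).trans (abs_sum_mul_le hv)).trans ?_
      have : ∑ i, |ε i| ≤ n * (η' * p) := by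
        simpa using Finset.sum_le_card_nsmul Finset.univ (fun i => |ε i|) (η' * p) fun i _ => b2 i
      calc _ ≤ n * (η' * p) * Λ' := by gcongr
        _ = _ := by ring
    have b5 : e * (1 - dotF w v) ≤ η' * (1 + Λ') * p := by
      refine (le_abs_self _).trans ?_
      have : |1 - dotF w v| ≤ 1 + Λ' := by
        refine (abs_sub _ _).trans ?_
        have := (abs_dotF_le w v).trans (mul_le_mul hB.w_lt.le hv (norm_nonneg _) zero_le_one)
        rw [abs_one]; linarith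
      rw [abs_mul]
      calc _ ≤ η' * p * (1 + Λ') := by gcongr
        _ = _ := by ring
    have b6 := mul_le_mul_of_nonneg_left b3 (rho_nonneg hR x)
    have b7 := mul_le_mul_of_nonneg_right h2 hp0
    rw [e4]
    have e5 : L = e + f - a * rho R x - s2 x := by rw [he]; ring
    rw [e5]
    linarith

end Crest.Agent.N346.P0

end
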