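import Crest.Agent.N346.P0.GB1

/-! Row 346, Part 0 (helper11): step 0.3, nonlinear verification: `gb : … → GBStmt`. -/

set_option autoImplicit false
open MeasureTheory Filter Topology Matrix
open scoped ContDiff
open Crest.GeometryTopology.CoordMetric
open Crest.MathPhysics.ExteriorData

noncomputable section

namespace Crest.Agent.N346.P0.GB
open Bs

variable {n : ℕ} {q e0 R r : ℝ}
variable {g K : MetricField n} {EE : VectorField n} {E1 : ℝ} {P : E n} {Q A Λ c0 θ0 r1 : ℝ}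
variable {w ξ : E n} {g0 : ℝ} {B : Matrix (Fin n) (Fin n) ℝ}

/-- the glued metric -/
def gG (g : MetricField n) (B : Matrix (Fin n) (Fin n) ℝ) (ξ : E n) (ψ : E n → ℝ) (R : ℝ) :
    MetricField n := fun y => gc g R y + kp B ξ ψ y

/-- the glued second fundamental form -/
def KG (K : MetricField n) (B : Matrix (Fin n) (Fin n) ℝ) (ξ : E n) (ψ : E n → ℝ)
    (T : MetricField n) (R : ℝ) : MetricField n := fun y => Kc K R y + Kp B ξ ψ T y

theorem tendsto_Rq (hX : Expo n q e0) : Tendsto (fun R : ℝ => R ^ (-q)) atTop (𝓝 0) :=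
  tendsto_rpow_neg_atTop (q_pos hX)

theorem eventually_small {f : ℝ → ℝ} (hf : Tendsto f atTop (𝓝 0)) (D : ℝ) {β : ℝ} (hβ : 0 < β) :
    ∀ᶠ R in atTop, D * f R ≤ β := by
  have := hf.const_mul D
  rw [mul_zero] at this
  exact (this.eventually (gt_mem_nhds hβ)).mono fun _ h => h.le

set_option maxHeartbeats 1000000 in
/-- the main inequality for the glued data -/
theorem main_est (hJL : JLStmt) (hSTI : STIStmt) (hSJ : SJStmt) (hX : Expo n q e0)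
    (h : Strict n q e0 g K EE E1 P Q A Λ c0 θ0 r1) (hb : Boost w ξ g0 B) {C : ℝ} (hC : 0 ≤ C) :
    ∃ D : ℝ, Λ ≤ D ∧ ∀ᶠ R in atTop, ∀ (m c1 η : ℝ) (ψ : E n → ℝ) (T : MetricField n)
      (s2 : E n → ℝ) (R1 C' c' : ℝ), 0 ≤ η →
      LinOut n q e0 g K w g0 B m (2 * Λ) C c1 η R ψ T s2 R1 C' c' →
      IsRiemannianOn (gG g B ξ ψ R) Set.univ ∧ Sm (KG K B ξ ψ T R) ∧ Sy (KG K B ξ ψ T R) ∧
      (∀ x, Lo (2 * Λ) (gG g B ξ ψ R) x) ∧
      (∀ x i j, |kp B ξ ψ x i j| ≤ D * (R + ‖x‖) ^ (-q)) ∧ ∀ x : E n, 1 ≤ ‖x‖ →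
        (∀ i, |momentumDensity g K x i| ≤ D * (‖x‖ ^ (-q) / ‖x‖ ^ 2)) ∧
        ∀ v : E n, ‖v‖ ≤ 2 * Λ →
          eta R x * (energyDensity g K x - ∑ i, momentumDensity g K x i * v i)
            + s2 x * (1 - dotF w v) - η * ‖x‖ ^ (-(n : ℝ) - e0) - D * sg n q e0 R ‖x‖
          ≤ energyDensity (gG g B ξ ψ R) (KG K B ξ ψ T R) x
            - ∑ i, momentumDensity (gG g B ξ ψ R) (KG K B ξ ψ T R) x i * v i := by
  obtain ⟨D0, hD0, h0⟩ := cut_est hJL hX h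
  obtain ⟨D1, β1, hD1, hβ1, h1⟩ := pert_est (g := g) (K := K) hSTI hSJ hX hb hC
  have hΛ := h.Λ_ge
  have hD00 : 0 ≤ D0 := by linarith
  obtain ⟨CJ, hCJ, hJ⟩ := hJL n (2 * Λ + D0 + D1) (by linarith)
  obtain ⟨W, hW⟩ : ∃ z : ℝ, z = 1 + n * (2 * Λ) := ⟨_, rfl⟩
  have hW1 : 1 ≤ W := hW ▸ le_add_of_nonneg_right (by positivity)
  obtain ⟨F, hF⟩ : ∃ z : ℝ, z = 4 ^ ((n : ℝ) + e0) := ⟨_, rfl⟩
  have hF0 : 0 ≤ F := by rw [hF]; positivity
  obtain ⟨D2, hD2⟩ : ∃ z : ℝ, z = CJ * ((D0 + D1) * D1) := ⟨_, rfl⟩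
  have hD20 : 0 ≤ D2 := by rw [hD2]; positivity
  obtain ⟨D3, hD3⟩ : ∃ z : ℝ, z = n * (n + 1) * D1 * F := ⟨_, rfl⟩
  have hD30 : 0 ≤ D3 := by rw [hD3]; positivity
  obtain ⟨D4, hD4⟩ : ∃ z : ℝ, z = C * (1 + 2 * Λ) * F := ⟨_, rfl⟩
  have hD40 : 0 ≤ D4 := by rw [hD4]; positivity
  refine ⟨(D0 + D1 + D2 + D3) * W + D4, by nlinarith, ?_⟩
  filter_upwards [eventually_ge_atTop 5, eventually_small (tendsto_Rq hX) 1 hβ1,
    eventually_small (tendsto_Rq hX) (n * D1) (show 0 < (2 * Λ)⁻¹ by positivity)] with R hR5 hRβ hRΛ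
  intro m c1 η ψ T s2 R1 C' c' hη hL
  have hR : 1 ≤ R := by linarith
  obtain ⟨a1, a2, a3, a4⟩ := h0 R hR
  obtain ⟨b1, b2, b3, b4, b5, b6⟩ := h1 R hR (by linarith) m _ c1 η ψ T s2 R1 C' c' hL
  have hgs : (fun y => gG g B ξ ψ R y - gc g R y) = kp B ξ ψ := by funext y; simp [gG]
  have hKs : (fun y => KG K B ξ ψ T R y - Kc K R y) = Kp B ξ ψ T := by funext y; simp [KG]
  have hlo : ∀ x, Lo (2 * Λ) (gG g B ξ ψ R) x := fun x v => by
    have e1 := abs_le.1 (abs_quadForm_sub_le (g' := gG g B ξ ψ R) (g := gc g R) (x := x)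
      (a := D1 * R ^ (-q)) (fun i j => by
        have := b5 x i j
        rw [← hgs] at this
        exact this.trans (mul_le_mul_of_nonneg_left (t_le_R hX hR (norm_nonneg x)) hD1)) v)
    have e2 := a3 x v
    have e3 : n * (D1 * R ^ (-q)) * ‖v‖ ^ 2 ≤ (2 * Λ)⁻¹ * ‖v‖ ^ 2 := by
      gcongr; rwa [← mul_assoc]
    have e4 : Λ⁻¹ = 2 * (2 * Λ)⁻¹ := by field_simp
    rw [e4] at e2
    linarith [e1.1]
  have hri : IsRiemannianOn (gG g B ξ ψ R) Set.univ :=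
    riem_of_lo (by linarith) ((sm_riem a1).add b1) ((sy_riem a1).add b2) hlo
  have hKG : Sm (KG K B ξ ψ T R) := a2.add b3
  have hDD : ∀ {s : ℝ}, 0 ≤ s → ∀ {d : ℝ}, d ≤ D0 + D1 →
      d * s ≤ ((D0 + D1 + D2 + D3) * W + D4) * s := fun hs d hd => by
    gcongr; nlinarith
  refine ⟨hri, hKG, (h.K_symm.smul _).add b4, hlo,
    fun x i j => (b5 x i j).trans (hDD (by positivity) (by linarith)), fun x hx => ?_⟩
  obtain ⟨c1', c2, c3, c4⟩ := a4 x hx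
  obtain ⟨d1, d2⟩ := b6 x hx
  refine ⟨fun i => (c4 i).trans (hDD (by positivity) (by linarith)), fun v hv => ?_⟩
  have hx0 : 0 < ‖x‖ := by linarith
  have ha := a_le_one hX hx
  have ht := t_le_a hX hR hx
  have ht0 : 0 ≤ (R + ‖x‖) ^ (-q) := by positivity
  have hσ := sg_nonneg (n := n) (q := q) (e0 := e0) hR hx
  have hs1 := s1 hX hR hx
  have hs5 := fun h => hF ▸ s5 hX hR hx h
  have key := hL.key x hx v hv
  generalize sg n q e0 R ‖x‖ = σ at *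
  have hJ1 := hJ _ _ _ _ a1 hri a2 hKG x ‖x‖ (D0 * ‖x‖ ^ (-q)) (D1 * (R + ‖x‖) ^ (-q)) hx0
    (by positivity) (by nlinarith) (by positivity) (by nlinarith)
    ((a3 x).mono (by linarith) (by linarith)) ((hlo x).mono (by linarith) (by linarith)) c1'
    (by rw [hgs, hKs]; exact d1)
  rw [hgs, hKs] at hJ1
  have hs : CJ * ((D0 * ‖x‖ ^ (-q) + D1 * (R + ‖x‖) ^ (-q)) * (D1 * (R + ‖x‖) ^ (-q)) / ‖x‖ ^ 2)
      ≤ D2 * σ := by
    calc _ ≤ CJ * ((D0 * ‖x‖ ^ (-q) + D1 * ‖x‖ ^ (-q)) * (D1 * (R + ‖x‖) ^ (-q)) / ‖x‖ ^ 2) := by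
          gcongr
      _ = D2 * (‖x‖ ^ (-q) * (R + ‖x‖) ^ (-q) / ‖x‖ ^ 2) := by rw [hD2]; ring
      _ ≤ _ := by gcongr
  have e1 := abs_le.1 (hJ1.1.trans hs)
  have e2 := abs_le.1 c2
  have hsum : ∀ {e : Fin n → ℝ} {d : ℝ}, 0 ≤ d → (∀ i, |e i| ≤ d * σ) →
      |∑ i, e i * v i| ≤ d * (W - 1) * σ := fun {e d} hd he =>
    (abs_sum_mul_le he v).trans (by
      calc n * (d * σ) * ‖v‖ ≤ n * (d * σ) * (2 * Λ) := by gcongr
        _ = _ := by rw [hW]; ring)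
  have f1 := abs_le.1 (hsum hD20 fun i => (hJ1.2 i).trans hs)
  have f2 := abs_le.1 (hsum hD00 c3)
  simp only [sub_mul, Finset.sum_sub_distrib, mul_assoc (eta R x), ← Finset.mul_sum] at f1 f2
  rcases lt_or_ge 4 ‖x‖ with hx4 | hx4
  · obtain ⟨d3, d4⟩ := d2 hx4
    have e3 := abs_le.1 d3
    have f3 := abs_le.1 (hsum hD1 d4)
    simp only [sub_mul, add_mul, Finset.sum_sub_distrib, Finset.sum_add_distrib,
      mul_assoc (eta R x), ← Finset.mul_sum] at f3 key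
    have p1 : 0 ≤ D3 * W * σ := by positivity
    have p2 : 0 ≤ D4 * σ := by positivity
    linarith [e1.1, e2.1, e3.1, f1.2, f2.2, f3.2]
  · have hxR : ‖x‖ < R := by linarith
    have hR0 : 0 < R := by linarith
    have u1 : (fun y => eta R y • (g y - 1)) =ᶠ[𝓝 x] fun y => g y - 1 :=
      (eventually_norm_lt hxR).mono fun y hy => by simp [eta_eq_one hR0 hy.le]
    have u2 : (fun y => eta R y • K y) =ᶠ[𝓝 x] K :=
      (eventually_norm_lt hxR).mono fun y hy => Kc_near hR0 hy.le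
    simp only [Lmu_congr u1, LJ_congr u2, eta_eq_one hR0 hxR.le, one_mul] at e2 f2 ⊢
    have hts : D1 * (R + ‖x‖) ^ (-q) / ‖x‖ ^ 2 ≤ D1 * (F * σ) :=
      (div_le_self (by positivity) (one_le_pow₀ hx)).trans (mul_le_mul_of_nonneg_left (hs5 hx4) hD1)
    have e3 : |Lmu (kp B ξ ψ) x| ≤ D3 * σ := (abs_Lmu_le hx0 b1 d1.1).trans (by
      calc (n : ℝ) ^ 2 * (D1 * (R + ‖x‖) ^ (-q) / ‖x‖ ^ 2) ≤ (n * (n + 1)) * (D1 * (F * σ)) := by
            gcongr; nlinarith [Nat.cast_nonneg (α := ℝ) n]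
        _ = _ := by rw [hD3]; ring)
    have f3 := abs_le.1 (hsum (e := fun i => LJ (Kp B ξ ψ T) x i) hD30 fun i =>
      (abs_LJ_le hx0 b3 d1.2 i).trans (by
        calc (n : ℝ) * (n + 1) * (D1 * (R + ‖x‖) ^ (-q) / ‖x‖ ^ 2)
            ≤ (n * (n + 1)) * (D1 * (F * σ)) := by gcongr
          _ = _ := by rw [hD3]; ring))
    have g1 : s2 x * (1 - dotF w v) ≤ D4 * σ := by
      have i1 := hL.s2_le x
      have i2 : (R + ‖x‖) ^ (-q - 2) ≤ (R + ‖x‖) ^ (-q) :=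
        Real.rpow_le_rpow_of_exponent_le (by linarith) (by linarith)
      have i3 := abs_le.1 (abs_dotF_le w v)
      have i4 : ‖w‖ * ‖v‖ ≤ 1 * (2 * Λ) := by gcongr; exact hb.w_lt.le
      have i5 : 1 - dotF w v ≤ 1 + 2 * Λ := by linarith [i3.1]
      calc _ ≤ s2 x * (1 + 2 * Λ) := mul_le_mul_of_nonneg_left i5 (hL.s2_nonneg x)
        _ ≤ C * (F * σ) * (1 + 2 * Λ) := mul_le_mul_of_nonneg_right
            (i1.trans (mul_le_mul_of_nonneg_left (i2.trans (hs5 hx4)) hC)) (by linarith)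
        _ = _ := by rw [hD4]; ring
    have p1 : 0 ≤ D1 * W * σ := by positivity
    have p2 : 0 ≤ η * ‖x‖ ^ (-(n : ℝ) - e0) := by positivity
    have e3' := abs_le.1 e3
    simp only [add_mul] at f3 ⊢
    linarith [e1.1, e2.1, e3'.1, f1.2, f2.2, f3.2]

theorem eT_nonneg {x v : E n} (hp : (g x).PosDef)
    (hv : quadForm g x v ≤ 1) : 0 ≤ eT g EE x v :=
  add_nonneg (mul_nonneg (by linarith) (div_nonneg (qb_nonneg hp _) hp.det_pos.le)) (sq_nonneg _)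

set_option maxHeartbeats 2000000 in
theorem gb (hJL : JLStmt) (hSTI : STIStmt) (hSJ : SJStmt) (hP : PertStmt) : GBStmt := by
  intro n q e0 hX g K EE E1 P Q A Λ c0 θ0 r1 h hA w ξ g0 B hb C c1 β ε hC hc1 hβ hε
  obtain ⟨D, hD, hM⟩ := main_est hJL hSTI hSJ hX h hb hC
  have hΛ := h.Λ_ge
  have hD0 : 0 ≤ D := by linarith
  obtain ⟨CP, hCP, hPe⟩ := hP n (2 * Λ + 1 + 2 * D) (by linarith)
  have hw := hb.w_lt
  obtain ⟨c2, hc2⟩ : ∃ z : ℝ, z = min c0 (c1 * ((1 - ‖w‖) / 2)) := ⟨_, rfl⟩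
  have hc20 : 0 < c2 := hc2 ▸ lt_min h.c0_pos (mul_pos hc1 (by linarith))
  obtain ⟨D5, hD5⟩ : ∃ z : ℝ, z = n * (2 * D) * (2 * Λ) := ⟨_, rfl⟩
  have hD50 : 0 ≤ D5 := by rw [hD5]; positivity
  obtain ⟨D6, hD6⟩ : ∃ z : ℝ, z = n * D * (CP * (2 * D)) := ⟨_, rfl⟩
  have hD60 : 0 ≤ D6 := by rw [hD6]; positivity
  obtain ⟨D7, hD7⟩ : ∃ z : ℝ, z = CP * (1 + 2 * D) * (n * Λ ^ 2) := ⟨_, rfl⟩
  have hD70 : 0 ≤ D7 := by rw [hD7]; positivity
  refine ⟨c2 / 4, by positivity, ?_⟩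
  have hκ : Tendsto (fun R : ℝ => R ^ (-(2 * q - ((n : ℝ) - 2) - e0))) atTop (𝓝 0) :=
    tendsto_rpow_neg_atTop (by linarith [hX.e0_lt])
  have harea : ∀ᶠ R : ℝ in atTop, 1 - ε < √((1 - n * (2 * D) * Λ * R ^ (-q)) ^ (n - 1)) := by
    have h1 := (((tendsto_Rq hX).const_mul (n * (2 * D) * Λ)).const_sub 1).pow (n - 1)
    have h2 := h1.sqrt
    simp only [mul_zero, sub_zero, one_pow, Real.sqrt_one] at h2
    exact h2.eventually (lt_mem_nhds (by linarith))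
  filter_upwards [hM, eventually_ge_atTop 5, eventually_small (tendsto_Rq hX) C hβ,
    eventually_small (tendsto_Rq hX) D5 (show 0 < (1 - ‖w‖) / 2 by linarith),
    eventually_small (tendsto_Rq hX) (n * (2 * D) * Λ) one_pos,
    eventually_small hκ (D + D5 * C + D6 + D7) (show 0 < c2 / 4 by positivity), harea]
    with R hM hR5 hRβ hRw hR1 hRκ hRa
  intro m ψ T s2 R1 C' c' hL
  obtain ⟨hri, hKs, hKy, hlo, hkp, hmain⟩ := hM m c1 _ ψ T s2 R1 C' c' (by positivity) hL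
  have hR : 1 ≤ R := by linarith
  have hR0 : 0 < R := by linarith
  have hR1' := hL.R1_ge
  -- entries
  have hk : ∀ x : E n, 1 ≤ ‖x‖ → ∀ i j, |(g x - 1) i j| ≤ D * ‖x‖ ^ (-q) := fun x hx i j =>
    ((h.decay x hx).1 i j).abs_le.trans (by gcongr)
  have hnear : ∀ x : E n, ‖x‖ ≤ R → ∀ i j,
      |gG g B ξ ψ R x i j - g x i j| ≤ 2 * D * (R + ‖x‖) ^ (-q) := fun x hx i j => by
    have : 0 ≤ D * (R + ‖x‖) ^ (-q) := by positivity
    simp only [gG, gc_near hR0 hx, Matrix.add_apply, add_sub_cancel_left]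
    linarith [hkp x i j]
  have hall : ∀ x : E n, 1 ≤ ‖x‖ → ∀ i j,
      |gG g B ξ ψ R x i j - g x i j| ≤ 2 * D * ‖x‖ ^ (-q) ∧
      |gG g B ξ ψ R x i j - (1 : Matrix (Fin n) (Fin n) ℝ) i j| ≤ 2 * D * ‖x‖ ^ (-q) := by
    intro x hx i j
    have i1 := abs_le.1 (hk x hx i j)
    have i2 := abs_le.1 ((hkp x i j).trans (mul_le_mul_of_nonneg_left (t_le_a hX hR hx) hD0))
    have i3 := eta_nonneg R x
    have i4 := eta_le_one R x
    simp only [gG, gc, Matrix.add_apply, Matrix.smul_apply, Matrix.sub_apply, smul_eq_mul] at i1 ⊢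
    constructor <;> rw [abs_le] <;> constructor <;> nlinarith [i1.1, i1.2, i2.1, i2.2]
  have hgerm : ∀ x : E n, ‖x‖ < 2 → gG g B ξ ψ R =ᶠ[𝓝 x] g ∧ KG K B ξ ψ T R x = K x := by
    intro x hx
    refine ⟨(eventually_norm_lt hx).mono fun y hy => ?_, ?_⟩
    · simp [gG, kp, gc_near hR0 (show ‖y‖ ≤ R by linarith), eta_eq_one two_pos hy.le]
    · simp [KG, Kp, Kc_near hR0 (show ‖x‖ ≤ R by linarith), eta_eq_one two_pos hx.le]
  refine ⟨gG g B ξ ψ R, KG K B ξ ψ T R, max C' Λ, min (c2 / 2) c',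
    by linarith, lt_min (by positivity) hL.c'_pos, h.θ0_pos, h.r1_gt, h.r1_lt, hri, hKs, hKy,
    hL.far.mono le_rfl (le_max_left _ _) (min_le_right _ _) le_rfl, fun y => ?_, fun x hx => ?_,
    fun x hx => ?_, h.EE_smooth, fun x i => (h.EE_decay x i).trans ?_, h.EE_div, h.charge,
    fun x hx => ?_, fun x h1 h2 => ?_, ?_⟩
  · have := hL.ψ_jet 0 (by norm_num) y
    simp only [norm_iteratedFDeriv_zero, Real.norm_eq_abs, Nat.cast_zero, sub_zero] at this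
    exact this.trans ((mul_le_mul_of_nonneg_left (t_le_R hX hR (norm_nonneg y)) hC).trans hRβ)
  · simp [gG, gc, kp, eta_eq_zero hR0 (hR1'.trans hx),
      eta_eq_zero two_pos (show 2 * 2 ≤ ‖x‖ by linarith)]
  · simp [KG, Kc, Kp, eta_eq_zero hR0 (hR1'.trans hx), hL.T_far x hx,
      eta_eq_zero two_pos (show 2 * 2 ≤ ‖x‖ by linarith)]
  · gcongr; exact le_max_right _ _
  · -- the energy condition
    refine DECE_mono (m0 := c2 / 2 * ‖x‖ ^ (-(n : ℝ) - e0)) (DECE_iff.2 fun v hv => ?_)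
      (by gcongr; exact min_le_left _ _)
    have hx0 : 0 < ‖x‖ := by linarith
    have ha := a_le_one hX hx
    have ha0 : 0 ≤ ‖x‖ ^ (-q) := by positivity
    have hρ : 0 ≤ ‖x‖ ^ (-(n : ℝ) - e0) := by positivity
    have hσ := sg_nonneg (n := n) (q := q) (e0 := e0) hR hx
    have hv2 : ‖v‖ ^ 2 ≤ 2 * Λ :=
      ((hlo x).norm_sq_le (by linarith) v).trans (mul_le_of_le_one_right (by linarith) hv)
    have hv1 : ‖v‖ ≤ 2 * Λ := abs_le_of_sq_le_sq' (hv2.trans (by nlinarith)) (by linarith) |>.2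
    have hv3 : ‖v‖ ≤ 1 + D5 * ‖x‖ ^ (-q) := by
      have i1 := abs_le.1 (abs_quadForm_sub_le (g' := gG g B ξ ψ R) (g := fun _ => 1) (x := x)
        (fun i j => (hall x hx i j).2) v)
      rw [quadForm_one] at i1
      have i2 : n * (2 * D * ‖x‖ ^ (-q)) * ‖v‖ ^ 2 ≤ D5 * ‖x‖ ^ (-q) := by
        calc _ ≤ n * (2 * D * ‖x‖ ^ (-q)) * (2 * Λ) := by gcongr
          _ = _ := by rw [hD5]; ring
      have i3 : 0 ≤ D5 * ‖x‖ ^ (-q) := by positivity
      refine (abs_le_of_sq_le_sq' ?_ (by linarith)).2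
      nlinarith [i1.1]
    have hwv : dotF w v ≤ ‖w‖ + D5 * ‖x‖ ^ (-q) := by
      have i1 := (abs_le.1 (abs_dotF_le w v)).2
      have i3 : 0 ≤ D5 * ‖x‖ ^ (-q) := by positivity
      nlinarith [norm_nonneg w]
    obtain ⟨hJ, hmain⟩ := hmain x hx
    have hm := hmain v hv1
    have hE : ∑ i, EE x i ^ 2 ≤ n * Λ ^ 2 * ((1 + ‖x‖) ^ (1 - (n : ℝ))) ^ 2 := by
      calc _ ≤ ∑ _i : Fin n, (Λ * (1 + ‖x‖) ^ (1 - (n : ℝ))) ^ 2 :=
            Finset.sum_le_sum fun i _ => sq_le_sq' (abs_le.1 (h.EE_decay x i)).1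
              (abs_le.1 (h.EE_decay x i)).2
        _ = _ := by simp [mul_pow, mul_assoc]
    have hone : ∀ i j, |(1 : Matrix (Fin n) (Fin n) ℝ) i j| ≤ 1 := fun i j => by
      rw [Matrix.one_apply]; split_ifs <;> simp
    have hDa : D * ‖x‖ ^ (-q) ≤ D := mul_le_of_le_one_right hD0 ha
    have hPe' := fun (b : ℝ) => hPe g (gG g B ξ ψ R) EE x b (riem_posDef h.riem x)
      (riem_posDef hri x) ((h.g_lo x).mono (by linarith) (by linarith))
      ((hlo x).mono (by linarith) (by linarith))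
      (fun i j => by
        have i1 := abs_le.1 (hk x hx i j)
        have i2 := abs_le.1 (hone i j)
        rw [Matrix.sub_apply] at i1
        exact abs_le.2 ⟨by linarith [i1.1, i2.1], by linarith [i1.2, i2.2]⟩)
      (fun i j => by
        have i1 := abs_le.1 (hall x hx i j).2
        have i2 := abs_le.1 (hone i j)
        exact abs_le.2 ⟨by linarith [i1.1, i2.1], by linarith [i1.2, i2.2]⟩)
    have hJv : ∀ (v' : E n) (b : ℝ), ‖v' - v‖ ≤ CP * (2 * D * b) →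
        ∑ i, momentumDensity g K x i * v i ≤ ∑ i, momentumDensity g K x i * v' i
          + D6 * (‖x‖ ^ (-q) * b / ‖x‖ ^ 2) := fun v' b hb' => by
      have i1 := (abs_le.1 (abs_sum_mul_le hJ (v' - v))).1
      simp only [PiLp.sub_apply, mul_sub, Finset.sum_sub_distrib] at i1
      have i2 : n * (D * (‖x‖ ^ (-q) / ‖x‖ ^ 2)) * ‖v' - v‖
          ≤ D6 * (‖x‖ ^ (-q) * b / ‖x‖ ^ 2) := by
        calc _ ≤ n * (D * (‖x‖ ^ (-q) / ‖x‖ ^ 2)) * (CP * (2 * D * b)) := by gcongr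
          _ = _ := by rw [hD6]; ring
      linarith
    have hfin : (D + D5 * C + D6 + D7) * sg n q e0 R ‖x‖ ≤ c2 / 4 * ‖x‖ ^ (-(n : ℝ) - e0) := by
      rw [sg, ← mul_assoc]; gcongr
    have hs20 := hL.s2_nonneg x
    rcases le_total ‖x‖ R with hxR | hxR
    · obtain ⟨-, -, v', j1, j2, j3⟩ := hPe' _ (by positivity) (hnear x hxR) v hv
      have j4 := DECE_iff.1 (h.dec x hx) v' j1
      have j5 := hJv v' _ j2
      have j6 : D6 * (‖x‖ ^ (-q) * (R + ‖x‖) ^ (-q) / ‖x‖ ^ 2) ≤ D6 * sg n q e0 R ‖x‖ := by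
        gcongr; exact s1 hX hR hx
      have j7 : CP * (2 * D * (R + ‖x‖) ^ (-q)) * ∑ i, EE x i ^ 2 ≤ D7 * sg n q e0 R ‖x‖ := by
        calc _ ≤ CP * ((1 + 2 * D) * (R + ‖x‖) ^ (-q))
              * (n * Λ ^ 2 * ((1 + ‖x‖) ^ (1 - (n : ℝ))) ^ 2) := by gcongr; linarith
          _ = D7 * ((R + ‖x‖) ^ (-q) * ((1 + ‖x‖) ^ (1 - (n : ℝ))) ^ 2) := by rw [hD7]; ring
          _ ≤ _ := by gcongr; exact s4 hX hR hx
      have j8 : s2 x * (D5 * ‖x‖ ^ (-q)) ≤ D5 * C * sg n q e0 R ‖x‖ := by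
        have i1 : (R + ‖x‖) ^ (-q - 2) ≤ (R + ‖x‖) ^ (-q) / ‖x‖ ^ 2 := by
          rw [Real.rpow_sub (by positivity), Real.rpow_two]
          gcongr
          linarith
        calc _ ≤ C * ((R + ‖x‖) ^ (-q) / ‖x‖ ^ 2) * (D5 * ‖x‖ ^ (-q)) := by
              gcongr; exact (hL.s2_le x).trans (by gcongr)
          _ = D5 * C * (‖x‖ ^ (-q) * (R + ‖x‖) ^ (-q) / ‖x‖ ^ 2) := by ring
          _ ≤ _ := by gcongr; exact s1 hX hR hx
      have j9 : -(s2 x * (D5 * ‖x‖ ^ (-q))) ≤ s2 x * (1 - dotF w v) := by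
        rw [← mul_neg]; gcongr; linarith
      have j10 : c2 * ‖x‖ ^ (-(n : ℝ) - e0) ≤ c0 * ‖x‖ ^ (-(n : ℝ) - e0) := by
        gcongr; exact hc2 ▸ min_le_left _ _
      rw [eta_eq_one hR0 hxR, one_mul] at hm
      linarith
    · obtain ⟨-, j0, v', j1, j2, -⟩ := hPe' _ (by positivity) (fun i j => (hall x hx i j).1) v hv
      have j3 := eT_nonneg (EE := EE) (riem_posDef h.riem x) j1
      have j4 := DECE_iff.1 (h.dec x hx) v' j1
      have j5 := hJv v' _ j2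
      have j6 : D6 * (‖x‖ ^ (-q) * ‖x‖ ^ (-q) / ‖x‖ ^ 2) ≤ D6 * sg n q e0 R ‖x‖ := by
        gcongr; rw [← sq]; exact GB.s2 hX hR hxR
      have j7 : CP * ∑ i, EE x i ^ 2 ≤ D7 * sg n q e0 R ‖x‖ := by
        calc _ ≤ CP * (1 + 2 * D) * (n * Λ ^ 2 * ((1 + ‖x‖) ^ (1 - (n : ℝ))) ^ 2) := by
              gcongr; nlinarith
          _ = D7 * ((1 + ‖x‖) ^ (1 - (n : ℝ))) ^ 2 := by rw [hD7]; ring
          _ ≤ _ := by gcongr; exact s3 hX hR hxR
      have j8 : D5 * ‖x‖ ^ (-q) ≤ (1 - ‖w‖) / 2 :=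
        (mul_le_mul_of_nonneg_left (a_le_R hX hR hxR) hD50).trans hRw
      have j9 : c2 * ‖x‖ ^ (-(n : ℝ) - e0) ≤ s2 x * (1 - dotF w v) := by
        calc _ ≤ c1 * ((1 - ‖w‖) / 2) * ‖x‖ ^ (-(n : ℝ) - e0) := by
              gcongr; exact hc2 ▸ min_le_right _ _
          _ = c1 * ‖x‖ ^ (-(n : ℝ) - e0) * ((1 - ‖w‖) / 2) := by ring
          _ ≤ _ := mul_le_mul (hL.s2_ge x hxR) (by linarith) (by linarith) hs20
      have j10 : 0 ≤ c0 * ‖x‖ ^ (-(n : ℝ) - e0) := by have := h.c0_pos; positivity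
      have j11 : -(D6 * sg n q e0 R ‖x‖) ≤
          eta R x * (energyDensity g K x - ∑ i, momentumDensity g K x i * v i) := by
        have i1 := eta_nonneg R x
        have i2 := eta_le_one R x
        have i3 : 0 ≤ D6 * sg n q e0 R ‖x‖ := by positivity
        have i4 : -(D6 * sg n q e0 R ‖x‖) ≤
          energyDensity g K x - ∑ i, momentumDensity g K x i * v i := by linarith
        nlinarith
      have j12 : 0 ≤ D5 * C * sg n q e0 R ‖x‖ := by positivity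
      linarith
  · have hx : ‖x‖ < 2 := by nlinarith [h.r1_lt, norm_nonneg x]
    rw [levelExp_congr (hgerm x hx).1 (hgerm x hx).2]
    exact h.trap x h1 h2
  · refine (h.area.mono_metric h.riem hri (k := 1 - n * (2 * D) * Λ * R ^ (-q)) (by linarith)
      fun x _ v => ?_).mono_area (by gcongr)
    have i1 : ∀ i j, |gG g B ξ ψ R x i j - g x i j| ≤ 2 * D * R ^ (-q) := fun i j => by
      rcases le_total ‖x‖ R with hxR | hxR
      · exact (hnear x hxR i j).trans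
          (mul_le_mul_of_nonneg_left (t_le_R hX hR (norm_nonneg x)) (by linarith))
      · exact (hall x (hR.trans hxR) i j).1.trans
          (mul_le_mul_of_nonneg_left (a_le_R hX hR hxR) (by linarith))
    have i2 := (abs_le.1 (abs_quadForm_sub_le i1 v)).1
    have i3 : n * (2 * D * R ^ (-q)) * ‖v‖ ^ 2
        ≤ n * (2 * D * R ^ (-q)) * (Λ * quadForm g x v) := by
      gcongr; exact (h.g_lo x).norm_sq_le (by linarith) v
    linarith

end Crest.Agent.N346.P0.GB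

end
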