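import Crest.Agent.N346.P0.Jet

/-! Row 346, Part 0 (helper6): `hom : HomStmt`, `vv : HomStmt → VStmt`. -/

set_option autoImplicit false
open MeasureTheory Filter Topology Matrix
open scoped ContDiff
open Crest.GeometryTopology.CoordMetric
open Crest.MathPhysics.ExteriorData

noncomputable section

namespace Crest.Agent.N346.P0
open Bs

variable {n : ℕ} {f : E n → ℝ} {x : E n} {r τ p : ℝ}

theorem norm_proj_le (i : Fin n) : ‖(EuclideanSpace.proj i : E n →L[ℝ] ℝ)‖ ≤ 1 :=
  ContinuousLinearMap.opNorm_le_bound _ zero_le_one fun y => by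
    simpa using PiLp.norm_apply_le y i

/-- the `k + 1`-st derivative is bounded by the `k`-th derivatives of the partial derivatives -/
theorem norm_succ_le (hf : ContDiff ℝ ∞ f) (k : ℕ) (x : E n) :
    ‖iteratedFDeriv ℝ (k + 1) f x‖ ≤ ∑ i, ‖iteratedFDeriv ℝ k (pderiv i f) x‖ := by
  have e : fderiv ℝ f = fun y => ∑ i, (ContinuousLinearMap.toSpanSingleton ℝ
      (EuclideanSpace.proj i : E n →L[ℝ] ℝ) ∘ pderiv i f) y := by
    ext y w
    simp [fderiv_eq_sum]
  rw [← norm_iteratedFDeriv_fderiv, e, iteratedFDeriv_fun_sum_apply fun i _ =>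
    ((ContinuousLinearMap.contDiff _).comp ((contDiff_pd hf i).of_le (natle k))).contDiffAt]
  refine (norm_sum_le _ _).trans (Finset.sum_le_sum fun i _ => ?_)
  refine (ContinuousLinearMap.norm_iteratedFDeriv_comp_left _ (contDiff_pd hf i).contDiffAt
    (natle k)).trans (mul_le_of_le_one_left (norm_nonneg _) ?_)
  rw [ContinuousLinearMap.norm_toSpanSingleton]
  exact norm_proj_le i

theorem Jb.of_pd {j : ℕ} {a b : ℝ} (hf : ContDiff ℝ ∞ f) (hr : 0 < r) (h0 : |f x| ≤ a)
    (h : ∀ i, Jb j (pderiv i f) x r (b / r)) (hb : n * b ≤ a) : Jb (j + 1) f x r a := fun k hk => by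
  rcases k with _ | k
  · simpa using h0
  refine (norm_succ_le hf k x).trans ((Finset.sum_le_sum fun i _ => h i k (by omega)).trans ?_)
  simp only [Finset.sum_const, Finset.card_univ, Fintype.card_fin, nsmul_eq_mul]
  rw [div_div, ← pow_succ', ← mul_div_assoc]
  gcongr

theorem contDiff_coord (i : Fin n) : ContDiff ℝ ∞ fun y : E n => y i :=
  (EuclideanSpace.proj i : E n →L[ℝ] ℝ).contDiff

theorem Jb.coord (j : ℕ) (i : Fin n) (hr : 0 < r) (hx : ‖x‖ ≤ r) :
    Jb j (fun y : E n => y i) x r r := fun k _ => by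
  rcases k with _ | k
  · simpa using (PiLp.norm_apply_le x i).trans hx
  have e : fderiv ℝ (fun y : E n => y i) = fun _ => (EuclideanSpace.proj i : E n →L[ℝ] ℝ) :=
    funext fun y => (EuclideanSpace.proj i : E n →L[ℝ] ℝ).fderiv
  rw [← norm_iteratedFDeriv_fderiv, e]
  rcases k with _ | k
  · simpa [hr.ne'] using norm_proj_le i
  · rw [iteratedFDeriv_const_of_ne (by omega)]
    simp only [Pi.zero_apply, norm_zero]; positivity

theorem br_pos (hτ : 0 < τ) (p : ℝ) (y : E n) : 0 < br τ p y := by unfold br; positivity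

theorem rpow_two_mul {s : ℝ} (hs : 0 ≤ s) (p : ℝ) : s ^ (-(2 * p)) = (s ^ 2) ^ (-p) := by
  rw [← Real.rpow_natCast, ← Real.rpow_mul hs]; congr 1; push_cast; ring

theorem le_br (hτ : 0 < τ) (hp : 0 ≤ p) (y : E n) : (τ + ‖y‖) ^ (-(2 * p)) ≤ br τ p y := by
  rw [rpow_two_mul (by positivity)]
  exact Real.rpow_le_rpow_of_nonpos (by positivity) (by nlinarith [norm_nonneg y]) (by linarith)

theorem br_le (hτ : 0 < τ) (hp : 0 ≤ p) (y : E n) : br τ p y ≤ 2 ^ p * (τ + ‖y‖) ^ (-(2 * p)) := by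
  have h : (τ ^ 2 + ‖y‖ ^ 2) ^ (-p) ≤ (2⁻¹ * (τ + ‖y‖) ^ 2) ^ (-p) :=
    Real.rpow_le_rpow_of_nonpos (by positivity) (by nlinarith [sq_nonneg (τ - ‖y‖)]) (by linarith)
  rwa [Real.mul_rpow (by norm_num) (by positivity), Real.inv_rpow (by norm_num),
    Real.rpow_neg (x := 2) (by norm_num), inv_inv, ← rpow_two_mul (by positivity)] at h

theorem br_add_le (hτ : 0 < τ) (p : ℝ) {e : ℝ} (he : 0 ≤ e) (y : E n) :
    br τ (p + e / 2) y ≤ τ ^ (-e) * br τ p y := by
  unfold br
  rw [neg_add, Real.rpow_add (by positivity), mul_comm, show -e = -(2 * (e / 2)) by ring,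
    rpow_two_mul hτ.le]
  gcongr ?_ * _
  exact Real.rpow_le_rpow_of_nonpos (by positivity) (by nlinarith [norm_nonneg y]) (by linarith)

theorem br_succ (hτ : 0 < τ) (p : ℝ) (y : E n) :
    br τ p y = br τ (p + 1) y * (τ ^ 2 + ‖y‖ ^ 2) := by
  unfold br
  rw [← Real.rpow_add_one (by positivity)]; congr 1; ring

theorem contDiff_br (hτ : 0 < τ) (p : ℝ) : ContDiff ℝ ∞ (br τ p : E n → ℝ) :=
  (contDiff_const.add (contDiff_norm_sq ℝ)).rpow_const_of_ne fun y => by positivity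

theorem pd_br (hτ : 0 < τ) (p : ℝ) (y : E n) (i : Fin n) :
    pderiv i (br τ p) y = -(2 * p * br τ (p + 1) y) * y i := by
  have h := pd_comp (u := fun y : E n => τ ^ 2 + ‖y‖ ^ 2) (x := y)
    (Real.hasDerivAt_rpow_const (p := -p) (.inl (by positivity)))
    (smooth_diff (contDiff_const.add (contDiff_norm_sq ℝ)) y) i
  rw [pd_const_add, pd_normSq] at h
  refine h.trans ?_
  unfold br
  rw [show -(p + 1) = -p - 1 by ring]; ring

theorem lap_br (hτ : 0 < τ) (p : ℝ) (y : E n) : lap (br τ p) y =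
    br τ (p + 2) y * (2 * p * (2 * p + 2 - n) * ‖y‖ ^ 2 - 2 * p * n * τ ^ 2) := by
  have e : ∀ i, pderiv i (pderiv i (br τ p)) y =
      4 * p * (p + 1) * br τ (p + 2) y * (y i * y i) - 2 * p * br τ (p + 1) y := fun i => by
    rw [show pderiv i (br τ p) = fun y : E n => -(2 * p) * (br τ (p + 1) y * y i) from
      funext fun y => by rw [pd_br hτ]; ring, pd_const_mul,
      pd_mul (smooth_diff (contDiff_br hτ _) y) (smooth_diff (contDiff_coord i) y), pd_br hτ,
      pd_coord, if_pos rfl, show p + 1 + 1 = p + 2 by ring]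
    ring
  simp only [lap, e, Finset.sum_sub_distrib, ← Finset.mul_sum, ← norm_sq_eq, Finset.sum_const,
    Finset.card_univ, Fintype.card_fin, nsmul_eq_mul]
  rw [br_succ hτ (p + 1), show p + 1 + 1 = p + 2 by ring]
  ring

theorem exists_jb_br (n k : ℕ) : ∀ p : ℝ, 0 ≤ p → ∃ C : ℝ, 0 ≤ C ∧ ∀ τ : ℝ, 0 < τ → ∀ y : E n,
    Jb k (br τ p) y (τ + ‖y‖) (C * (τ + ‖y‖) ^ (-(2 * p))) := by
  induction k with
  | zero =>
    refine fun p hp => ⟨2 ^ p, by positivity, fun τ hτ y k hk => ?_⟩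
    obtain rfl : k = 0 := by omega
    simpa [abs_of_pos (br_pos hτ p y)] using br_le hτ hp y
  | succ k ih =>
    intro p hp
    obtain ⟨C, hC, h⟩ := ih (p + 1) (by linarith)
    refine ⟨2 ^ p + n * (2 * p * 2 ^ k * C), by positivity, fun τ hτ y => ?_⟩
    have hr : 0 < τ + ‖y‖ := by positivity
    have hs : 0 < (τ + ‖y‖) ^ (-(2 * p)) := by positivity
    refine Jb.of_pd (b := 2 * p * 2 ^ k * C * (τ + ‖y‖) ^ (-(2 * p))) (contDiff_br hτ p) hr ?_
      (fun i => ?_) ?_
    · rw [abs_of_pos (br_pos hτ p y)]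
      exact (br_le hτ hp y).trans (by gcongr; exact le_add_of_nonneg_right (by positivity))
    · rw [show pderiv i (br τ p) = fun y : E n => -(2 * p) * (br τ (p + 1) y * y i) from
        funext fun y => by rw [pd_br hτ]; ring]
      refine (Jb.const_mul ((contDiff_br hτ _).mul (contDiff_coord i)) _ (Jb.mul (contDiff_br hτ _)
        (contDiff_coord i) hr (h τ hτ y) (Jb.coord k i hr (by linarith)))).mono hr (le_of_eq ?_)
      rw [abs_neg, abs_of_nonneg (by positivity), show -(2 * (p + 1)) = -(2 * p) - (2 : ℕ) by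
        push_cast; ring, Real.rpow_sub_natCast hr.ne']
      field_simp
    · rw [← mul_assoc]
      gcongr
      exact le_add_of_nonneg_left (by positivity)

theorem hom : HomStmt := fun n p hp =>
  ⟨fun _ hτ => contDiff_br hτ p, fun _ hτ => pd_br hτ p, fun _ hτ => lap_br hτ p, fun k =>
    let ⟨C, hC, h⟩ := exists_jb_br n k p hp
    ⟨C, hC, fun τ hτ y => (h τ hτ y).to_rpow (by positivity) k le_rfl⟩⟩

theorem integral_add_norm {s R : ℝ} (hs : (n : ℝ) < s) (hR : 0 < R) :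
    Integrable (fun y : E n => (R + ‖y‖) ^ (-s)) ∧
      ∫ y : E n, (R + ‖y‖) ^ (-s) = R ^ ((n : ℝ) - s) * ∫ y : E n, (1 + ‖y‖) ^ (-s) := by
  have e : (fun y : E n => (R + ‖y‖) ^ (-s)) = fun y => R ^ (-s) * (1 + ‖R⁻¹ • y‖) ^ (-s) := by
    funext y
    rw [← Real.mul_rpow hR.le (by positivity), norm_smul, norm_inv, Real.norm_of_nonneg hR.le]
    congr 1; field_simp
  have hi : Integrable (fun y : E n => (1 + ‖y‖) ^ (-s)) :=
    integrable_one_add_norm (by simpa using hs)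
  rw [e]
  refine ⟨(hi.comp_smul (inv_ne_zero hR.ne')).const_mul _, ?_⟩
  rw [integral_const_mul, Measure.integral_comp_inv_smul_of_nonneg volume
    (fun y : E n => (1 + ‖y‖) ^ (-s)) hR.le, sub_eq_add_neg, Real.rpow_add hR]
  simp only [finrank_euclideanSpace, Fintype.card_fin, smul_eq_mul, Real.rpow_natCast]
  ring

theorem vv : HomStmt → VStmt := by
  intro _ n hn e he he1
  have hn' : (3 : ℝ) ≤ n := by exact_mod_cast hn
  obtain ⟨p, hp⟩ : ∃ p : ℝ, p = ((n : ℝ) - 2) / 2 := ⟨_, rfl⟩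
  have hp0 : 0 < p := by linarith
  obtain ⟨A, hA⟩ : ∃ A : ℝ, A = 2 * (((n : ℝ) - 2 + e) / ((n : ℝ) - 2)) := ⟨_, rfl⟩
  have hAp : A * p = 2 * (p + e / 2) := by
    have : (n : ℝ) - 2 ≠ 0 := by linarith
    rw [hA, hp]; field_simp
  have hA1 : 1 ≤ A := by nlinarith
  have hV : ∀ R, (VV e R : E n → ℝ) = fun y => A * R ^ (-e) * br R p y - br R (p + e / 2) y :=
    fun R => by funext y; rw [VV, hA, hp, add_div _ e 2]
  refine ⟨fun k => ?_, ?_⟩
  · obtain ⟨C₀, h₀, H₀⟩ := exists_jb_br n k p hp0.le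
    obtain ⟨C₁, h₁, H₁⟩ := exists_jb_br n k (p + e / 2) (by positivity)
    refine ⟨A * C₀ + C₁, by positivity, fun R hR y => ?_⟩
    have hR0 : 0 < R := by linarith
    have hr : 0 < R + ‖y‖ := by positivity
    rw [hV]
    refine Jb.to_rpow (j := k) hr (((Jb.const_mul (contDiff_br hR0 p) _ (H₀ R hR0 y)).sub
      (contDiff_const.mul (contDiff_br hR0 p)) (contDiff_br hR0 _) (H₁ R hR0 y)).mono hr ?_) k le_rfl
    have : (R + ‖y‖) ^ (-e) ≤ R ^ (-e) :=
      Real.rpow_le_rpow_of_nonpos hR0 (by linarith [norm_nonneg y]) (by linarith)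
    rw [abs_of_nonneg (by positivity), show -(2 * (p + e / 2)) = -e + (2 - n) by linarith,
      show -(2 * p) = 2 - (n : ℝ) by linarith, Real.rpow_add hr]
    calc _ ≤ A * R ^ (-e) * (C₀ * (R + ‖y‖) ^ (2 - (n : ℝ))) +
          C₁ * (R ^ (-e) * (R + ‖y‖) ^ (2 - (n : ℝ))) := by gcongr
      _ = _ := by ring
  obtain ⟨C, hC⟩ : ∃ C : ℝ, C = 4 * (p + e / 2) * n * 2 ^ (p + 2) +
    2 * (p + e / 2) * e * 2 ^ (p + e / 2 + 2) := ⟨_, rfl⟩
  have hC0 : 0 ≤ C := by rw [hC]; positivity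
  obtain ⟨I, hI⟩ : ∃ I : ℝ, I = ∫ y : E n, (1 + ‖y‖) ^ (-(n + e)) := ⟨_, rfl⟩
  have hI0 : 0 ≤ I := hI ▸ integral_nonneg fun y => by positivity
  refine ⟨C * (1 + I), 2 * (p + e / 2) * e, by positivity, by positivity, fun R hR => ?_⟩
  have hR0 : 0 < R := by linarith
  have hs := contDiff_br (n := n) hR0
  have hpd : ∀ i, pderiv i (VV e R : E n → ℝ) = fun y =>
      A * R ^ (-e) * pderiv i (br R p) y - pderiv i (br R (p + e / 2)) y := fun i => by
    funext y
    rw [hV, pd_sub (smooth_diff (contDiff_const.mul (hs _)) y) (smooth_diff (hs _) y), pd_const_mul]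
  have hl : ∀ y : E n, -lap (VV e R) y = 4 * (p + e / 2) * n * R ^ 2 * (R ^ (-e) * br R (p + 2) y)
      + 2 * (p + e / 2) * e * ‖y‖ ^ 2 * br R (p + e / 2 + 2) y
      - 2 * (p + e / 2) * n * R ^ 2 * br R (p + e / 2 + 2) y := fun y => by
    have : lap (VV e R) y = A * R ^ (-e) * lap (br R p) y - lap (br R (p + e / 2)) y := by
      simp only [lap, hpd, Finset.mul_sum, ← Finset.sum_sub_distrib]
      exact Finset.sum_congr rfl fun i _ => by
        rw [pd_sub (smooth_diff (contDiff_const.mul (contDiff_pd (hs _) i)) y)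
          (smooth_diff (contDiff_pd (hs _) i) y), pd_const_mul]
    rw [this, lap_br hR0, lap_br hR0, show 2 * p + 2 - n = 0 by linarith,
      show 2 * (p + e / 2) + 2 - n = e by linarith]
    linear_combination (2 * n * R ^ 2 * R ^ (-e) * br R (p + 2) y) * hAp
  have lo : ∀ y : E n, 2 * (p + e / 2) * e * ‖y‖ ^ 2 * (R + ‖y‖) ^ (-(n : ℝ) - e - 2) ≤
      -lap (VV e R) y := fun y => by
    have h1 := br_add_le hR0 (p + 2) he.le y
    have h2 := le_br hR0 (p := p + e / 2 + 2) (by positivity) y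
    rw [show p + 2 + e / 2 = p + e / 2 + 2 by ring] at h1
    rw [show -(2 * (p + e / 2 + 2)) = -(n : ℝ) - e - 2 by linarith] at h2
    have h3 := mul_le_mul_of_nonneg_left h2 (show 0 ≤ 2 * (p + e / 2) * e * ‖y‖ ^ 2 by positivity)
    have h4 := mul_le_mul_of_nonneg_left h1 (show 0 ≤ 4 * (p + e / 2) * n * R ^ 2 by positivity)
    have h5 := mul_pos (show 0 < 2 * (p + e / 2) * n * R ^ 2 by positivity)
      (br_pos hR0 (p + e / 2 + 2) y)
    rw [hl]; linarith
  have nn : ∀ y : E n, 0 ≤ -lap (VV e R) y := fun y => le_trans (by positivity) (lo y)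
  have hi : ∀ y : E n, -lap (VV e R) y ≤ C * (R + ‖y‖) ^ (-(n + e)) := fun y => by
    have hr : 0 < R + ‖y‖ := by positivity
    have h1 := br_le hR0 (p := p + 2) (by positivity) y
    have h2 := br_le hR0 (p := p + e / 2 + 2) (by positivity) y
    have h3 : R ^ 2 * R ^ (-e) * (R + ‖y‖) ^ (-(2 * (p + 2))) ≤ (R + ‖y‖) ^ (-(n + e)) := by
      rw [← Real.rpow_natCast, ← Real.rpow_add hR0, show -(n + e) = ((2 : ℕ) + -e) +
        -(2 * (p + 2)) by push_cast; linarith, Real.rpow_add hr]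
      gcongr
      · push_cast; linarith
      · linarith [norm_nonneg y]
    have h4 : ‖y‖ ^ 2 * (R + ‖y‖) ^ (-(2 * (p + e / 2 + 2))) ≤ (R + ‖y‖) ^ (-(n + e)) := by
      rw [show -(n + e) = (2 : ℕ) + -(2 * (p + e / 2 + 2)) by push_cast; linarith,
        Real.rpow_add hr, Real.rpow_natCast]
      gcongr
      linarith
    have h5 := mul_pos (show 0 < 2 * (p + e / 2) * n * R ^ 2 by positivity)
      (br_pos hR0 (p + e / 2 + 2) y)
    have h6 := mul_le_mul_of_nonneg_left h1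
      (show 0 ≤ 4 * (p + e / 2) * n * R ^ 2 * R ^ (-e) by positivity)
    have h7 := mul_le_mul_of_nonneg_left h2 (show 0 ≤ 2 * (p + e / 2) * e * ‖y‖ ^ 2 by positivity)
    have h8 := mul_le_mul_of_nonneg_left h3
      (show 0 ≤ 4 * (p + e / 2) * n * 2 ^ (p + 2) by positivity)
    have h9 := mul_le_mul_of_nonneg_left h4
      (show 0 ≤ 2 * (p + e / 2) * e * 2 ^ (p + e / 2 + 2) by positivity)
    rw [hl, hC]; linarith
  refine ⟨hV R ▸ (contDiff_const.mul (hs _)).sub (hs _), fun y => ?_, lo, fun y => ?_, ?_,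
    fun y => ⟨4 * (p + e / 2) * (R ^ (-e) * br R (p + 1) y) - 2 * (p + e / 2) *
      br R (p + e / 2 + 1) y, ?_, fun i => ?_⟩⟩
  · have h1 := br_add_le hR0 p he.le y
    have h2 : 0 < R ^ (-e) * br R p y := mul_pos (by positivity) (br_pos hR0 p y)
    rw [hV]; dsimp only; nlinarith
  · rw [← abs_neg, abs_of_nonneg (nn y), show -(n : ℝ) - e = -(n + e) by ring]
    exact (hi y).trans (by gcongr; exact le_mul_of_one_le_right hC0 (by linarith))
  · obtain ⟨h1, h2⟩ := integral_add_norm (n := n) (s := n + e) (by linarith) hR0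
    rw [← integral_neg]
    refine (integral_mono_of_nonneg (.of_forall nn) (h1.const_mul C) (.of_forall hi)).trans ?_
    rw [integral_const_mul, h2, ← hI, show (n : ℝ) - (n + e) = -e by ring]
    have : 0 ≤ C * R ^ (-e) := by positivity
    linarith
  · have h1 := br_add_le hR0 (p + 1) he.le y
    have h2 := le_br hR0 (p := p + 1) (by positivity) y
    rw [show p + 1 + e / 2 = p + e / 2 + 1 by ring] at h1
    rw [show -(2 * (p + 1)) = -(n : ℝ) by linarith] at h2
    have h3 := mul_le_mul_of_nonneg_left h2 (show 0 ≤ 2 * (p + e / 2) * R ^ (-e) by positivity)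
    have h4 := mul_le_mul_of_nonneg_left h1 (show 0 ≤ 2 * (p + e / 2) by positivity)
    have h5 := mul_le_mul_of_nonneg_left he1.le
      (show 0 ≤ 2 * (p + e / 2) * R ^ (-e) * (R + ‖y‖) ^ (-(n : ℝ)) by positivity)
    linarith
  · rw [hpd]
    dsimp only
    rw [pd_br hR0, pd_br hR0]
    linear_combination (-2 * R ^ (-e) * br R (p + 1) y * y i) * hAp

end Crest.Agent.N346.P0

end
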