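import Crest.Agent.N346.P0.JL2

/-! Row 346, Part 0, leaf JL (helper47): `jl : JLStmt`, `jlap : JLapStmt`. -/

set_option autoImplicit false
open MeasureTheory Filter Topology Matrix
open scoped ContDiff
open Crest.GeometryTopology.CoordMetric
open Crest.MathPhysics.ExteriorData

noncomputable section

namespace Crest.Agent.N346.P0
open Bs JLc JLc.Cx

variable {n : ℕ} {g g' K K' k k' : MetricField n}

theorem pd_entry_sub (hk : Sm k) (hk' : Sm k') (m i j : Fin n) :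
    pderiv m (fun y => (k' y - k y) i j)
      = fun x => pderiv m (fun y => k' y i j) x - pderiv m (fun y => k y i j) x :=
  funext fun x => pd_sub (smooth_diff (hk' i j) x) (smooth_diff (hk i j) x) m

theorem pd_pd_entry_sub (hk : Sm k) (hk' : Sm k') (l m i j : Fin n) (x : E n) :
    pderiv l (pderiv m fun y => (k' y - k y) i j) x
      = pderiv l (pderiv m fun y => k' y i j) x - pderiv l (pderiv m fun y => k y i j) x := by
  rw [pd_entry_sub hk hk']
  exact pd_sub (smooth_diff (contDiff_pd (hk' i j) m) x) (smooth_diff (contDiff_pd (hk i j) m) x) l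

theorem pd_entry_sub_one (k : MetricField n) (m i j : Fin n) :
    pderiv m (fun y => (k y - 1) i j) = pderiv m fun y => k y i j :=
  funext fun x => pd_sub_const _ _ m x

theorem Lmu_sub' (hk : Sm k) (hk' : Sm k') (x : E n) :
    Lmu (fun y => k' y - k y) x = Lmu k' x - Lmu k x := by
  rw [Lmu_eq (hk'.sub hk), Lmu_eq hk, Lmu_eq hk', ← mul_sub, ← Finset.sum_sub_distrib]
  congr 1
  refine Finset.sum_congr rfl fun i _ => ?_
  rw [← Finset.sum_sub_distrib]
  refine Finset.sum_congr rfl fun j _ => ?_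
  rw [pd_pd_entry_sub hk hk', pd_pd_entry_sub hk hk']
  ring

theorem LJ_sub' (hk : Sm K) (hk' : Sm K') (x : E n) (i : Fin n) :
    LJ (fun y => K' y - K y) x i = LJ K' x i - LJ K x i := by
  rw [LJ_eq (hk'.sub hk), LJ_eq hk, LJ_eq hk']
  simp only [pd_entry_sub hk hk', Finset.sum_sub_distrib]
  ring

theorem abs_inv_sub_one_le {Λ α : ℝ} (hΛ : 1 ≤ Λ) {x : E n} (hg : (g x).PosDef) (hL : Lo Λ g x)
    (h : ∀ i j, |(g x - 1) i j| ≤ α) (i j : Fin n) :
    |inverseField g x i j - (1 : Matrix (Fin n) (Fin n) ℝ) i j| ≤ n * (n * (Λ * Λ)) * α := by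
  have := abs_inv_sub_le (A := 1) (B := g x) PosDef.one hg (L := Λ) (fun i j => by
    rw [inv_one, Matrix.one_apply]
    split_ifs <;> simp <;> linarith) (hL.abs_inv_le (by linarith) hg) h i j
  rwa [inv_one] at this

/-- configurations of `JLStmt` -/
structure Cf (n : ℕ) (Λ : ℝ) where
  g : MetricField n
  g' : MetricField n
  K : MetricField n
  K' : MetricField n
  x : E n
  r : ℝ
  α : ℝ
  β : ℝ
  hg : IsRiemannianOn g Set.univ
  hg' : IsRiemannianOn g' Set.univ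
  hK : Sm K
  hK' : Sm K'
  hr : 0 < r
  α0 : 0 ≤ α
  αL : α ≤ Λ
  β0 : 0 ≤ β
  βL : β ≤ Λ
  lo : Lo Λ g x
  lo' : Lo Λ g' x
  j1 : JB (fun y => g y - 1) K x r α
  j2 : JB (fun y => g' y - g y) (fun y => K' y - K y) x r β

/-- the context of `JLStmt` -/
def cxJ (n : ℕ) {Λ : ℝ} (hΛ : 1 ≤ Λ) : Cx (Pt n) where
  ι := Cf n Λ
  p c := ⟨c.g, c.K, c.x, c.hg, c.hK⟩
  p' c := ⟨c.g', c.K', c.x, c.hg', c.hK'⟩
  a c := c.α
  b c := c.β
  ρ c := c.r⁻¹
  L := Λ
  a0 c := c.α0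
  b0 c := c.β0
  ρ0 c := (inv_pos.2 c.hr).le
  L0 := by linarith
  aL c := c.αL
  bL c := c.βL

theorem jl : JLStmt := by
  intro n Λ hΛ
  have hΛ0 : 0 < Λ := by linarith
  have hH : ∀ i j, (cxJ n hΛ).O1 0
      fun z => inverseField z.g z.x i j - (1 : Matrix (Fin n) (Fin n) ℝ) i j := fun i j => by
    refine ⟨⟨n * (n * (Λ * Λ)), by positivity, fun c : Cf n Λ => ?_⟩,
      ⟨n * (n * (Λ * Λ)), by positivity, fun c : Cf n Λ => ?_⟩⟩
    · simp only [pow_zero, mul_one]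
      exact abs_inv_sub_one_le hΛ (riem_posDef c.hg c.x) c.lo
        (fun i j => (c.j1.1 i j).abs_le) i j
    · simp only [pow_zero, mul_one, sub_sub_sub_cancel_right]
      exact abs_inv_sub_le (riem_posDef c.hg c.x) (riem_posDef c.hg' c.x)
          (c.lo.abs_inv_le hΛ0 (riem_posDef c.hg c.x))
          (c.lo'.abs_inv_le hΛ0 (riem_posDef c.hg' c.x)) (fun i j => (c.j2.1 i j).abs_le) i j
  have hg1 : ∀ m i j, (cxJ n hΛ).O1 1 fun z => pderiv m (fun y => z.g y i j) z.x := fun m i j => by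
    refine ⟨Bd.of_le fun c : Cf n Λ => ?_, Bd.of_le fun c : Cf n Λ => ?_⟩
    · have := (c.j1.1 i j).abs_pd_le m
      rw [pd_entry_sub_one, div_eq_mul_inv, ← pow_one c.r⁻¹] at this
      exact this
    · have := (c.j2.1 i j).abs_pd_le m
      rw [pd_entry_sub (sm_riem c.hg) (sm_riem c.hg'), div_eq_mul_inv, ← pow_one c.r⁻¹] at this
      exact this
  have hg2 : ∀ l m i j, (cxJ n hΛ).O1 2
      fun z => pderiv l (pderiv m fun y => z.g y i j) z.x := fun l m i j => by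
    refine ⟨Bd.of_le fun c : Cf n Λ => ?_, Bd.of_le fun c : Cf n Λ => ?_⟩
    · have := (c.j1.1 i j).abs_pd_pd_le (((sm_riem c.hg).sub (Sm.const 1)) i j) l m
      rw [pd_entry_sub_one, div_eq_mul_inv, ← inv_pow] at this
      exact this
    · have := (c.j2.1 i j).abs_pd_pd_le (((sm_riem c.hg').sub (sm_riem c.hg)) i j) l m
      rw [pd_pd_entry_sub (sm_riem c.hg) (sm_riem c.hg'), div_eq_mul_inv, ← inv_pow] at this
      exact this
  have hK0 : ∀ i j, (cxJ n hΛ).O1 1 fun z => z.K z.x i j := fun i j => by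
    refine ⟨Bd.of_le fun c : Cf n Λ => ?_, Bd.of_le fun c : Cf n Λ => ?_⟩
    · have := (c.j1.2 i j).abs_le
      rw [div_eq_mul_inv, ← pow_one c.r⁻¹] at this
      exact this
    · have := (c.j2.2 i j).abs_le
      rw [div_eq_mul_inv, ← pow_one c.r⁻¹] at this
      exact this
  have hK1 : ∀ m i j, (cxJ n hΛ).O1 2 fun z => pderiv m (fun y => z.K y i j) z.x := fun m i j => by
    refine ⟨Bd.of_le fun c : Cf n Λ => ?_, Bd.of_le fun c : Cf n Λ => ?_⟩
    · have := (c.j1.2 i j).abs_pd_le m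
      rw [div_div, ← sq, div_eq_mul_inv, ← inv_pow] at this
      exact this
    · have := (c.j2.2 i j).abs_pd_le m
      rw [pd_entry_sub c.hK c.hK', div_div, ← sq, div_eq_mul_inv, ← inv_pow] at this
      exact this
  obtain ⟨C1, hC1, h1⟩ := (l_mu hH hg1 hg2 hK0).bd
  obtain ⟨C2, hC2, h2⟩ := Bd.unif (fun i => (l_J hH hg1 hK0 hK1 i).bd) fun c => by
    have := (cxJ n hΛ).a0 c; have := (cxJ n hΛ).b0 c; have := (cxJ n hΛ).ρ0 c
    positivity
  refine ⟨C1 + C2, by positivity, fun g g' K K' hg hg' hK hK' x r α β hr α0 αL β0 βL lo lo' j1 j2 =>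
    ?_⟩
  let c : Cf n Λ := ⟨g, g', K, K', x, r, α, β, hg, hg', hK, hK', hr, α0, αL, β0, βL, lo, lo', j1, j2⟩
  have h0 : 0 ≤ (α + β) * β * r⁻¹ ^ 2 := by positivity
  rw [div_eq_mul_inv, ← inv_pow, Lmu_sub' (sm_riem hg) (sm_riem hg')]
  refine ⟨(h1 c).trans (mul_le_mul_of_nonneg_right (by linarith) h0), fun i => ?_⟩
  rw [LJ_sub' hK hK']
  exact (h2 i c).trans (mul_le_mul_of_nonneg_right (by linarith) h0)

/-- configurations of `JLapStmt` -/
structure Cl (n : ℕ) (Λ : ℝ) where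
  g : MetricField n
  v : E n → ℝ
  x : E n
  r : ℝ
  α : ℝ
  a : ℝ
  hg : IsRiemannianOn g Set.univ
  hv : ContDiff ℝ ∞ v
  hr : 0 < r
  α0 : 0 ≤ α
  αL : α ≤ Λ
  lo : Lo Λ g x
  j1 : ∀ i j, Jb 1 (fun y => (g y - 1) i j) x r α
  j2 : Jb 2 v x r a

/-- the context of `JLapStmt` -/
def cxL (n : ℕ) {Λ : ℝ} (hΛ : 1 ≤ Λ) : Cx (Pt n) where
  ι := Cl n Λ
  p c := ⟨c.g, fun _ => 0, c.x, c.hg, Sm.const 0⟩
  p' c := ⟨c.g, fun _ => 0, c.x, c.hg, Sm.const 0⟩
  a c := c.α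
  b _ := 0
  ρ c := c.r⁻¹
  L := Λ
  a0 c := c.α0
  b0 _ := le_rfl
  ρ0 c := (inv_pos.2 c.hr).le
  L0 := by linarith
  aL c := c.αL
  bL _ := by linarith

theorem jlap : JLapStmt := by
  intro n Λ hΛ
  have hΛ0 : 0 < Λ := by linarith
  have hH : ∀ i j, (cxL n hΛ).O1 0
      fun z => inverseField z.g z.x i j - (1 : Matrix (Fin n) (Fin n) ℝ) i j := fun i j => by
    refine ⟨⟨n * (n * (Λ * Λ)), by positivity, fun c : Cl n Λ => ?_⟩,
      (Bd.zero _).of_eq fun _ => sub_self _⟩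
    simp only [pow_zero, mul_one]
    exact abs_inv_sub_one_le hΛ (riem_posDef c.hg c.x) c.lo
        (fun i j => (c.j1 i j).abs_le) i j
  have hg1 : ∀ m i j, (cxL n hΛ).O1 1 fun z => pderiv m (fun y => z.g y i j) z.x := fun m i j => by
    refine ⟨Bd.of_le fun c : Cl n Λ => ?_, (Bd.zero _).of_eq fun _ => sub_self _⟩
    have := (c.j1 i j).abs_pd_le m
    rw [pd_entry_sub_one, div_eq_mul_inv, ← pow_one c.r⁻¹] at this
    exact this
  have hv1 : ∀ j, Bd (fun c : Cl n Λ => pderiv j c.v c.x) fun c => c.a * c.r⁻¹ :=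
    fun j => Bd.of_le fun c => c.j2.abs_pd_le j
  have hv2 : ∀ i j, Bd (fun c : Cl n Λ => pderiv i (pderiv j c.v) c.x) fun c => c.a * c.r⁻¹ ^ 2 :=
    fun i j => Bd.of_le fun c => by
      have := c.j2.abs_pd_pd_le c.hv i j
      rwa [div_eq_mul_inv, ← inv_pow] at this
  have key : Bd (fun c : Cl n Λ => laplaceBeltrami c.g c.v c.x - lap c.v c.x)
      fun c => c.α * c.a / c.r ^ 2 := by
    have t1 : ∀ i, Bd (fun c : Cl n Λ => (∑ e, christoffel c.g c.x e e i) *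
        ∑ j, inverseField c.g c.x i j * pderiv j c.v c.x) fun c => c.α * c.a / c.r ^ 2 := fun i =>
      ((Bd.sum _ fun e => (o_chr hH hg1 e e i).1).mul
        (Bd.sum _ fun j => (o_H hH i j).1.mul (hv1 j))).mono' fun c : Cl n Λ => le_of_eq (by
          change c.α * c.r⁻¹ ^ 1 * (c.r⁻¹ ^ 0 * (c.a * c.r⁻¹)) = _
          ring)
    have t2 : ∀ i j, Bd (fun c : Cl n Λ => pderiv i (fun y => inverseField c.g y i j) c.x *
        pderiv j c.v c.x) fun c => c.α * c.a / c.r ^ 2 := fun i j =>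
      ((o_dH hH hg1 i i j).1.mul (hv1 j)).mono' fun c : Cl n Λ => le_of_eq (by
          change c.α * c.r⁻¹ ^ 1 * (c.a * c.r⁻¹) = _
          ring)
    have t3 : ∀ i j, Bd (fun c : Cl n Λ =>
        (inverseField c.g c.x i j - (1 : Matrix (Fin n) (Fin n) ℝ) i j) *
        pderiv i (pderiv j c.v) c.x) fun c => c.α * c.a / c.r ^ 2 := fun i j =>
      ((hH i j).1.mul (hv2 i j)).mono' fun c : Cl n Λ => le_of_eq (by
          change c.α * c.r⁻¹ ^ 0 * (c.a * c.r⁻¹ ^ 2) = _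
          ring)
    refine (Bd.sum Finset.univ fun i => (t1 i).add
      (Bd.sum Finset.univ fun j => (t2 i j).add (t3 i j))).of_eq fun c => ?_
    rw [lapB_eq c.hg c.hv, lap, ← Finset.sum_sub_distrib]
    refine Finset.sum_congr rfl fun i _ => ?_
    simp only [sub_mul, Finset.sum_add_distrib, Finset.sum_sub_distrib, Matrix.one_apply, ite_mul,
      one_mul, zero_mul, Finset.sum_ite_eq, Finset.mem_univ, if_true]
    ring
  obtain ⟨C, hC, h⟩ := key
  exact ⟨C, hC, fun g hg v hv x r α a hr α0 αL lo j1 j2 =>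
    h ⟨g, v, x, r, α, a, hg, hv, hr, α0, αL, lo, j1, j2⟩⟩

end Crest.Agent.N346.P0

end
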