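import Crest.Agent.N346.P0.NewtA

/-!
Row 346, P0-NEWT (helper30), part 2: `newt : HomStmt → NewtStmt`.
-/

set_option autoImplicit false
open MeasureTheory Filter Topology Metric
open scoped ContDiff
open Crest.GeometryTopology.CoordMetric
open Crest.MathPhysics.ExteriorData

noncomputable section

namespace Crest.Agent.N346.P0
namespace Nw
open Crest.Agent.N346.Bs

variable {n : ℕ}

theorem br_pos {τ : ℝ} (hτ : 0 < τ) (p : ℝ) (w : E n) : 0 < br τ p w :=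
  Real.rpow_pos_of_pos (by positivity) _

theorem br_scale {ε : ℝ} (hε : 0 < ε) (w : E n) :
    ε ^ 2 * br ε (((n : ℝ) - 2) / 2 + 2) w
      = (ε ^ n)⁻¹ * br 1 (((n : ℝ) - 2) / 2 + 2) (ε⁻¹ • w) := by
  have h1 : ε ^ 2 + ‖w‖ ^ 2 = ε ^ 2 * (1 ^ 2 + ‖ε⁻¹ • w‖ ^ 2) := by
    rw [norm_smul, norm_inv, Real.norm_of_nonneg hε.le]; field_simp
  have h2 : ε ^ 2 * (ε ^ 2) ^ (-(((n : ℝ) - 2) / 2 + 2)) = (ε ^ n)⁻¹ := by
    rw [← Real.rpow_natCast ε 2, ← Real.rpow_mul hε.le, ← Real.rpow_add hε, ← Real.rpow_natCast,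
      ← Real.rpow_neg hε.le]
    congr 1; push_cast; ring
  rw [br, br, h1, Real.mul_rpow (by positivity) (by positivity), ← mul_assoc, h2]

/-- the approximation of the identity -/
theorem approx {G ψ : E n → ℝ} {L ε : ℝ} (hε : 0 < ε) (hG : ContDiff ℝ 1 G) {M : ℝ}
    (hM : ∀ y, |G y| ≤ M) (hL : ∀ y, ‖fderiv ℝ G y‖ ≤ L) (hψ0 : ∀ w, 0 ≤ ψ w)
    (hψ : Integrable ψ) (hψ1 : Integrable fun w => ‖w‖ * ψ w) (y : E n) :
    |(∫ w, ψ w) * G y - cv G (fun w => (ε ^ n)⁻¹ * ψ (ε⁻¹ • w)) y|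
      ≤ ε * (L * ∫ w, ‖w‖ * ψ w) := by
  have e1 : cv G (fun w => (ε ^ n)⁻¹ * ψ (ε⁻¹ • w)) y = ∫ w, G (y - ε • w) * ψ w := by
    have := Measure.integral_comp_inv_smul_of_nonneg volume
      (fun w : E n => G (y - ε • w) * ψ w) hε.le
    simp only [smul_inv_smul₀ hε.ne', finrank_euclideanSpace, Fintype.card_fin, smul_eq_mul] at this
    rw [cv_eq']
    simp only [mul_left_comm (G _), integral_const_mul]
    rw [this, inv_mul_cancel_left₀ (by positivity)]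
  have i1 : Integrable fun w => G (y - ε • w) * ψ w :=
    hψ.bdd_mul (c := M) (hG.continuous.comp (by fun_prop)).aestronglyMeasurable
      (ae_of_all _ fun w => hM _)
  rw [e1, mul_comm _ (G y), ← integral_const_mul, ← integral_sub (hψ.const_mul _) i1,
    ← Real.norm_eq_abs, ← mul_assoc, ← integral_const_mul]
  refine norm_integral_le_of_norm_le (hψ1.const_mul _) (ae_of_all _ fun w => ?_)
  have h1 := convex_univ.norm_image_sub_le_of_norm_fderiv_le (𝕜 := ℝ) (f := G)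
    (fun x _ => hG.differentiable one_ne_zero x) (fun x _ => hL x) (Set.mem_univ (y - ε • w))
    (Set.mem_univ y)
  rw [sub_sub_cancel, norm_smul, Real.norm_of_nonneg hε.le] at h1
  rw [← sub_mul, norm_mul, Real.norm_of_nonneg (hψ0 w)]
  calc ‖G y - G (y - ε • w)‖ * ψ w ≤ L * (ε * ‖w‖) * ψ w :=
        mul_le_mul_of_nonneg_right h1 (hψ0 w)
    _ = _ := by ring

/-- extra decay for mean zero sources -/
theorem cv_mean {G b : E n → ℝ} {ρ c ε : ℝ} (hε : 0 < ε) (hε1 : ε ≤ 1) (hρ : 0 < ρ) (hc : 0 ≤ c)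
    (hG : Continuous G) (hG0 : ∀ z, ρ < ‖z‖ → G z = 0) (h0 : ∫ z, G z = 0) (hb : ContDiff ℝ 1 b)
    (hb' : ∀ w, ‖fderiv ℝ b w‖ ≤ c * (ε + ‖w‖) ^ (-(n : ℝ))) :
    ∃ D : ℝ, ∀ y, |cv G b y| ≤ D * (1 + ‖y‖) ^ (-(n : ℝ)) := by
  have hGc : HasCompactSupport G := hasCompactSupport_of_far hG0
  have iG : Integrable G := hG.integrable_of_hasCompactSupport hGc
  set t := ((1 + ρ) / ε) ^ (n : ℝ) with ht
  have ht0 : 0 ≤ t := by positivity
  refine ⟨(∫ z, ‖G z‖) * (c * t * ρ), fun y => ?_⟩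
  have e : cv G b y = ∫ z, G z * (b (y - z) - b y) := by
    simp only [mul_sub]
    rw [integral_sub (int_cv hG hGc hb.continuous y) (iG.mul_const _), integral_mul_const, h0,
      zero_mul, sub_zero, cv_eq]
  rw [e, mul_assoc, ← integral_mul_const, ← Real.norm_eq_abs]
  refine norm_integral_le_of_norm_le (iG.norm.mul_const _) (ae_of_all _ fun z => ?_)
  rcases lt_or_ge ρ ‖z‖ with hz | hz
  · simp [hG0 z hz]
  rw [norm_mul]
  refine mul_le_mul_of_nonneg_left ?_ (norm_nonneg _)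
  have h1 := (convex_closedBall y ρ).norm_image_sub_le_of_norm_fderiv_le (𝕜 := ℝ) (f := b)
    (C := c * (t * (1 + ‖y‖) ^ (-(n : ℝ)))) (fun x _ => hb.differentiable one_ne_zero x)
    (fun x hx => (hb' x).trans (mul_le_mul_of_nonneg_left
      (rpow_cmp (by positivity) (by positivity) (by positivity) (by
        have h2 : ‖y‖ ≤ ‖x‖ + ρ := by
          have := norm_sub_norm_le y x
          rw [mem_closedBall, dist_comm, dist_eq_norm] at hx
          linarith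
        have h3 : 1 ≤ (1 + ρ) / ε := by rw [le_div_iff₀ hε]; linarith
        have h4 : (1 + ρ) / ε * ε = 1 + ρ := div_mul_cancel₀ _ hε.ne'
        nlinarith [norm_nonneg x])) hc))
    (mem_closedBall_self hρ.le) (show y - z ∈ closedBall y ρ by simpa using hz)
  refine h1.trans ?_
  rw [sub_sub_cancel_left, norm_neg]
  calc c * (t * (1 + ‖y‖) ^ (-(n : ℝ))) * ‖z‖ ≤ c * (t * (1 + ‖y‖) ^ (-(n : ℝ))) * ρ := by gcongr
    _ = _ := by ring

end Nw
open Nw Crest.Agent.N346.Bs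

set_option maxHeartbeats 400000 in
theorem newt : HomStmt → NewtStmt := by
  intro hom n hn
  have h3 : (3 : ℝ) ≤ n := by exact_mod_cast hn
  have hn1 : 1 ≤ n := by omega
  obtain ⟨p0, hp0⟩ : ∃ p0 : ℝ, p0 = ((n : ℝ) - 2) / 2 := ⟨_, rfl⟩
  obtain ⟨sN, -, lapN, bN⟩ := hom n p0 (by linarith)
  obtain ⟨sψ, -, -, bψ⟩ := hom n (p0 + 2) (by linarith)
  obtain ⟨c0, hc0, b0⟩ := bN 0
  obtain ⟨c1, hc1, b1⟩ := bN 1
  obtain ⟨c2, hc2, b2⟩ := bN 2
  obtain ⟨c3, hc3, b3⟩ := bψ 0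
  have x0 : -(2 * p0) - ((0 : ℕ) : ℝ) = -((n : ℝ) - 2) := by rw [hp0]; push_cast; ring
  have x1 : -(2 * p0) - ((1 : ℕ) : ℝ) = -((n : ℝ) - 1) := by rw [hp0]; push_cast; ring
  have x2 : -(2 * p0) - ((2 : ℕ) : ℝ) = -(n : ℝ) := by rw [hp0]; push_cast; ring
  have x3 : -(2 * (p0 + 2)) - ((0 : ℕ) : ℝ) = -((n : ℝ) + 2) := by rw [hp0]; push_cast; ring
  simp only [x0, norm_iteratedFDeriv_zero, Real.norm_eq_abs] at b0
  simp only [x3, norm_iteratedFDeriv_zero, Real.norm_eq_abs] at b3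
  simp only [x1] at b1
  simp only [x2] at b2
  obtain ⟨A0, hA0, H0⟩ := cv_all n hn1 (s := (n : ℝ) - 2) (by linarith) (by linarith)
  obtain ⟨A1, hA1, H1⟩ := cv_all n hn1 (s := (n : ℝ) - 1) (by linarith) (by linarith)
  obtain ⟨A2, hA2, H2⟩ := cv_far n (s := (n : ℝ)) (by linarith)
  obtain ⟨A3, hA3, H3⟩ := cv_far n (s := (n : ℝ) + 2) (by linarith)
  -- the profile
  obtain ⟨ψ, hψ⟩ : ∃ ψ : E n → ℝ, ψ = br 1 (p0 + 2) := ⟨_, rfl⟩
  have ψ0 : ∀ w, 0 < ψ w := hψ ▸ br_pos one_pos _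
  have cψ : Continuous ψ := hψ ▸ (sψ 1 one_pos).continuous
  have iψ1 : Integrable fun w : E n => (1 + ‖w‖) * ψ w := by
    refine ((integrable_one_add_norm (E := E n) (μ := volume) (r := (n : ℝ) + 1)
      (by simp)).const_mul c3).mono' ((continuous_const.add continuous_norm).mul
      cψ).aestronglyMeasurable (ae_of_all _ fun w => ?_)
    have h1 : 0 < 1 + ‖w‖ := by positivity
    rw [norm_mul, Real.norm_of_nonneg h1.le, hψ]
    refine (mul_le_mul_of_nonneg_left (b3 1 one_pos w) h1.le).trans (le_of_eq ?_)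
    rw [show -((n : ℝ) + 1) = -((n : ℝ) + 2) + 1 by ring, Real.rpow_add h1, Real.rpow_one]; ring
  have iψ : Integrable ψ := iψ1.mono' cψ.aestronglyMeasurable (ae_of_all _ fun w => by
    rw [Real.norm_of_nonneg (ψ0 w).le]
    exact le_mul_of_one_le_left (ψ0 w).le (by simp))
  have iψ2 : Integrable fun w : E n => ‖w‖ * ψ w :=
    iψ1.mono' (continuous_norm.mul cψ).aestronglyMeasurable (ae_of_all _ fun w => by
      rw [Real.norm_of_nonneg (mul_nonneg (norm_nonneg _) (ψ0 w).le)]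
      exact mul_le_mul_of_nonneg_right (by simp) (ψ0 w).le)
  obtain ⟨I, hI⟩ : ∃ I : ℝ, I = ∫ w, ψ w := ⟨_, rfl⟩
  have hI0 : 0 < I := by
    rw [hI, integral_pos_iff_support_of_nonneg (fun w => (ψ0 w).le) iψ,
      Set.eq_univ_of_forall (s := Function.support ψ) fun w => (ψ0 w).ne']
    exact Measure.measure_univ_pos.2 (NeZero.ne _)
  obtain ⟨J, hJ⟩ : ∃ J : ℝ, J = ∫ w, ‖w‖ * ψ w := ⟨_, rfl⟩
  have hJ0 : 0 ≤ J := hJ ▸ integral_nonneg fun w => mul_nonneg (norm_nonneg _) (ψ0 w).le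
  obtain ⟨κ, hκ⟩ : ∃ κ : ℝ, κ = (n * (n - 2) * I)⁻¹ := ⟨_, rfl⟩
  have hnn : 0 < (n : ℝ) * (n - 2) := mul_pos (by linarith) (by linarith)
  have hκ0 : 0 < κ := hκ ▸ inv_pos.2 (mul_pos hnn hI0)
  refine ⟨κ * (A0 * c0) + κ * (n * (A1 * c1)) + κ * (n * (n * (3 * (A1 * c1) + A2 * c2))),
    by positivity, ?_⟩
  intro G ρ M hG hρ hG0 hJb η hη
  have hρ0 : 0 < ρ := by linarith
  have hM : ∀ y, |G y| ≤ M := fun y => (hJb y).abs_le
  have hM0 : 0 ≤ M := (hJb 0).nonneg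
  have hG0' : ∀ z, ρ < ‖z‖ → G z = 0 := fun z hz => hG0 z hz.le
  have hGc : HasCompactSupport G := hasCompactSupport_of_far hG0'
  -- the choice of `ε`
  obtain ⟨D, hD⟩ : ∃ D : ℝ,
      D = I⁻¹ * (M / ρ * J * (1 + 2 * ρ) ^ ((n : ℝ) + 1) + A3 * M * c3 * ρ ^ n) := ⟨_, rfl⟩
  have hD0 : 0 ≤ D := by rw [hD]; positivity
  obtain ⟨ε, hεd⟩ : ∃ ε : ℝ, ε = min 1 (η / (D + 1)) := ⟨_, rfl⟩
  have hε : 0 < ε := hεd ▸ lt_min one_pos (by positivity)
  have hε1 : ε ≤ 1 := hεd ▸ min_le_left _ _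
  have hεD : ε * D ≤ η := by
    have : ε ≤ η / (D + 1) := hεd ▸ min_le_right _ _
    rw [le_div_iff₀ (by positivity)] at this
    linarith only [this, hε]
  obtain ⟨N, hN⟩ : ∃ N : E n → ℝ, N = fun w => κ * br ε p0 w := ⟨_, rfl⟩
  have sN' : ContDiff ℝ ∞ N := hN ▸ contDiff_const.mul (sN ε hε)
  have ndN : ∀ (k : ℕ) w, ‖iteratedFDeriv ℝ k N w‖ = κ * ‖iteratedFDeriv ℝ k (br ε p0) w‖ := by
    intro k w
    have := iteratedFDeriv_const_smul_apply (𝕜 := ℝ) (i := k) (a := κ) (x := w)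
      ((sN ε hε).of_le (natle k)).contDiffAt
    rw [show N = κ • br ε p0 from hN, this, norm_smul, Real.norm_of_nonneg hκ0.le]
  have n0 : ∀ w, |N w| ≤ κ * c0 * (ε + ‖w‖) ^ (-((n : ℝ) - 2)) := fun w => by
    rw [hN, abs_mul, abs_of_pos hκ0, mul_assoc]
    exact mul_le_mul_of_nonneg_left (b0 ε hε w) hκ0.le
  have n1 : ∀ i w, |pderiv i N w| ≤ κ * c1 * (ε + ‖w‖) ^ (-((n : ℝ) - 1)) := fun i w => by
    refine (abs_pd_le1 sN' i w).trans ?_
    rw [ndN, mul_assoc]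
    exact mul_le_mul_of_nonneg_left (b1 ε hε w) hκ0.le
  have n2' : ∀ i w, ‖fderiv ℝ (pderiv i N) w‖ ≤ κ * c2 * (ε + ‖w‖) ^ (-(n : ℝ)) := fun i w => by
    refine (norm_fderiv_pd_le sN' i w).trans ?_
    rw [ndN, mul_assoc]
    exact mul_le_mul_of_nonneg_left (b2 ε hε w) hκ0.le
  have n2 : ∀ i j w, |pderiv j (pderiv i N) w| ≤ κ * c2 * (ε + ‖w‖) ^ (-(n : ℝ)) :=
    fun i j w => (abs_pd_le j _ w).trans (n2' i w)
  have su : ContDiff ℝ ∞ (cv G N) := cv_smooth hG hGc sN'.continuous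
  have d1 : ∀ i, pderiv i (cv G N) = cv G (pderiv i N) := fun i => by
    rw [pd_cv (smooth_one hG) hGc sN'.continuous, cv_pd (smooth_one hG) hGc (smooth_one sN')]
  have d2 : ∀ i j, pderiv j (pderiv i (cv G N)) = cv (pderiv j G) (pderiv i N) := fun i j => by
    rw [d1, pd_cv (smooth_one hG) hGc (contDiff_pd sN' i).continuous]
  have d2' : ∀ i j, pderiv j (pderiv i (cv G N)) = cv G (pderiv j (pderiv i N)) := fun i j => by
    rw [d2, cv_pd (smooth_one hG) hGc (smooth_one (contDiff_pd sN' i))]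
  refine ⟨cv G N, su, fun k hk y => ?_, fun y => ?_, fun k => ?_, fun h0 => ?_⟩
  · have hy : 0 < ρ + ‖y‖ := by positivity
    have q0 : 0 ≤ κ * (A0 * c0) := by positivity
    have q1 : 0 ≤ κ * (n * (A1 * c1)) := by positivity
    have q2 : 0 ≤ κ * (n * (n * (3 * (A1 * c1) + A2 * c2))) := by positivity
    interval_cases k
    · rw [norm_iteratedFDeriv_zero, show 2 - (n : ℝ) - ((0 : ℕ) : ℝ) = -((n : ℝ) - 2) by simp]
      refine (H0 G N M (κ * c0) ε ρ hε hρ0 (by positivity) hM hG0' n0 y).trans ?_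
      gcongr ?_ * _ * _
      exact (show _ = κ * (A0 * c0) * M by ring).trans_le
        (mul_le_mul_of_nonneg_right (by linarith only [q1, q2]) hM0)
    · rw [show 2 - (n : ℝ) - ((1 : ℕ) : ℝ) = -((n : ℝ) - 1) by push_cast; ring]
      refine (nd1_le su y fun i => by
        rw [d1]; exact H1 G _ M (κ * c1) ε ρ hε hρ0 (by positivity) hM hG0' (n1 i) y).trans ?_
      rw [← mul_assoc, ← mul_assoc]
      gcongr ?_ * _ * _
      exact (show _ = κ * (n * (A1 * c1)) * M by ring).trans_le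
        (mul_le_mul_of_nonneg_right (by linarith only [q0, q2]) hM0)
    · rw [show 2 - (n : ℝ) - ((2 : ℕ) : ℝ) = -(n : ℝ) by push_cast; ring]
      have key : ∀ i j, |pderiv j (pderiv i (cv G N)) y|
          ≤ κ * (3 * (A1 * c1) + A2 * c2) * M * ρ ^ n * (ρ + ‖y‖) ^ (-(n : ℝ)) := by
        intro i j
        rcases le_total (2 * ρ) ‖y‖ with h | h
        · rw [d2']
          refine (H2 G _ M (κ * c2) ε ρ hε hρ0 (by positivity) hM hG0' (n2 i j) y h).trans ?_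
          gcongr ?_ * _ * _
          linarith only [mul_nonneg (mul_nonneg hκ0.le (mul_nonneg hA1 hc1)) hM0]
        · rw [d2]
          refine (H1 _ _ (M / ρ) (κ * c1) ε ρ hε hρ0 (by positivity)
            (fun z => (hJb z).abs_pd_le j) (fun z hz => pd_of_far hG0 hz j) (n1 i) y).trans ?_
          have e : (ρ + ‖y‖) ^ (-((n : ℝ) - 1)) = (ρ + ‖y‖) * (ρ + ‖y‖) ^ (-(n : ℝ)) := by
            rw [show -((n : ℝ) - 1) = -(n : ℝ) + 1 by ring, Real.rpow_add hy, Real.rpow_one, mul_comm]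
          have h5 : M / ρ * (ρ + ‖y‖) ≤ 3 * M := by
            rw [div_mul_eq_mul_div, div_le_iff₀ hρ0]; nlinarith only [hM0, h]
          calc A1 * (M / ρ) * (κ * c1) * ρ ^ n * (ρ + ‖y‖) ^ (-((n : ℝ) - 1))
              = κ * (A1 * c1) * (M / ρ * (ρ + ‖y‖)) * ρ ^ n * (ρ + ‖y‖) ^ (-(n : ℝ)) := by
                rw [e]; ring
            _ ≤ κ * (A1 * c1) * (3 * M) * ρ ^ n * (ρ + ‖y‖) ^ (-(n : ℝ)) := by gcongr
            _ ≤ _ := by
                gcongr ?_ * _ * _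
                linarith only [mul_nonneg (mul_nonneg hκ0.le (mul_nonneg hA2 hc2)) hM0]
      refine (nd2_le su y key).trans ?_
      rw [← mul_assoc, ← mul_assoc, ← mul_assoc, ← mul_assoc]
      gcongr ?_ * _ * _
      exact (show _ = κ * (n * (n * (3 * (A1 * c1) + A2 * c2))) * M by ring).trans_le
        (mul_le_mul_of_nonneg_right (by linarith only [q0, q1]) hM0)
  · have hy : 0 < 1 + ‖y‖ := by positivity
    have eN : lap N = fun w => -I⁻¹ * (ε ^ 2 * br ε (p0 + 2) w) := by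
      funext w
      have : lap N w = κ * lap (br ε p0) w := by
        simp only [lap, hN, funext (pd_const_mul κ (br ε p0) _), pd_const_mul, Finset.mul_sum]
      rw [this, lapN ε hε, hκ, hp0]
      have : (n : ℝ) - 2 ≠ 0 := by linarith
      have : (n : ℝ) ≠ 0 := by linarith
      field_simp; ring
    have eL : lap (cv G N) y = -I⁻¹ * cv G (fun w => ε ^ 2 * br ε (p0 + 2) w) y := by
      rw [lap_cv hG hGc sN', eN, cv_eq, cv_eq, ← integral_const_mul]
      exact integral_congr_ae (ae_of_all _ fun z => by simp only; ring)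
    have e2 : lap (cv G N) y + G y
        = I⁻¹ * (I * G y - cv G (fun w => ε ^ 2 * br ε (p0 + 2) w) y) := by
      rw [eL]; field_simp; ring
    rw [e2, abs_mul, abs_of_pos (inv_pos.2 hI0)]
    refine le_trans ?_ (mul_le_mul_of_nonneg_right hεD (by positivity))
    rw [hD, mul_left_comm ε, mul_assoc]
    refine mul_le_mul_of_nonneg_left ?_ (inv_pos.2 hI0).le
    have q1 : 0 ≤ M / ρ * J * (1 + 2 * ρ) ^ ((n : ℝ) + 1) := by positivity
    have q2 : 0 ≤ A3 * M * c3 * ρ ^ n := by positivity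
    rcases le_total (2 * ρ) ‖y‖ with h | h
    · rw [hG0 y (by linarith), mul_zero, zero_sub, abs_neg]
      refine (H3 G _ M (ε ^ 2 * c3) ε ρ hε hρ0 (by positivity) hM hG0' (fun w => by
        rw [abs_mul, abs_of_pos (by positivity : 0 < ε ^ 2), mul_assoc]
        exact mul_le_mul_of_nonneg_left (b3 ε hε w) (by positivity)) y h).trans ?_
      have h5 : (ρ + ‖y‖) ^ (-((n : ℝ) + 2)) ≤ (1 + ‖y‖) ^ (-(n : ℝ) - 1) :=
        (Real.rpow_le_rpow_of_nonpos hy (by linarith) (by linarith)).trans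
          (Real.rpow_le_rpow_of_exponent_le (by simp) (by linarith))
      have h6 : ε ^ 2 ≤ ε := by nlinarith only [hε, hε1]
      calc A3 * M * (ε ^ 2 * c3) * ρ ^ n * (ρ + ‖y‖) ^ (-((n : ℝ) + 2))
          ≤ A3 * M * (ε * c3) * ρ ^ n * (1 + ‖y‖) ^ (-(n : ℝ) - 1) := by gcongr
        _ = ε * (A3 * M * c3 * ρ ^ n) * (1 + ‖y‖) ^ (-(n : ℝ) - 1) := by ring
        _ ≤ _ := by gcongr; linarith
    · have h4 := approx (ψ := ψ) hε (smooth_one hG) hM (fun z => (hJb z).norm_fderiv_le)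
        (fun w => (ψ0 w).le) iψ iψ2 y
      rw [← hI, ← hJ] at h4
      simp only [hψ, hp0, ← br_scale hε] at h4
      rw [← hp0] at h4
      refine h4.trans ?_
      have h5 : 1 ≤ (1 + 2 * ρ) ^ ((n : ℝ) + 1) * (1 + ‖y‖) ^ (-(n : ℝ) - 1) := by
        rw [show -(n : ℝ) - 1 = -((n : ℝ) + 1) by ring, Real.rpow_neg hy.le, ← div_eq_mul_inv,
          one_le_div (by positivity)]
        exact Real.rpow_le_rpow hy.le (by linarith) (by linarith)
      calc ε * (M / ρ * J)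
          ≤ ε * (M / ρ * J) * ((1 + 2 * ρ) ^ ((n : ℝ) + 1) * (1 + ‖y‖) ^ (-(n : ℝ) - 1)) :=
            le_mul_of_one_le_right (by positivity) h5
        _ = ε * (M / ρ * J * (1 + 2 * ρ) ^ ((n : ℝ) + 1)) * (1 + ‖y‖) ^ (-(n : ℝ) - 1) := by ring
        _ ≤ _ := by gcongr; linarith
  · refine cv_bdd (B := κ * c0 * ε ^ (-((n : ℝ) - 2))) sN'.continuous
      (fun w => (n0 w).trans ?_) k G hG hGc
    exact mul_le_mul_of_nonneg_left
      (Real.rpow_le_rpow_of_nonpos hε (by simp) (by linarith)) (by positivity)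
  · choose D' hD' using fun i => cv_mean hε hε1 hρ0 (by positivity : 0 ≤ κ * c2) hG.continuous hG0'
      h0 (smooth_one (contDiff_pd sN' i)) (n2' i)
    refine ⟨∑ i, D' i, fun y => ?_⟩
    have := nd_succ_le su 0 y
    simp only [norm_iteratedFDeriv_zero, d1] at this
    rw [Finset.sum_mul, ← norm_iteratedFDeriv_one]
    exact this.trans (Finset.sum_le_sum fun i _ => hD' i y)

end Crest.Agent.N346.P0

end
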