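import Crest.Agent.N346.P0.Defs

/-! Row 346, Part 0, task 207 (helper26): `pert : PertStmt` and `boost : BoostStmt`
(matrix algebra only). -/

set_option autoImplicit false
open MeasureTheory Filter Topology Matrix
open scoped ContDiff
open Crest.GeometryTopology.CoordMetric
open Crest.MathPhysics.ExteriorData

noncomputable section

namespace Crest.Agent.N346.P0
open Bs

namespace Pe

variable {n : ℕ} {A A' : Matrix (Fin n) (Fin n) ℝ} {Λ β : ℝ}

theorem abs_qb_entry {D : Matrix (Fin n) (Fin n) ℝ} {a b : ℝ} {u w : Fin n → ℝ} (hβ : 0 ≤ β)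
    (ha : 0 ≤ a) (hD : ∀ i j, |D i j| ≤ β) (hu : ∀ i, |u i| ≤ a) (hw : ∀ j, |w j| ≤ b) :
    |qb D u w| ≤ (n : ℝ) ^ 2 * (β * a * b) := by
  have h : ∀ i j, |D i j * u i * w j| ≤ β * a * b := fun i j => by
    rw [abs_mul, abs_mul]
    exact mul_le_mul (mul_le_mul (hD i j) (hu i) (abs_nonneg _) hβ) (hw j) (abs_nonneg _)
      (mul_nonneg hβ ha)
  calc |qb D u w| ≤ ∑ i, ∑ j, |D i j * u i * w j| :=
        (Finset.abs_sum_le_sum_abs _ _).trans
          (Finset.sum_le_sum fun i _ => Finset.abs_sum_le_sum_abs _ _)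
    _ ≤ ∑ _i : Fin n, ∑ _j : Fin n, β * a * b :=
        Finset.sum_le_sum fun i _ => Finset.sum_le_sum fun j _ => h i j
    _ = (n : ℝ) ^ 2 * (β * a * b) := by simp; ring

theorem qb_sub (A B : Matrix (Fin n) (Fin n) ℝ) (u w : Fin n → ℝ) :
    qb (A - B) u w = qb A u w - qb B u w := by
  simp only [qb, Matrix.sub_apply, sub_mul, Finset.sum_sub_distrib]

theorem qb_smul_left (A : Matrix (Fin n) (Fin n) ℝ) (c : ℝ) (u w : Fin n → ℝ) :
    qb A (c • u) w = c * qb A u w := by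
  simp only [qb, Pi.smul_apply, smul_eq_mul, Finset.mul_sum]
  exact Finset.sum_congr rfl fun i _ => Finset.sum_congr rfl fun j _ => by ring

theorem qb_smul_smul (A : Matrix (Fin n) (Fin n) ℝ) (c : ℝ) (u : Fin n → ℝ) :
    qb A (c • u) (c • u) = c ^ 2 * qb A u u := by
  simp only [qb, Pi.smul_apply, smul_eq_mul, Finset.mul_sum]
  exact Finset.sum_congr rfl fun i _ => Finset.sum_congr rfl fun j _ => by ring

theorem sq_nn (u : Fin n → ℝ) : 0 ≤ ∑ i, u i * u i :=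
  Finset.sum_nonneg fun i _ => mul_self_nonneg (u i)

theorem abs_le_rt (u : Fin n → ℝ) (i : Fin n) : |u i| ≤ √(∑ i, u i * u i) :=
  Real.abs_le_sqrt (by
    rw [sq]
    exact Finset.single_le_sum (f := fun i => u i * u i) (fun i _ => mul_self_nonneg (u i))
      (Finset.mem_univ i))

theorem abs_qb_diag {D : Matrix (Fin n) (Fin n) ℝ} (hβ : 0 ≤ β) (hD : ∀ i j, |D i j| ≤ β)
    (u : Fin n → ℝ) : |qb D u u| ≤ (n : ℝ) ^ 2 * β * ∑ i, u i * u i := by
  have h := abs_qb_entry hβ (Real.sqrt_nonneg _) hD (abs_le_rt u) (abs_le_rt u)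
  rwa [mul_assoc β, Real.mul_self_sqrt (sq_nn u), ← mul_assoc] at h

theorem one_add_pow_le {δ D : ℝ} (h0 : 0 ≤ δ) (hD : δ ≤ D) (m : ℕ) :
    (1 + δ) ^ m ≤ 1 + δ * (m * (1 + D) ^ m) := by
  induction m with
  | zero => simp
  | succ m ih =>
    have h1 : (1 + δ) ^ m ≤ (1 + D) ^ (m + 1) :=
      (pow_le_pow_left₀ (by linarith) (by linarith) m).trans
        (pow_le_pow_right₀ (by linarith) (Nat.le_succ m))
    have h2 : (1 + D) ^ m ≤ (1 + D) ^ (m + 1) := pow_le_pow_right₀ (by linarith) (Nat.le_succ m)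
    have h3 : (m : ℝ) * (1 + D) ^ m ≤ m * (1 + D) ^ (m + 1) :=
      mul_le_mul_of_nonneg_left h2 (Nat.cast_nonneg m)
    have h4 : δ * (1 + δ) ^ m ≤ δ * (1 + D) ^ (m + 1) := mul_le_mul_of_nonneg_left h1 h0
    have h5 := mul_le_mul_of_nonneg_left h3 h0
    rw [pow_succ (1 + δ)]
    push_cast
    nlinarith

/-- numerator of the electric term -/
def nu (A : Matrix (Fin n) (Fin n) ℝ) (v e : Fin n → ℝ) : ℝ :=
  (1 - qb A v v) * qb A e e + qb A v e ^ 2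

theorem eT_eq {g : MetricField n} {x : E n} (hg : (g x).PosDef) (EE : VectorField n) (v : E n) :
    eT g EE x v = nu (g x) v (EE x) / (g x).det := by
  have h1 : eDot g EE x v ^ 2 = qb (g x) v (EE x) ^ 2 / (g x).det := by
    rw [eDot, div_pow, volDensity, Real.sq_sqrt hg.det_pos.le]; rfl
  rw [eT, h1, nu, add_div, mul_div_assoc]; rfl

theorem nu_nonneg (hA : A.PosDef) {v : Fin n → ℝ} (hv : qb A v v ≤ 1) (e : Fin n → ℝ) :
    0 ≤ nu A v e :=
  add_nonneg (mul_nonneg (sub_nonneg.2 hv) (qb_nonneg hA e)) (sq_nonneg _)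

theorem nu_le (hA : A.PosDef) (v e : Fin n → ℝ) : nu A v e ≤ qb A e e := by
  have := qb_sq_le hA v e
  rw [nu]; nlinarith

theorem inv_det_le (hΛ : 1 ≤ Λ) (hA : A.PosDef) (hlo : ∀ v, Λ⁻¹ * ∑ i, v i * v i ≤ qb A v v) :
    A.det⁻¹ ≤ Λ ^ n := by
  have h := det_lower hA (by positivity) hlo
  rw [inv_pow] at h
  exact inv_le_of_inv_le₀ (by positivity) h

theorem div_det_le (hΛ : 1 ≤ Λ) (hA : A.PosDef) (hlo : ∀ v, Λ⁻¹ * ∑ i, v i * v i ≤ qb A v v)
    {t : ℝ} (ht : 0 ≤ t) : t / A.det ≤ Λ ^ n * t := by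
  rw [div_eq_mul_inv, mul_comm]
  exact mul_le_mul_of_nonneg_right (inv_det_le hΛ hA hlo) ht

theorem em_le (hΛ : 1 ≤ Λ) (hA : A.PosDef) (hlo : ∀ v, Λ⁻¹ * ∑ i, v i * v i ≤ qb A v v)
    (hhi : ∀ i j, |A i j| ≤ Λ) {v : Fin n → ℝ} (hv : qb A v v ≤ 1) (e : Fin n → ℝ) :
    nu A v e / A.det ≤ Λ ^ n * ((n : ℝ) ^ 2 * Λ) * ∑ i, e i * e i := by
  refine (div_det_le hΛ hA hlo (nu_nonneg hA hv e)).trans ?_
  rw [mul_assoc]
  exact mul_le_mul_of_nonneg_left ((nu_le hA v e).trans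
    ((le_abs_self _).trans (abs_qb_diag (by linarith) hhi e))) (by positivity)

theorem qb_cmp (hΛ : 1 ≤ Λ) (hβ : 0 ≤ β) (hlo : ∀ v, Λ⁻¹ * ∑ i, v i * v i ≤ qb A v v)
    (hd : ∀ i j, |A' i j - A i j| ≤ β) (u : Fin n → ℝ) :
    qb A' u u ≤ (1 + (n : ℝ) ^ 2 * Λ * β) * qb A u u := by
  have h1 := abs_qb_diag (D := A' - A) hβ hd u
  rw [qb_sub] at h1
  have h2 : ∑ i, u i * u i ≤ Λ * qb A u u := (inv_mul_le_iff₀ (by linarith)).1 (hlo u)
  have h3 := mul_le_mul_of_nonneg_left h2 (by positivity : 0 ≤ (n : ℝ) ^ 2 * β)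
  have := le_abs_self (qb A' u u - qb A u u)
  nlinarith

/-- the real-number inequality for the cross term -/
theorem cross {a b s δ p q : ℝ} (hs0 : 0 ≤ s) (hs1 : s ≤ 1) (hs : 1 - s ≤ δ) (hab : |a - b| ≤ p)
    (ha : |a| ≤ q) (hb : |b| ≤ q) : a ^ 2 ≤ (s * b) ^ 2 + (p + δ * q) * (2 * q) := by
  have hq : 0 ≤ q := (abs_nonneg _).trans ha
  have h1 : |a - s * b| ≤ p + δ * q := by
    have e : a - s * b = (a - b) + (1 - s) * b := by ring
    rw [e]
    refine (abs_add_le _ _).trans (add_le_add hab ?_)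
    rw [abs_mul, abs_of_nonneg (by linarith)]
    exact mul_le_mul hs hb (abs_nonneg _) (by linarith)
  have h2 : |a + s * b| ≤ 2 * q := by
    refine (abs_add_le _ _).trans ?_
    rw [abs_mul, abs_of_nonneg hs0]
    nlinarith [abs_nonneg b]
  have h3 : (a - s * b) * (a + s * b) ≤ (p + δ * q) * (2 * q) := by
    refine (le_abs_self _).trans ?_
    rw [abs_mul]
    exact mul_le_mul h1 h2 (abs_nonneg _) ((abs_nonneg _).trans h1)
  nlinarith

theorem fin_div {a a' d d' k L m c S : ℝ} (hd : 0 < d) (hd' : 0 < d') (ha : 0 ≤ a) (hk : 0 ≤ k)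
    (h1 : a' ≤ a + m) (h2 : d ≤ (1 + k) * d') (h3 : m / d' ≤ L * m) (h4 : a / d ≤ c * S) :
    a' / d' ≤ a / d + (L * m + k * (c * S)) := by
  have h5 : a / d' ≤ (1 + k) * (a / d) := by
    rw [← mul_div_assoc, div_le_div_iff₀ hd' hd]
    nlinarith [mul_le_mul_of_nonneg_left h2 ha]
  have h7 := mul_le_mul_of_nonneg_left h4 hk
  have h8 : a' / d' ≤ (a + m) / d' := div_le_div_of_nonneg_right h1 hd'.le
  rw [add_div] at h8
  linarith

theorem main (n : ℕ) (hΛ : 1 ≤ Λ) : ∃ C : ℝ, 0 ≤ C ∧ ∀ (A A' : Matrix (Fin n) (Fin n) ℝ) (β : ℝ),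
    A.PosDef → A'.PosDef → (∀ v, Λ⁻¹ * ∑ i, v i * v i ≤ qb A v v) →
    (∀ v, Λ⁻¹ * ∑ i, v i * v i ≤ qb A' v v) → (∀ i j, |A i j| ≤ Λ) → (∀ i j, |A' i j| ≤ Λ) →
    0 ≤ β → β ≤ 1 → (∀ i j, |A' i j - A i j| ≤ β) → ∀ v e : Fin n → ℝ, qb A' v v ≤ 1 →
    ∃ s : ℝ, |s - 1| ≤ (n : ℝ) ^ 2 * Λ * β ∧ qb A (s • v) (s • v) ≤ 1 ∧
      nu A' v e / A'.det ≤ nu A (s • v) e / A.det + C * β * ∑ i, e i * e i := by
  set N : ℝ := (n : ℝ) ^ 2 with hN
  have hN0 : 0 ≤ N := by positivity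
  have hΛ0 : 0 < Λ := by linarith
  set c1 : ℝ := N * Λ * (N * Λ) + (N + N * Λ * (N * Λ)) * (2 * (N * Λ)) * Λ with hc1
  set c2 : ℝ := N * Λ * (n * (1 + N * Λ) ^ n) with hc2
  set c3 : ℝ := Λ ^ n * (N * Λ) with hc3
  refine ⟨Λ ^ n * c1 + c2 * c3, by positivity, ?_⟩
  intro A A' β hA hA' hlo hlo' hhi hhi' hβ hβ1 hd v e hv
  set δ : ℝ := N * Λ * β with hδ
  have hδ0 : 0 ≤ δ := by positivity
  have hd' : ∀ i j, |A i j - A' i j| ≤ β := fun i j => by rw [abs_sub_comm]; exact hd i j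
  have c12 := qb_cmp hΛ hβ hlo hd
  have c21 := qb_cmp hΛ hβ hlo' hd'
  rw [← hN, ← hδ] at c12 c21
  set s : ℝ := (1 + δ)⁻¹ with hs
  have hs0 : 0 < s := by positivity
  have hsδ : s * (1 + δ) = 1 := inv_mul_cancel₀ (by positivity)
  have hs1 : s ≤ 1 := by nlinarith
  have hs2 : 1 - s ≤ δ := by nlinarith
  have hk : ∀ u, s * qb A u u ≤ qb A' u u := fun u => by
    rw [hs, inv_mul_le_iff₀ (by positivity)]; exact c21 u
  have hv0 := qb_nonneg hA v
  have hsv : qb A (s • v) (s • v) ≤ qb A' v v := by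
    rw [qb_smul_smul]
    have := hk v
    nlinarith [mul_nonneg hs0.le hv0]
  refine ⟨s, by rw [abs_sub_comm, abs_of_nonneg (by linarith)]; exact hs2, hsv.trans hv, ?_⟩
  set S : ℝ := ∑ i, e i * e i with hS
  have hS0 : 0 ≤ S := sq_nn e
  -- sizes
  have hvv : ∑ i, v i * v i ≤ Λ := by
    have := (inv_mul_le_iff₀ hΛ0).1 ((hlo' v).trans hv)
    linarith
  have hvi : ∀ i, |v i| ≤ √Λ := fun i => (abs_le_rt v i).trans (Real.sqrt_le_sqrt hvv)
  have hei : ∀ i, |e i| ≤ √S := abs_le_rt e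
  set t : ℝ := √Λ * √S with ht
  have ht2 : t * t = Λ * S := by
    rw [ht, mul_mul_mul_comm, Real.mul_self_sqrt hΛ0.le, Real.mul_self_sqrt hS0]
  have hab : |qb A' v e - qb A v e| ≤ N * β * t := by
    have := abs_qb_entry (D := A' - A) hβ (Real.sqrt_nonneg _) hd hvi hei
    rw [qb_sub] at this
    exact this.trans_eq (by rw [ht]; ring)
  have ha : |qb A' v e| ≤ N * Λ * t :=
    (abs_qb_entry hΛ0.le (Real.sqrt_nonneg _) hhi' hvi hei).trans_eq (by rw [ht]; ring)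
  have hb : |qb A v e| ≤ N * Λ * t :=
    (abs_qb_entry hΛ0.le (Real.sqrt_nonneg _) hhi hvi hei).trans_eq (by rw [ht]; ring)
  have hx := cross hs0.le hs1 hs2 hab ha hb
  have hx2 : (N * β * t + δ * (N * Λ * t)) * (2 * (N * Λ * t))
      = (N + N * Λ * (N * Λ)) * (2 * (N * Λ)) * Λ * β * S := by
    rw [hδ]; linear_combination (N + N * Λ * (N * Λ)) * (2 * (N * Λ)) * β * ht2
  have hee : qb A e e ≤ N * Λ * S := (le_abs_self _).trans (abs_qb_diag hΛ0.le hhi e)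
  have he0 := qb_nonneg hA e
  have hv0' := qb_nonneg hA' v
  have hnum : nu A' v e ≤ nu A (s • v) e + c1 * β * S := by
    have h1 : (1 - qb A' v v) * qb A' e e ≤ (1 - qb A' v v) * ((1 + δ) * qb A e e) :=
      mul_le_mul_of_nonneg_left (c12 e) (by linarith)
    have h2 : (1 - qb A' v v) * qb A e e ≤ (1 - qb A (s • v) (s • v)) * qb A e e :=
      mul_le_mul_of_nonneg_right (by linarith) he0
    have h3 : (1 - qb A' v v) * (δ * qb A e e) ≤ 1 * (δ * (N * Λ * S)) :=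
      mul_le_mul (by linarith) (mul_le_mul_of_nonneg_left hee hδ0) (by positivity) zero_le_one
    have h4 : δ * (N * Λ * S) = N * Λ * (N * Λ) * β * S := by rw [hδ]; ring
    have h5 : c1 * β * S = N * Λ * (N * Λ) * β * S
        + (N + N * Λ * (N * Λ)) * (2 * (N * Λ)) * Λ * β * S := by rw [hc1]; ring
    have h6 : (1 - qb A' v v) * ((1 + δ) * qb A e e)
        = (1 - qb A' v v) * qb A e e + (1 - qb A' v v) * (δ * qb A e e) := by ring
    rw [nu, nu, qb_smul_left A s v e]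
    linarith
  -- determinants
  have hdet : A.det ≤ (1 + c2 * β) * A'.det := by
    have h1 := (mono_of_le hA hA' hs0.le hk).1
    rw [hs, inv_pow, inv_mul_le_iff₀ (by positivity)] at h1
    refine h1.trans (mul_le_mul_of_nonneg_right ?_ hA'.det_pos.le)
    refine (one_add_pow_le hδ0 (D := N * Λ) ?_ n).trans_eq (by rw [hδ, hc2]; ring)
    rw [hδ]
    exact mul_le_of_le_one_right (by positivity) hβ1
  have hn0 := nu_nonneg hA (hsv.trans hv) e
  have hm := em_le hΛ hA hlo hhi (hsv.trans hv) e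
  rw [← hN, ← hc3, ← hS] at hm
  have h6 : c1 * β * S / A'.det ≤ Λ ^ n * (c1 * β * S) := div_det_le hΛ hA' hlo' (by positivity)
  exact (fin_div hA.det_pos hA'.det_pos hn0 (by positivity) hnum hdet h6 hm).trans_eq (by ring)

theorem lo_qb {g : MetricField n} {x : E n} (h : Lo Λ g x) (v : Fin n → ℝ) :
    Λ⁻¹ * ∑ i, v i * v i ≤ qb (g x) v v := by
  have := h (WithLp.toLp 2 v)
  rwa [norm_sq_eq, quadForm_eq] at this

end Pe

open Pe in
theorem pert : PertStmt := by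
  intro n Λ hΛ
  obtain ⟨C, hC, h⟩ := Pe.main n hΛ
  have hΛ0 : 0 < Λ := by linarith
  set c3 : ℝ := Λ ^ n * ((n : ℝ) ^ 2 * Λ) with hc3
  have hc30 : 0 ≤ c3 := by positivity
  set c4 : ℝ := (n : ℝ) ^ 2 * Λ * Λ with hc4
  have hc40 : 0 ≤ c4 := by positivity
  refine ⟨C + c3 + c4 + Λ, by positivity, ?_⟩
  intro g g' EE x β hg hg' hlo hlo' hhi hhi' hβ hd v' hv'
  have hS : ∑ i, EE x i ^ 2 = ∑ i, EE x i * EE x i := by simp only [sq]
  have hS0 := sq_nn (EE x)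
  have hup := em_le hΛ hg' (lo_qb hlo') hhi' hv' (EE x)
  have hv : ‖v'‖ ≤ Λ := by
    have h1 := (inv_mul_le_iff₀ hΛ0).1 ((hlo' v').trans hv')
    exact le_of_sq_le_sq (by nlinarith) hΛ0.le
  rw [hS, eT_eq hg']
  refine ⟨div_nonneg (nu_nonneg hg' hv' _) hg'.det_pos.le, hup.trans
    (mul_le_mul_of_nonneg_right (by linarith) hS0), ?_⟩
  rcases le_total β 1 with hβ1 | hβ1
  · obtain ⟨s, hs, h1, h2⟩ := h (g x) (g' x) β hg hg' (lo_qb hlo) (lo_qb hlo') hhi hhi' hβ hβ1 hd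
      v' (EE x) hv'
    refine ⟨s • v', h1, ?_, ?_⟩
    · have e : s • v' - v' = (s - 1) • v' := by rw [sub_smul, one_smul]
      rw [e, norm_smul, Real.norm_eq_abs]
      have := mul_le_mul hs hv (norm_nonneg _) (by positivity)
      nlinarith [mul_nonneg (add_nonneg (add_nonneg hC hc30) hΛ0.le) hβ]
    · rw [eT_eq hg]
      refine h2.trans (add_le_add le_rfl (mul_le_mul_of_nonneg_right
        (mul_le_mul_of_nonneg_right (by linarith) hβ) hS0))
  · have h0 : quadForm g x 0 ≤ 1 := by simp [quadForm]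
    refine ⟨0, h0, ?_, ?_⟩
    · rw [zero_sub, norm_neg]
      nlinarith [mul_nonneg (add_nonneg (add_nonneg hC hc30) hc40) hβ]
    · have h1 : 0 ≤ eT g EE x 0 := by
        rw [eT_eq hg]; exact div_nonneg (nu_nonneg hg h0 _) hg.det_pos.le
      have h2 : c3 ≤ (C + c3 + c4 + Λ) * β := by
        nlinarith [mul_nonneg (add_nonneg (add_nonneg hC hc40) hΛ0.le) hβ]
      have h3 := mul_le_mul_of_nonneg_right h2 hS0
      linarith

theorem boost : BoostStmt := by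
  intro n w hw
  have hw0 := norm_nonneg w
  have hp : 0 < 1 - ‖w‖ ^ 2 := by nlinarith
  set g0 : ℝ := (√(1 - ‖w‖ ^ 2))⁻¹ with hg0
  have hsq : g0 ^ 2 * (1 - ‖w‖ ^ 2) = 1 := by
    rw [hg0, inv_pow, Real.sq_sqrt hp.le, inv_mul_cancel₀ hp.ne']
  have hpos : 0 < g0 := inv_pos.2 (Real.sqrt_pos.2 hp)
  have hge : 1 ≤ g0 := le_of_sq_le_sq (by nlinarith [mul_nonneg (sq_nonneg g0) (sq_nonneg ‖w‖)])
    hpos.le
  set c : ℝ := g0 ^ 2 / (g0 + 1) with hc
  have hc1 : c * (g0 + 1) = g0 ^ 2 := div_mul_cancel₀ _ (by linarith)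
  set W : Matrix (Fin n) (Fin n) ℝ := vecMulVec w.ofLp w.ofLp with hW
  have hdot : w.ofLp ⬝ᵥ w.ofLp = ‖w‖ ^ 2 := (norm_sq_eq w).symm
  have hWW : W * W = ‖w‖ ^ 2 • W := by
    rw [hW, vecMulVec_mul_vecMulVec, hdot, vecMulVec_smul]
  have hcw : c * ‖w‖ ^ 2 = g0 - 1 := by
    have : (c * ‖w‖ ^ 2 - (g0 - 1)) * (g0 + 1) = 0 := by
      linear_combination ‖w‖ ^ 2 * hc1 - hsq
    rcases mul_eq_zero.1 this with h | h
    · linarith
    · linarith
  have hT : (1 + c • W)ᵀ = 1 + c • W := by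
    rw [transpose_add, transpose_one, transpose_smul, hW, transpose_vecMulVec]
  have hBB : (1 + c • W)ᵀ * (1 + c • W) = 1 + g0 ^ 2 • W := by
    rw [hT]
    simp only [add_mul, mul_add, one_mul, mul_one, smul_mul_assoc, mul_smul_comm, hWW, smul_smul,
      smul_add]
    rw [add_assoc, ← add_smul, ← add_smul]
    congr 2
    linear_combination c * hcw + hc1
  have hξ : vecMulVec (g0 • w).ofLp (g0 • w).ofLp = g0 ^ 2 • W := by
    rw [WithLp.ofLp_smul, smul_vecMulVec, vecMulVec_smul, smul_smul, sq]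
  have hn : ∀ x : E n, ‖lin (1 + c • W) x‖ ^ 2 = ‖x‖ ^ 2 + g0 ^ 2 * (w.ofLp ⬝ᵥ x.ofLp) ^ 2 := by
    intro x
    have e1 : ‖lin (1 + c • W) x‖ ^ 2 = ((1 + c • W) *ᵥ x.ofLp) ⬝ᵥ ((1 + c • W) *ᵥ x.ofLp) :=
      norm_sq_eq _
    have e2 : ‖x‖ ^ 2 = x.ofLp ⬝ᵥ x.ofLp := norm_sq_eq x
    have e3 : W *ᵥ x.ofLp = (w.ofLp ⬝ᵥ x.ofLp) • w.ofLp := by
      rw [hW, vecMulVec_mulVec]; ext i; simp [mul_comm]
    rw [e1, e2, add_mulVec, one_mulVec, smul_mulVec, e3]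
    simp only [add_dotProduct, dotProduct_add, smul_dotProduct, dotProduct_smul, smul_eq_mul, hdot,
      dotProduct_comm x.ofLp w.ofLp]
    linear_combination (w.ofLp ⬝ᵥ x.ofLp) ^ 2 * (c * hcw + hc1)
  refine ⟨g0 • w, g0, 1 + c • W, hw, hge, hsq, rfl, by rw [hBB, hξ], ?_, ?_, fun x => ?_,
    fun x => ?_⟩
  · rw [hBB]
    refine inv_eq_right_inv ?_
    rw [← hW]
    simp only [add_mul, mul_sub, one_mul, mul_one, smul_mul_assoc, hWW, smul_smul]
    have : g0 ^ 2 • W = W + (g0 ^ 2 * ‖w‖ ^ 2) • W := by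
      conv_rhs => rw [← one_smul ℝ W, smul_smul, mul_one, ← add_smul]
      congr 1
      linear_combination hsq
    conv_lhs => rw [this]
    abel
  · rw [hW, ← smul_vecMulVec, vecMulVec_eq Unit, det_one_add_replicateCol_mul_replicateRow,
      dotProduct_smul, hdot, smul_eq_mul, hcw]
    ring
  · refine le_of_sq_le_sq ?_ (norm_nonneg _)
    rw [hn]
    nlinarith [mul_nonneg (sq_nonneg g0) (sq_nonneg (w.ofLp ⬝ᵥ x.ofLp))]
  · refine le_of_sq_le_sq ?_ (by positivity)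
    have h1 : (w.ofLp ⬝ᵥ x.ofLp) ^ 2 ≤ ‖w‖ ^ 2 * ‖x‖ ^ 2 := by
      rw [norm_sq_eq, norm_sq_eq]
      have := Finset.sum_mul_sq_le_sq_mul_sq Finset.univ w.ofLp x.ofLp
      simp only [sq (w.ofLp _), sq (x.ofLp _)] at this
      exact this
    have h2 := mul_le_mul_of_nonneg_left h1 (sq_nonneg g0)
    rw [hn, mul_pow]
    nlinarith [sq_nonneg ‖x‖]

end Crest.Agent.N346.P0

end
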