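import Crest.Agent.N346.P0.PullA
import Crest.Agent.N346.An.UB0

/-! Row 346, Part 0, step 0.5: the linear change of coordinates `y = B x`. -/

set_option autoImplicit false
open MeasureTheory Filter Topology Matrix
open scoped ContDiff
open Crest.GeometryTopology.CoordMetric
open Crest.MathPhysics.ExteriorData

noncomputable section

namespace Crest.Agent.N346.P0
open Bs Pl

variable {n : ℕ}

theorem Pl.gS_zero (b : Matrix (Fin n) (Fin n) ℝ) (c : E n → ℝ) (x : E n) :
    gS b c (fun _ => 0) x = Real.exp (2 * c x) • b := by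
  ext i j; simp [gS, Id.XX]

theorem Pl.KS_zero (b : Matrix (Fin n) (Fin n) ℝ) (c : E n → ℝ) (x : E n) :
    KS b c (fun _ => 0) x = 0 := by
  ext i j; simp [KS, Id.hh, Id.hessM, R247.Bo84.hess_apply]

/-- uniform ellipticity on a compact set -/
theorem Pl.exists_lo {g : MetricField n} (hg : IsRiemannianOn g Set.univ) {S : Set (E n)}
    (hS : IsCompact S) : ∃ Λ : ℝ, 1 ≤ Λ ∧ ∀ x ∈ S, Lo Λ g x := by
  have : ∀ i j, ∃ M : ℝ, ∀ x ∈ S, ‖inverseField g x i j‖ ≤ M := fun i j =>
    hS.exists_bound_of_continuousOn (contDiff_inv hg i j).continuous.continuousOn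
  choose M hM using this
  set a := ∑ i, ∑ j, |M i j| with ha
  have ha0 : 0 ≤ a := by positivity
  have hle : ∀ i j, M i j ≤ a := fun i j => (le_abs_self _).trans
    ((Finset.single_le_sum (f := fun j => |M i j|) (fun _ _ => abs_nonneg _)
      (Finset.mem_univ j)).trans (Finset.single_le_sum (f := fun i => ∑ j, |M i j|)
        (fun _ _ => by positivity) (Finset.mem_univ i)))
  refine ⟨n * a + 1, by have : 0 ≤ (n : ℝ) * a := by positivity
                        linarith, fun x hx v => ?_⟩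
  have hp := riem_posDef hg x
  have h1 := inv_lower hp.inv (C := n * a + 1) (by positivity) (fun w => by
    have h2 := abs_quadForm_le (k := inverseField g) (x := x) (a := a)
      (fun i j => (hM i j x hx).trans (hle i j)) (WithLp.toLp 2 w)
    rw [norm_sq_eq] at h2
    have h3 : 0 ≤ ∑ i, w i * w i := Finset.sum_nonneg fun _ _ => mul_self_nonneg _
    exact ((le_abs_self _).trans h2).trans (by nlinarith)) v.ofLp
  rwa [nonsing_inv_nonsing_inv _ hp.det_pos.ne'.isUnit, ← norm_sq_eq] at h1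

theorem pull : PullStmt := by
  intro n hn B hB e0 m A Q g K EE ψ R1 C c0 θ0 r1 β he0 he1 h
  set D := B⁻¹ with hD
  have hDB : D * B = 1 := nonsing_inv_mul _ hB.isUnit
  have hBD : B * D = 1 := mul_nonsing_inv _ hB.isUnit
  have e1 : ∀ y, lin B (lin D y) = y := lin_lin_inv hB
  have h3 : (3 : ℝ) ≤ n := by exact_mod_cast hn
  set L := ‖lin B‖ + 1 with hL
  set L' := ‖lin D‖ + 1 with hL'
  have hL1 : 1 ≤ L := le_add_of_nonneg_left (norm_nonneg _)
  have hL1' : 1 ≤ L' := le_add_of_nonneg_left (norm_nonneg _)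
  have hy : ∀ y, ‖y‖ ≤ L * ‖lin D y‖ := fun y => by
    have := (lin B).le_opNorm (lin D y)
    rw [e1] at this
    nlinarith [norm_nonneg (lin D y)]
  have hy' : ∀ y, ‖lin D y‖ ≤ L' * (1 + ‖y‖) := fun y => by
    have := (lin D).le_opNorm y
    nlinarith [norm_nonneg (lin D), norm_nonneg y]
  have hR1 := h.R1_ge
  have hfar : ∀ y : E n, L * R1 ≤ ‖y‖ → R1 ≤ ‖lin D y‖ := fun y h1 =>
    le_of_mul_le_mul_left (h1.trans (hy y)) (by linarith)
  have hg' := riem_pb hDB h.riem
  have gfar : ∀ y : E n, L * R1 ≤ ‖y‖ →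
      pb D g y = Real.exp (2 * ψ y) • (1 : Matrix (Fin n) (Fin n) ℝ) := fun y h1 => by
    rw [pb, h.g_far _ (hfar y h1), gS_zero, e1, Matrix.mul_smul, Matrix.smul_mul,
      ← Matrix.mul_assoc, ← transpose_mul, hBD, transpose_one, Matrix.one_mul, hBD]
  have hUC : ∀ i j, An.UC fun (_ : Unit) y => pb D g y i j := fun i j => by
    have u1 : An.UC fun (_ : Unit) y => Real.exp (2 * ψ y) * (1 : Matrix (Fin n) (Fin n) ℝ) i j :=
      ((An.UC.single h.far.smooth h.far.bdd).const_mul 2).exp.mul (An.UB.const' _)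
    have u2 : An.UC fun (_ : Unit) y => pb D g y i j -
        Real.exp (2 * ψ y) * (1 : Matrix (Fin n) (Fin n) ℝ) i j :=
      An.UC.of_compact ((contDiff_g hg' i j).sub (u1.1 ())) (hasCompactSupport_of_far
        (R := L * R1) fun y h1 => by rw [gfar y h1.le]; simp)
    exact (u1.add u2).congr fun _ y => by ring
  have gbdd : ∀ k : ℕ, ∃ M : ℝ, ∀ i j x, ‖iteratedFDeriv ℝ k (fun y => pb D g y i j) x‖ ≤ M := by
    intro k
    choose M hM using fun i j => (hUC i j).2 k 0
    refine ⟨∑ i, ∑ j, |M i j|, fun i j x => (hM i j () x le_rfl).trans ((le_abs_self _).trans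
      ((Finset.single_le_sum (f := fun j => |M i j|) (fun _ _ => abs_nonneg _)
        (Finset.mem_univ j)).trans (Finset.single_le_sum (f := fun i => ∑ j, |M i j|)
          (fun _ _ => by positivity) (Finset.mem_univ i))))⟩
  obtain ⟨M0, hM0⟩ := gbdd 0
  simp only [norm_iteratedFDeriv_zero, Real.norm_eq_abs] at hM0
  obtain ⟨Λ, hΛ1, hΛ⟩ := exists_lo hg' (isCompact_closedBall (0 : E n) (L * R1))
  have hC0 : 0 ≤ C := by
    have := (abs_nonneg _).trans (h.far.lap_le 0)
    simpa using this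
  set b := ∑ i, ∑ j, |B i j| with hb
  have hb0 : 0 ≤ b := by positivity
  set CE := |D.det| * (b * (C * L ^ ((n : ℝ) - 1))) with hCE
  have hCE0 : 0 ≤ CE := by positivity
  have hM00 : 0 ≤ (n : ℝ) * |M0| := by positivity
  have hex := Real.exp_pos (2 * β)
  set C' := C + CE + Λ + n * |M0| + Real.exp (2 * β) with hC'
  have hs : ContDiff ℝ ∞ fun x : E n => ‖x‖ ^ 2 := contDiff_norm_sq ℝ
  have hone : ∀ y, 1 ≤ ‖lin D y‖ ^ 2 → 1 ≤ ‖lin D y‖ := fun y h1 => by
    nlinarith [norm_nonneg (lin D y)]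
  have hreg : ∀ x : E n, 0 < ‖x‖ ^ 2 → fderiv ℝ (fun x : E n => ‖x‖ ^ 2) x ≠ 0 := fun x h1 h2 => by
    have := congrArg (fun T : E n →L[ℝ] ℝ => T x) h2
    simp only [fderiv_norm_sq_apply, _root_.smul_apply, innerSL_apply_apply, real_inner_self_eq_norm_sq,
      nsmul_eq_mul, _root_.zero_apply] at this
    norm_num at this
    simp [this] at h1
  refine ⟨pb D g, pb D K, pf |D.det| B D EE, fun y => ‖lin D y‖ ^ 2, L * R1, C',
    c0 * L' ^ (-(n : ℝ) - e0), by nlinarith, by linarith,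
    mul_pos h.c0_pos (Real.rpow_pos_of_pos (by linarith) _), he0, he1, h.θ0_pos, h.r1_gt, h.r1_lt,
    hg', fun y v => ?_, fun y v => ?_, gbdd, sm_pb h.K_smooth, sy_pb h.K_symm, fun y h1 => ?_,
    h.far.smooth, gfar, fun k hk y => (h.far.decay k hk y).trans ?_,
    fun y => (h.far.lap_le y).trans ?_, h.far.mass, contDiff_comp_lin D hs,
    fun _ => sq_nonneg _, fun y h1 => by nlinarith [hfar y h1], fun y h1 h2 => ?_,
    fun i => ?_, fun y i => ?_, fun y h1 => ?_, ?_, fun y h1 => ?_, fun y h1 h2 => ?_, ?_⟩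
  · rcases le_total ‖y‖ (L * R1) with h1 | h1
    · exact (hΛ y (mem_closedBall_zero_iff.2 h1)).mono (by linarith) (by linarith) v
    · rw [quadForm_eq, gfar y h1, qb_smul, qb_one, ← norm_sq_eq]
      refine mul_le_mul_of_nonneg_right ?_ (sq_nonneg _)
      calc C'⁻¹ ≤ (Real.exp (2 * β))⁻¹ := inv_anti₀ hex (by linarith)
        _ ≤ _ := by
          rw [← Real.exp_neg]
          exact Real.exp_le_exp.2 (by linarith [(abs_le.1 (h.ψ_small y)).1])
  · refine ((le_abs_self _).trans (abs_quadForm_le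
      (fun i j => (hM0 i j y).trans (le_abs_self _)) v)).trans ?_
    exact mul_le_mul_of_nonneg_right (by linarith) (sq_nonneg _)
  · rw [pb, h.K_far _ (hfar y h1), KS_zero, Matrix.mul_zero, Matrix.zero_mul]
  · exact mul_le_mul_of_nonneg_right (by linarith) (by positivity)
  · exact mul_le_mul_of_nonneg_right (by linarith) (by positivity)
  · have h4 := gradSq_pb hDB g (y := y) (smooth_diff hs _)
    have h5 := gradSq_pos h.riem (hreg _ h1)
    rw [← h4, gradSq, gradDot_of_zero fun i => by simp only [pderiv, h2, _root_.zero_apply]] at h5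
    exact lt_irrefl _ h5
  · simp only [pf, Pi.smul_apply, smul_eq_mul, mulVec, dotProduct]
    exact contDiff_const.mul (ContDiff.sum fun j _ => contDiff_const.mul
      (contDiff_comp_lin D (h.EE_smooth j)))
  · have h1 : (1 + ‖lin D y‖) ^ (1 - (n : ℝ)) ≤ L ^ ((n : ℝ) - 1) * (1 + ‖y‖) ^ (1 - (n : ℝ)) := by
      have h2 : (1 + ‖y‖) / L ≤ 1 + ‖lin D y‖ := by
        rw [div_le_iff₀ (by linarith)]; nlinarith [hy y]
      refine (Real.rpow_le_rpow_of_nonpos (by positivity) h2 (by linarith)).trans (le_of_eq ?_)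
      rw [Real.div_rpow (by positivity) (by linarith), div_eq_mul_inv, ← Real.rpow_neg (by linarith),
        neg_sub, mul_comm]
    have h2 : ∀ j, |EE (lin D y) j| ≤ C * L ^ ((n : ℝ) - 1) * (1 + ‖y‖) ^ (1 - (n : ℝ)) := fun j =>
      (h.EE_decay _ j).trans (by rw [mul_assoc]; exact mul_le_mul_of_nonneg_left h1 hC0)
    have h4 : ∑ j, |B i j| ≤ b := Finset.single_le_sum (f := fun i => ∑ j, |B i j|)
      (fun _ _ => by positivity) (Finset.mem_univ i)
    simp only [pf, Pi.smul_apply, smul_eq_mul, mulVec, dotProduct, abs_mul, abs_abs]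
    calc _ ≤ |D.det| * ∑ j, |B i j| * (C * L ^ ((n : ℝ) - 1) * (1 + ‖y‖) ^ (1 - (n : ℝ))) := by
          refine mul_le_mul_of_nonneg_left ((Finset.abs_sum_le_sum_abs _ _).trans
            (Finset.sum_le_sum fun j _ => ?_)) (abs_nonneg _)
          rw [abs_mul]; exact mul_le_mul_of_nonneg_left (h2 j) (abs_nonneg _)
      _ ≤ |D.det| * (b * (C * L ^ ((n : ℝ) - 1) * (1 + ‖y‖) ^ (1 - (n : ℝ)))) := by
          rw [← Finset.sum_mul]; gcongr
      _ = CE * (1 + ‖y‖) ^ (1 - (n : ℝ)) := by rw [hCE]; ring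
      _ ≤ _ := mul_le_mul_of_nonneg_right (by linarith) (by positivity)
  · rw [divE_pf hDB _ fun j => smooth_diff (h.EE_smooth j) _, h.EE_div _ (hone y h1), mul_zero]
  · simp only [divE_pf hDB _ fun j => smooth_diff (h.EE_smooth j) _]
    rw [integral_const_mul, integral_comp_lin (det_ne hDB),
      mul_inv_cancel_left₀ (abs_ne_zero.2 (det_ne hDB)), h.charge]
  · refine DECE_mono (dece_pb hDB h.riem h.K_smooth (h.dec _ (hone y h1))) ?_
    rw [mul_assoc, ← Real.mul_rpow (by linarith) (by positivity)]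
    exact mul_le_mul_of_nonneg_left (Real.rpow_le_rpow_of_nonpos (by linarith [hone y h1]) (hy' y)
      (by linarith)) h.c0_pos.le
  · rw [levelExp_pb hDB h.riem K hs (hreg _ (by linarith))]
    exact h.trap _ h1 h2
  · refine (bv_pb hDB h.area).mono_set fun y hy => ?_
    rw [Set.mem_preimage, mem_closedBall_zero_iff] at hy
    exact pow_le_one₀ (norm_nonneg _) hy

end Crest.Agent.N346.P0

end
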