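import Crest.Agent.N346.P0.STI

/-! Row 346, Part 0 (helper95): `sj : JLStmt → STStmt → STIStmt → SJStmt`. -/

set_option autoImplicit false
open MeasureTheory Filter Topology Matrix Set Asymptotics
open scoped ContDiff
open Crest.GeometryTopology.CoordMetric
open Crest.MathPhysics.ExteriorData

noncomputable section

namespace Crest.Agent.N346.P0
open Bs

variable {n : ℕ}

namespace St

theorem jb1_comp {u : E n → ℝ} {x : E n} {r a M θ' : ℝ} {θ : ℝ → ℝ} (h : Jb 1 u x r a) (hr : 0 < r)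
    (hu : DifferentiableAt ℝ u x) (hθ : HasDerivAt θ θ' (u x)) (h0 : |θ (u x)| ≤ M)
    (h1 : |θ'| * a ≤ M) : Jb 1 (fun y => θ (u y)) x r M := fun k hk => by
  interval_cases k
  · simpa using h0
  · have e : fderiv ℝ (fun y => θ (u y)) x = θ' • fderiv ℝ u x :=
      (hθ.comp_hasFDerivAt x hu.hasFDerivAt).fderiv
    rw [norm_iteratedFDeriv_one, e, norm_smul, Real.norm_eq_abs, pow_one]
    calc _ ≤ |θ'| * (a / r) := mul_le_mul_of_nonneg_left (Jb.norm_fderiv_le h) (abs_nonneg _)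
      _ ≤ M / r := by rw [← mul_div_assoc]; gcongr

/-- the second fundamental form of the boosted static slice -/
theorem KS_apply {b : Matrix (Fin n) (Fin n) ℝ} (hb : b.PosDef) {c : E n → ℝ} (hc : ContDiff ℝ ∞ c)
    (ξ : E n) (hg : IsRiemannianOn (gS b c (dotF ξ)) univ) (x : E n) (i j : Fin n) :
    KS b c (dotF ξ) x i j = Id.gm (gS b c (dotF ξ)) (ph c) (dotF ξ) x *
      (Real.exp (-((n : ℝ) - 2) * c x) * (-((n : ℝ) - 1) * ξ j * pderiv i c x
          + -((n : ℝ) - 1) * ξ i * pderiv j c x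
          + b i j * ∑ k, ∑ l, b⁻¹ k l * ξ k * pderiv l c x)
        + Real.exp (-(3 * (n : ℝ) - 4) * c x) *
          (((n : ℝ) - 2) * ξ i * ξ j * ∑ k, ∑ l, b⁻¹ k l * ξ k * pderiv l c x)) := by
  have hx := mem_univ x
  have hf := contDiff_dotF ξ
  have hd := jd_gS hc hf hg
  have hcf : Id.Conf (fun _ => b) (Id.gb (gS b c (dotF ξ)) (ph c) (dotF ξ)) c univ :=
    ⟨Id.riem_const hb, hc.contDiffOn, fun y _ => by simp [Id.gb, gS]⟩
  have hφ : ∀ k, pderiv k (ph c) x = -((n : ℝ) - 2) * ph c x * pderiv k c x := fun k => by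
    rw [show (ph c : E n → ℝ) = fun y => Real.exp (-((n : ℝ) - 2) * c y) from rfl,
      pd_comp (θ := fun t => Real.exp (-((n : ℝ) - 2) * t))
      (θ' := Real.exp (-((n : ℝ) - 2) * c x) * -((n : ℝ) - 2))
      (by simpa using ((hasDerivAt_id (c x)).const_mul (-((n : ℝ) - 2))).exp) (smooth_diff hc x)]
    ring
  have hpd : ∀ k, pderiv k (dotF ξ) = fun _ => ξ k := fun k => funext fun y => pd_dotF ξ y k
  have e1 : ∀ (u : E n → ℝ) (k : Fin n), fderiv ℝ u x (EuclideanSpace.single k 1) = pderiv k u x :=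
    fun _ _ => rfl
  have e2 : Real.exp (-(3 * (n : ℝ) - 4) * c x) = Real.exp (-(2 * c x)) * ph c x ^ 3 := by
    rw [ph, ← Real.exp_nat_mul, ← Real.exp_add]; congr 1; push_cast; ring
  have e3 : R247.Bo84.gam (fun _ => b) (dotF ξ) (ph c) x =
      -((n : ℝ) - 2) * ph c x * ∑ k, ∑ l, b⁻¹ k l * ξ k * pderiv l c x := by
    simp only [R247.Bo84.gam, hφ, hpd, inverseField, Finset.mul_sum]
    exact Finset.sum_congr rfl fun k _ => Finset.sum_congr rfl fun l _ => by ring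
  have e4 : R247.Bo84.gam (fun _ => b) (dotF ξ) c x = ∑ k, ∑ l, b⁻¹ k l * ξ k * pderiv l c x := by
    simp only [R247.Bo84.gam, hpd, inverseField]
  rw [← Id.bil_ee (KS b c (dotF ξ) x) i j, KS, hd.hh_eq_gb hx, hcf.hess_eq hx, hcf.gam_eq hx,
    Id.hess_const, Id.fderiv_fderiv_ee (hf.contDiffAt.of_le (by norm_cast)), Id.bil_ee, Id.bil_ee,
    e2, e3, e4]
  simp only [e1, hφ, hpd, pd_const, Id.XX, Matrix.of_apply]
  rw [← ph]
  ring

/-- configurations of `SJStmt` -/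
structure Cf (n : ℕ) (β0 : ℝ) where
  c : E n → ℝ
  x : E n
  r : ℝ
  β : ℝ
  hc : ContDiff ℝ ∞ c
  hb : ∀ x, |c x| ≤ β0
  hr : 0 < r
  h0 : 0 ≤ β
  h1 : β ≤ β0
  hj : Jb 2 c x r β

variable {β0 : ℝ}

/-- uniform first order jet bounds -/
def QJ (s : Cf n β0 → ℝ) (u : Cf n β0 → E n → ℝ) : Prop :=
  ∃ C : ℝ, 0 ≤ C ∧ ∀ k, ContDiff ℝ ∞ (u k) ∧ Jb 1 (u k) k.x k.r (C * s k)

variable {s : Cf n β0 → ℝ} {u v : Cf n β0 → E n → ℝ}

theorem QJ.add (h : QJ s u) (h' : QJ s v) : QJ s fun k y => u k y + v k y := by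
  obtain ⟨C, hC, h⟩ := h
  obtain ⟨D, hD, h'⟩ := h'
  exact ⟨C + D, by positivity, fun k => ⟨(h k).1.add (h' k).1,
    add_mul C D _ ▸ Jb.add (h k).1 (h' k).1 (h k).2 (h' k).2⟩⟩

theorem QJ.cmul (a : ℝ) (h : QJ s u) : QJ s fun k y => a * u k y := by
  obtain ⟨C, hC, h⟩ := h
  exact ⟨|a| * C, by positivity, fun k => ⟨contDiff_const.mul (h k).1,
    mul_assoc |a| C _ ▸ Jb.const_mul (h k).1 a (h k).2⟩⟩

theorem QJ.mul (h : QJ (fun _ => 1) u) (h' : QJ s v) : QJ s fun k y => u k y * v k y := by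
  obtain ⟨C, hC, h⟩ := h
  obtain ⟨D, hD, h'⟩ := h'
  exact ⟨2 * (C * D), by positivity, fun k => ⟨(h k).1.mul (h' k).1,
    (Jb.mul (h k).1 (h' k).1 k.hr (h k).2 (h' k).2).mono k.hr (le_of_eq (by ring))⟩⟩

theorem QJ.sum {F : Fin n → Cf n β0 → E n → ℝ} (h : ∀ i, QJ s (F i)) :
    QJ s fun k y => ∑ i, F i k y := by
  choose C hC h using h
  exact ⟨∑ i, C i, Finset.sum_nonneg fun i _ => hC i, fun k => ⟨ContDiff.sum fun i _ => (h i k).1,
    Finset.sum_mul Finset.univ C _ ▸ Jb.sum k.hr (fun i _ => (h i k).1) fun i _ => (h i k).2⟩⟩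

theorem qj_pd (i : Fin n) : QJ (fun k : Cf n β0 => k.β / k.r) fun k => pderiv i k.c :=
  ⟨1, zero_le_one, fun k => ⟨contDiff_pd k.hc i, by simpa using k.hj.pd k.hc i⟩⟩

theorem exp_le (hβ : β0 ≤ 1) (a : ℝ) (k : Cf n β0) : Real.exp (a * k.c k.x) ≤ Real.exp |a| :=
  Real.exp_le_exp.2 ((le_abs_self _).trans (by
    rw [abs_mul]; exact mul_le_of_le_one_right (abs_nonneg a) ((k.hb k.x).trans hβ)))

theorem qj_exp (hβ : β0 ≤ 1) (a : ℝ) :
    QJ (fun _ : Cf n β0 => 1) fun k y => Real.exp (a * k.c y) := by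
  refine ⟨(1 + |a|) * Real.exp |a|, by positivity, fun k => ⟨(contDiff_const.mul k.hc).exp, ?_⟩⟩
  have h1 := exp_le hβ a k
  have h2 := abs_nonneg a
  have h3 := Real.exp_pos (a * k.c k.x)
  refine jb1_comp (θ := fun t => Real.exp (a * t)) (θ' := Real.exp (a * k.c k.x) * a)
    (k.hj.of_le one_le_two) k.hr (smooth_diff k.hc _)
    (by simpa using ((hasDerivAt_id (k.c k.x)).const_mul a).exp) ?_ ?_
  · rw [abs_of_pos h3]; nlinarith
  · rw [abs_mul, abs_of_pos h3]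
    have := mul_le_mul (mul_le_mul_of_nonneg_right h1 h2) (k.h1.trans hβ) k.h0 (by positivity)
    nlinarith

theorem bigO_of_le {ι : Type} {f g : ι → ℝ} (C : ℝ) (h : ∀ k, |f k| ≤ C * g k)
    (hg : ∀ k, 0 ≤ g k) : f =O[⊤] g :=
  isBigO_top.2 ⟨C, fun k => by rw [Real.norm_of_nonneg (hg k)]; exact h k⟩

theorem le_of_bigO {ι : Type} {f g : ι → ℝ} (h : f =O[⊤] g) (hg : ∀ k, 0 ≤ g k) :
    ∃ C, 0 ≤ C ∧ ∀ k, |f k| ≤ C * g k := by
  obtain ⟨C, hC⟩ := isBigO_top.1 h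
  refine ⟨|C|, abs_nonneg C, fun k => (hC k).trans ?_⟩
  rw [Real.norm_of_nonneg (hg k)]
  exact mul_le_mul_of_nonneg_right (le_abs_self C) (hg k)

theorem bigO_exp (hβ : β0 ≤ 1) (a : ℝ) :
    (fun k : Cf n β0 => Real.exp (a * k.c k.x)) =O[⊤] fun _ => (1 : ℝ) :=
  bigO_of_le (Real.exp |a|) (fun k => by
    rw [abs_of_pos (Real.exp_pos _), mul_one]; exact exp_le hβ a k) fun _ => zero_le_one

theorem bigO_exp_sub (hβ : β0 ≤ 1) (a : ℝ) :
    (fun k : Cf n β0 => Real.exp (a * k.c k.x) - 1) =O[⊤] fun k => k.β := by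
  obtain ⟨C, -, h⟩ := exists_jb_comp n (θ := fun t => Real.exp (a * t) - 1) (by fun_prop)
    (by simp) 1
  exact bigO_of_le C (fun k => (h k.c k.x k.r k.β k.hc k.hr (k.h1.trans hβ) k.hj).abs_le)
    fun k => k.h0

theorem bigO_pd (i : Fin n) : (fun k : Cf n β0 => pderiv i k.c k.x) =O[⊤] fun k => k.β / k.r :=
  bigO_of_le 1 (fun k => by simpa using k.hj.abs_pd_le i) fun k => div_nonneg k.h0 k.hr.le

theorem bigO_bl (H : Matrix (Fin n) (Fin n) ℝ) :
    (fun k : Cf n β0 => bl H k.c k.x) =O[⊤] fun k => k.β / k.r ^ 2 :=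
  IsBigO.fun_sum fun i _ => IsBigO.fun_sum fun j _ => IsBigO.const_mul_left
    (bigO_of_le 1 (fun k : Cf n β0 => by simpa using k.hj.abs_pd_pd_le k.hc i j)
      fun k => div_nonneg k.h0 (sq_nonneg _)) _

end St

open St in
theorem sj (hJL : JLStmt) (hst : STStmt) (hsti : STIStmt) : SJStmt := by
  intro n hn w ξ g0 B hB
  have hb := hB.posDef
  set b := Bᵀ * B with hbd
  obtain ⟨C0, β1, hC0, hβ1, hs⟩ := hsti n hn b hb ‖w‖ (norm_nonneg w) hB.w_lt
  set W := ‖w‖ ^ 2 with hW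
  have hW1 : W < 1 := by rw [hW]; nlinarith [hB.w_lt, norm_nonneg w]
  have hlim : Tendsto (fun t : ℝ => Real.exp (2 * ((n : ℝ) - 1) * t) * W) (𝓝 0) (𝓝 W) :=
    Continuous.tendsto' (by fun_prop) _ _ (by simp)
  obtain ⟨β0, ⟨⟨hβ2, hβ3⟩, hβ4⟩, hβ0⟩ := (((((hlim.eventually (gt_mem_nhds
    (show W < (1 + W) / 2 by linarith))).and (gt_mem_nhds one_pos)).and
    (gt_mem_nhds hβ1)).filter_mono nhdsWithin_le_nhds).and
    (self_mem_nhdsWithin (s := Ioi (0 : ℝ)))).exists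
  have hβ0 : 0 < β0 := hβ0
  have hβ : β0 ≤ 1 := hβ3.le
  have hn' : (3 : ℝ) ≤ n := by exact_mod_cast hn
  have hf := contDiff_dotF ξ
  have hpd : ∀ x, (fun i => pderiv i (dotF ξ) x) = ξ.ofLp := fun x => funext (pd_dotF ξ x)
  have hS := fun k : Cf n β0 => hs k.c (dotF ξ) k.hc hf (fun x => (k.hb x).trans hβ4.le)
    fun x => by rw [hpd, hB.qb_inv_ξ]
  have hT := fun (k : Cf n β0) (x : E n) =>
    hst n hn b k.c (dotF ξ) hb k.hc hf (hS k).1 x _ _ _ _ _ rfl rfl rfl rfl rfl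
  set γ := fun k : Cf n β0 => Id.gm (gS b k.c (dotF ξ)) (ph k.c) (dotF ξ) with hγ
  have hγ1 : ∀ k x, 1 ≤ γ k x := fun k x => (jd_gS k.hc hf (hS k).1).one_le_gm (mem_univ x)
  set a := -(2 * ((n : ℝ) - 1)) with ha
  have hγ2 : ∀ k x, γ k x ^ 2 * (1 + -W * Real.exp (a * k.c x)) = 1 := fun k x => by
    have h := (hT k x).1
    rw [qb_X, hpd, hB.qb_inv_ξ, ph_sq] at h
    rw [mul_assoc, mul_div_cancel_left₀ _ (Real.exp_pos _).ne'] at h
    rw [ha, neg_mul (2 * _)]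
    linear_combination h
  set G := 2 / (1 - W) with hG
  have hu : ∀ (k : Cf n β0) x, (1 - W) / 2 ≤ 1 + -W * Real.exp (a * k.c x) := fun k x => by
    have h1 : Real.exp (a * k.c x) ≤ Real.exp (2 * ((n : ℝ) - 1) * β0) :=
      Real.exp_le_exp.2 (by rw [ha]; nlinarith [(abs_le.1 (k.hb x)).1])
    nlinarith [mul_le_mul_of_nonneg_right h1 (sq_nonneg ‖w‖)]
  have hγ3 : ∀ k x, γ k x ^ 2 ≤ G := fun k x => by
    rw [hG, le_div_iff₀ (by linarith)]
    nlinarith [hγ2 k x, mul_le_mul_of_nonneg_left (hu k x) (sq_nonneg (γ k x))]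
  have hγ4 : ∀ k x, γ k x ≤ G := fun k x => by nlinarith [hγ3 k x, hγ1 k x]
  have hγ5 : ∀ k x, γ k x = (√(1 + -W * Real.exp (a * k.c x)))⁻¹ := fun k x => by
    have h1 : 1 + -W * Real.exp (a * k.c x) = ((γ k x)⁻¹) ^ 2 := by
      rw [inv_pow]; exact eq_inv_of_mul_eq_one_right (hγ2 k x)
    rw [h1, Real.sqrt_sq (inv_pos.2 (one_pos.trans_le (hγ1 k x))).le, inv_inv]
  have qγ : QJ (fun _ => 1) γ := by
    obtain ⟨D, hD, h⟩ := (qj_exp (n := n) hβ a).cmul (-W)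
    have hG0 : 0 < G := div_pos two_pos (by linarith)
    refine ⟨G + G * G * (1 + D), by positivity, fun k => ⟨contDiff_iff_contDiffAt.2 fun x =>
      (jd_gS k.hc hf (hS k).1).c_gm (mem_univ x), ?_⟩⟩
    have h1 := Jb.add contDiff_const (h k).1 (Jb.const 1 1 k.x k.hr) (h k).2
    have h2 : 0 < 1 + -W * Real.exp (a * k.c k.x) := lt_of_lt_of_le (by linarith) (hu k k.x)
    have h3 := Real.sqrt_pos.2 h2
    have h4 := hγ1 k k.x
    rw [funext (hγ5 k)]
    refine jb1_comp (θ := fun t => (√t)⁻¹) (θ' := -(γ k k.x ^ 2 * γ k k.x / 2)) h1 k.hr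
      (smooth_diff (contDiff_const.add (h k).1) _)
      (((Real.hasDerivAt_sqrt h2.ne').inv h3.ne').congr_deriv (by rw [hγ5]; field_simp)) ?_ ?_
    · rw [← hγ5, abs_of_pos (by linarith)]
      have : 0 ≤ G * G * (1 + D) := by positivity
      linarith [hγ4 k k.x]
    · rw [abs_neg, abs_of_pos (by positivity), abs_one, mul_one, mul_one]
      have h5 := mul_le_mul (hγ3 k k.x) (hγ4 k k.x) (by linarith) hG0.le
      have h6 : γ k k.x ^ 2 * γ k k.x / 2 ≤ G * G := by nlinarith [mul_pos hG0 hG0]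
      nlinarith [mul_le_mul_of_nonneg_right h6 (by linarith : 0 ≤ 1 + D)]
  have qP : QJ (fun k : Cf n β0 => k.β / k.r)
      fun k y => ∑ i, ∑ l, b⁻¹ i l * ξ i * pderiv l k.c y :=
    QJ.sum fun i => QJ.sum fun l => (qj_pd l).cmul _
  have qK : ∀ i j, QJ (fun k : Cf n β0 => k.β / k.r) fun k y => KS b k.c (dotF ξ) y i j := by
    intro i j
    rw [show (fun (k : Cf n β0) y => KS b k.c (dotF ξ) y i j) = _ from
      funext fun k => funext fun y => KS_apply hb k.hc ξ (hS k).1 y i j]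
    exact qγ.mul (((qj_exp hβ _).mul ((((qj_pd i).cmul _).add ((qj_pd j).cmul _)).add
      (qP.cmul _))).add ((qj_exp hβ _).mul (qP.cmul _)))
  choose CK hCK hK using qK
  have qg : ∀ i j, ∃ C : ℝ, 0 ≤ C ∧ ∀ k : Cf n β0,
      Jb 2 (fun y => (gS b k.c (dotF ξ) y - 1) i j) k.x k.r (C * k.β) := fun i j => by
    obtain ⟨C, hC, h⟩ := exists_jb_comp n (θ := fun t => (Real.exp (2 * t) - 1) * b i j -
      (Real.exp (-((n : ℝ) - 2) * t) ^ 2 - 1) * (ξ i * ξ j)) (by fun_prop) (by simp) 1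
    refine ⟨C, hC, fun k => ?_⟩
    convert h k.c k.x k.r k.β k.hc k.hr (k.h1.trans hβ) k.hj using 2 with y
    have : b i j = (1 : Matrix (Fin n) (Fin n) ℝ) i j + ξ i * ξ j := by rw [hbd, hB.BtB]; rfl
    rw [Matrix.sub_apply, gS_apply, pd_dotF, pd_dotF, ph]
    linear_combination this
  choose Cg hCg hg using qg
  set C1 := ∑ i, ∑ j, (Cg i j + CK i j) with hC1
  have hle : ∀ i j, Cg i j + CK i j ≤ C1 := fun i j =>
    (Finset.single_le_sum (f := fun j => Cg i j + CK i j)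
      (fun j _ => add_nonneg (hCg i j) (hCK i j)) (Finset.mem_univ j)).trans
      (Finset.single_le_sum (f := fun i => ∑ j, (Cg i j + CK i j)) (fun i _ =>
        Finset.sum_nonneg fun j _ => add_nonneg (hCg i j) (hCK i j)) (Finset.mem_univ i))
  have hC10 : 0 ≤ C1 :=
    Finset.sum_nonneg fun i _ => Finset.sum_nonneg fun j _ => add_nonneg (hCg i j) (hCK i j)
  have hJB : ∀ k : Cf n β0, JB (fun y => gS b k.c (dotF ξ) y - 1) (KS b k.c (dotF ξ)) k.x k.r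
      (C1 * k.β) := fun k =>
    ⟨fun i j => (hg i j k).mono k.hr (mul_le_mul_of_nonneg_right (by linarith [hle i j, hCK i j]) k.h0),
      fun i j => (hK i j k).2.mono k.hr (by
        rw [mul_div_assoc]
        exact mul_le_mul_of_nonneg_right (by linarith [hle i j, hCg i j]) (div_nonneg k.h0 k.hr.le))⟩
  obtain ⟨CJ, -, hJ⟩ := JL0 hJL n (Λ := C0 + C1) (by linarith)
  have hJ' := fun k : Cf n β0 => hJ _ _ (hS k).1 (hS k).2.2.2.1 k.x k.r (C1 * k.β) k.hr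
    (mul_nonneg hC10 k.h0) (by nlinarith [k.h1.trans hβ])
    (((hS k).2.1 k.x).mono (by linarith) (by linarith)) (hJB k)
  set s2 := fun k : Cf n β0 => k.β ^ 2 / k.r ^ 2 with hs2
  have hs20 : ∀ k, 0 ≤ s2 k := fun k => by simp only [hs2]; positivity
  have o1 : (fun k : Cf n β0 => energyDensity (gS b k.c (dotF ξ)) (KS b k.c (dotF ξ)) k.x -
      Lmu (fun y => gS b k.c (dotF ξ) y - 1) k.x) =O[⊤] s2 :=
    bigO_of_le (CJ * C1 ^ 2) (fun k => (hJ' k).1.trans (le_of_eq (by simp only [hs2]; ring))) hs20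
  have o2 : ∀ i, (fun k : Cf n β0 => momentumDensity (gS b k.c (dotF ξ)) (KS b k.c (dotF ξ)) k.x i -
      LJ (KS b k.c (dotF ξ)) k.x i) =O[⊤] s2 := fun i =>
    bigO_of_le (CJ * C1 ^ 2) (fun k => ((hJ' k).2.1 i).trans (le_of_eq (by simp only [hs2]; ring)))
      hs20
  have oγ : (fun k => γ k k.x) =O[⊤] fun _ => (1 : ℝ) :=
    bigO_of_le G (fun k => by rw [abs_of_pos (one_pos.trans_le (hγ1 k k.x)), mul_one]; exact hγ4 k k.x)
      fun _ => zero_le_one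
  have oγ2 : (fun k => γ k k.x ^ 2) =O[⊤] fun _ => (1 : ℝ) := by simpa using oγ.pow 2
  have o3 : (fun k => γ k k.x ^ 2 - g0 ^ 2) =O[⊤] fun k : Cf n β0 => k.β :=
    ((oγ2.mul (bigO_exp_sub hβ a)).const_mul_left (g0 ^ 2 * W)).congr
      (fun k => by linear_combination g0 ^ 2 * hγ2 k k.x * (-1) + γ k k.x ^ 2 * hB.g0_sq)
      fun k => one_mul _
  have o4 : (fun k => γ k k.x - g0) =O[⊤] fun k : Cf n β0 => k.β := by
    refine IsBigO.trans (isBigO_top.2 ⟨1, fun k => ?_⟩) o3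
    rw [one_mul, sq_sub_sq, norm_mul]
    refine le_mul_of_one_le_left (norm_nonneg _) ?_
    rw [Real.norm_of_nonneg (by linarith [hγ1 k k.x, hB.g0_ge])]
    linarith [hγ1 k k.x, hB.g0_ge]
  have ol : (fun k : Cf n β0 => (Real.exp (2 * k.c k.x))⁻¹) =O[⊤] fun _ => (1 : ℝ) :=
    (bigO_exp hβ (-2)).congr_left fun k => by rw [neg_mul, Real.exp_neg]
  have ol' : (fun k : Cf n β0 => (Real.exp (2 * k.c k.x))⁻¹ - 1) =O[⊤] fun k => k.β :=
    (bigO_exp_sub hβ (-2)).congr_left fun k => by rw [neg_mul, Real.exp_neg]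
  have oφ : (fun k : Cf n β0 => ph k.c k.x) =O[⊤] fun _ => (1 : ℝ) := bigO_exp hβ _
  have oφ' : (fun k : Cf n β0 => ph k.c k.x - 1) =O[⊤] fun k => k.β := bigO_exp_sub hβ _
  have odd : (fun k : Cf n β0 => qb b⁻¹ (fun i => pderiv i k.c k.x) fun i => pderiv i k.c k.x)
      =O[⊤] s2 := IsBigO.fun_sum fun i _ => IsBigO.fun_sum fun j _ =>
    (((bigO_pd i).const_mul_left _).mul (bigO_pd j)).congr_right fun k => by simp only [hs2]; ring
  have oP : (fun k : Cf n β0 => qb b⁻¹ (fun i => pderiv i k.c k.x)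
      fun i => ph k.c k.x * pderiv i (dotF ξ) k.x) =O[⊤] fun k => k.β / k.r :=
    IsBigO.fun_sum fun i _ => IsBigO.fun_sum fun j _ =>
      ((((bigO_pd i).const_mul_left (b⁻¹ i j * ξ j)).mul oφ).congr
        (fun k => by beta_reduce; rw [pd_dotF]; ring) fun k => mul_one _)
  have oρ := bigO_bl (β0 := β0) b⁻¹
  have o5 : (fun k => γ k k.x ^ 2 * (Real.exp (2 * k.c k.x))⁻¹ - g0 ^ 2) =O[⊤]
      fun k : Cf n β0 => k.β :=
    (((oγ2.mul ol').congr_right fun k => one_mul _).add o3).congr_left fun k => by ring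
  have o6 : (fun k => γ k k.x * (Real.exp (2 * k.c k.x))⁻¹ * ph k.c k.x - g0) =O[⊤]
      fun k : Cf n β0 => k.β :=
    (((((oγ.mul ol).mul oφ').congr_right fun k => by simp).add
      ((oγ.mul ol').congr_right fun k => one_mul _)).add o4).congr_left fun k => by ring
  have o7 : (fun k : Cf n β0 => Lmu (fun y => gS b k.c (dotF ξ) y - 1) k.x
      + ((n : ℝ) - 1) * g0 ^ 2 * bl b⁻¹ k.c k.x) =O[⊤] s2 := by
    refine (((((o5.mul oρ).congr_right fun k => by simp only [hs2]; ring).add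
      ((((ol.mul odd).congr_right fun k => one_mul _).const_mul_left (((n : ℝ) - 2) / 2)).add
      (((((ol.mul ol).mul oγ2).mul (oP.pow 2)).congr_right fun k => by
        simp only [hs2]; ring).const_mul_left ((n : ℝ) - 2)))).const_mul_left
      (-((n : ℝ) - 1))).sub o1).congr_left fun k => ?_
    rw [(hT k k.x).2.1]
    simp only [hγ]
    ring
  have o8 : ∀ i, (fun k : Cf n β0 => LJ (KS b k.c (dotF ξ)) k.x i
      + w i * (((n : ℝ) - 1) * g0 ^ 2 * bl b⁻¹ k.c k.x)) =O[⊤] s2 := fun i => by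
    refine ((((((o6.mul oρ).congr_right fun k => by simp only [hs2]; ring).const_mul_left (ξ i)).add
      (((((oγ.mul ol).mul oP).mul (bigO_pd i)).congr_right fun k => by
        simp only [hs2]; ring).const_mul_left ((n : ℝ) - 2))).const_mul_left
      (-((n : ℝ) - 1))).sub (o2 i)).congr_left fun k => ?_
    have hξ : ξ i = g0 * w i := by rw [hB.ξ_eq]; rfl
    rw [(hT k k.x).2.2 i]
    simp only [hγ, pd_dotF ξ k.x i, hξ]
    ring
  obtain ⟨C2, hC2, h7⟩ := le_of_bigO o7 hs20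
  choose C3 hC3 h8 using fun i => le_of_bigO (o8 i) hs20
  have hC4 : 0 ≤ ∑ i, C3 i := Finset.sum_nonneg fun i _ => hC3 i
  refine ⟨1 + C1 + C2 + ∑ i, C3 i, β0, by linarith, hβ0, fun c hc hcb x r β hr h0 h1 hj => ?_⟩
  let k : Cf n β0 := ⟨c, x, r, β, hc, hcb, hr, h0, h1, hj⟩
  refine ⟨(hJB k).mono hr (mul_le_mul_of_nonneg_right (by linarith) h0),
    (h7 k).trans (mul_le_mul_of_nonneg_right (by linarith) (hs20 k)),
    fun i => (h8 i k).trans (mul_le_mul_of_nonneg_right ?_ (hs20 k))⟩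
  linarith [Finset.single_le_sum (f := C3) (fun i _ => hC3 i) (Finset.mem_univ i)]

end Crest.Agent.N346.P0

end
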