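import Crest.Agent.N346.P0.Strict
import Crest.Agent.N346.Id.Flat

/-! Row 346, Part 0 (helper95): `sti : STStmt → STIStmt`. -/

set_option autoImplicit false
open MeasureTheory Filter Topology Matrix Set
open scoped ContDiff
open Crest.GeometryTopology.CoordMetric
open Crest.MathPhysics.ExteriorData

noncomputable section

namespace Crest.Agent.N346.P0
open Bs

variable {n : ℕ} {b : Matrix (Fin n) (Fin n) ℝ} {c f : E n → ℝ} {x : E n}

namespace St

theorem exists_qb_le (b : Matrix (Fin n) (Fin n) ℝ) :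
    ∃ M : ℝ, 1 ≤ M ∧ (∀ i j, |b i j| ≤ M) ∧ ∀ v, qb b v v ≤ M * ∑ i, v i * v i := by
  set a := ∑ i, ∑ j, |b i j| with ha
  have ha0 : 0 ≤ a := by positivity
  have h1 : ∀ i j, |b i j| ≤ a := fun i j =>
    (Finset.single_le_sum (f := fun j => |b i j|) (fun _ _ => abs_nonneg _)
      (Finset.mem_univ j)).trans (Finset.single_le_sum (f := fun i => ∑ j, |b i j|)
      (fun _ _ => by positivity) (Finset.mem_univ i))
  have hn : (0 : ℝ) ≤ n * a := by positivity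
  refine ⟨n * a + a + 1, by linarith, fun i j => by linarith [h1 i j], fun v => ?_⟩
  have h2 := (abs_le.1 (abs_quadForm_le (k := fun _ => b) (x := 0) h1 (WithLp.toLp 2 v))).2
  rw [norm_sq_eq, quadForm_eq] at h2
  have h3 : 0 ≤ ∑ i, v i * v i := Finset.sum_nonneg fun i _ => mul_self_nonneg _
  exact h2.trans (mul_le_mul_of_nonneg_right (by linarith) h3)

theorem contDiff_ph (hc : ContDiff ℝ ∞ c) : ContDiff ℝ ∞ (ph c : E n → ℝ) :=
  (contDiff_const.mul hc).exp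

theorem gS_apply (b : Matrix (Fin n) (Fin n) ℝ) (c f : E n → ℝ) (x : E n) (i j : Fin n) :
    gS b c f x i j = Real.exp (2 * c x) * b i j - ph c x ^ 2 * pderiv i f x * pderiv j f x := rfl

theorem qb_gS (b : Matrix (Fin n) (Fin n) ℝ) (c f : E n → ℝ) (x : E n) (v : Fin n → ℝ) :
    qb (gS b c f x) v v =
      Real.exp (2 * c x) * qb b v v - ph c x ^ 2 * (∑ i, pderiv i f x * v i) ^ 2 := by
  rw [sq (∑ i, _), Finset.sum_mul_sum]
  simp only [qb, gS_apply, Finset.mul_sum, ← Finset.sum_sub_distrib]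
  exact Finset.sum_congr rfl fun i _ => Finset.sum_congr rfl fun j _ => by ring

theorem sm_gS (hc : ContDiff ℝ ∞ c) (hf : ContDiff ℝ ∞ f) : Sm (gS b c f) := fun i j =>
  ((contDiff_const.mul hc).exp.mul contDiff_const).sub
    ((((contDiff_ph hc).pow 2).mul (contDiff_pd hf i)).mul (contDiff_pd hf j))

theorem sy_gS (hb : b.PosDef) : Sy (gS b c f) := fun x i j => by
  rw [gS_apply, gS_apply, posDef_symm hb i j]; ring

theorem jd_gS (hc : ContDiff ℝ ∞ c) (hf : ContDiff ℝ ∞ f) (hg : IsRiemannianOn (gS b c f) univ) :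
    Id.Jd (gS b c f) (ph c) f univ :=
  ⟨hg, (contDiff_ph hc).contDiffOn, hf.contDiffOn, fun _ _ => Real.exp_pos _⟩

theorem qb_X (A : Matrix (Fin n) (Fin n) ℝ) (t : ℝ) (v : Fin n → ℝ) :
    qb A (fun i => t * v i) (fun i => t * v i) = t ^ 2 * qb A v v := by
  simp only [qb, Finset.mul_sum]
  exact Finset.sum_congr rfl fun i _ => Finset.sum_congr rfl fun j _ => by ring

theorem gm_sq_eq (hc : ContDiff ℝ ∞ c) (hf : ContDiff ℝ ∞ f) (hg : IsRiemannianOn (gS b c f) univ)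
    (x : E n) : Id.gm (gS b c f) (ph c) f x ^ 2 = 1 + qb (gS b c f x)⁻¹
      (fun i => ph c x * pderiv i f x) fun i => ph c x * pderiv i f x := by
  rw [(jd_gS hc hf hg).gm_sq (mem_univ x), qb_X]; rfl

theorem ph_sq (c : E n → ℝ) (x : E n) :
    ph c x ^ 2 = Real.exp (2 * c x) * Real.exp (-(2 * ((n : ℝ) - 1) * c x)) := by
  rw [ph, ← exp_two, ← Real.exp_add]; congr 1; ring

end St

open St in
theorem sti (hst : STStmt) : STIStmt := by
  intro n hn b hb w0 hw0 hw1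
  have hn' : (3 : ℝ) ≤ n := by exact_mod_cast hn
  obtain ⟨M1, hM1, -, hb1⟩ := exists_qb_le b
  obtain ⟨M2, hM2, -, hb2⟩ := exists_qb_le b⁻¹
  have hb3 : ∀ v, M2⁻¹ * ∑ i, v i * v i ≤ qb b v v := fun v => by
    have := inv_lower hb.inv (by linarith) hb2 v
    rwa [nonsing_inv_nonsing_inv _ hb.det_pos.ne'.isUnit] at this
  set κ := (1 - w0 ^ 2) / 2 with hκ
  have hκ0 : 0 < κ := by rw [hκ]; nlinarith
  have hκ1 : κ ≤ 1 := by rw [hκ]; nlinarith
  have hlim : Tendsto (fun t : ℝ => Real.exp (2 * ((n : ℝ) - 1) * t) * w0 ^ 2) (𝓝 0) (𝓝 (w0 ^ 2)) :=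
    Continuous.tendsto' (by fun_prop) _ _ (by simp)
  obtain ⟨β0, ⟨hβ1, hβ2⟩, hβ0⟩ := ((((hlim.eventually (gt_mem_nhds
    (show w0 ^ 2 < 1 - κ by rw [hκ]; nlinarith))).and (gt_mem_nhds one_pos)).filter_mono
    nhdsWithin_le_nhds).and (self_mem_nhdsWithin (s := Ioi (0 : ℝ)))).exists
  have hβ0 : 0 < β0 := hβ0
  set e := Real.exp 2 with he
  have he1 : 1 ≤ e := Real.one_le_exp (by norm_num)
  set C0 := e * M2 / κ with hC0
  have hC01 : 1 ≤ C0 := by rw [hC0, le_div_iff₀ hκ0]; nlinarith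
  set D := M2 / 2 + M2 / κ + (e * M2 / κ + C0) / 2 with hD
  have hD0 : 0 ≤ D := by positivity
  have hD1 : 0 ≤ ((n : ℝ) - 1) * ((n : ℝ) - 2) * e * D :=
    mul_nonneg (mul_nonneg (mul_nonneg (by linarith) (by linarith)) (by linarith)) hD0
  have heM : e ≤ e * M1 := by nlinarith
  refine ⟨C0 + e * M1 + ((n : ℝ) - 1) * ((n : ℝ) - 2) * e * D, β0, by nlinarith, hβ0,
    fun c f hc hf hcb hfb => ?_⟩
  set C := C0 + e * M1 + ((n : ℝ) - 1) * ((n : ℝ) - 2) * e * D with hC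
  have hl1 : ∀ x, Real.exp (2 * c x) ≤ e := fun x =>
    Real.exp_le_exp.2 (by linarith [(abs_le.1 (hcb x)).2])
  have hl2 : ∀ x, e⁻¹ ≤ Real.exp (2 * c x) := fun x => by
    rw [he, ← Real.exp_neg]; exact Real.exp_le_exp.2 (by linarith [(abs_le.1 (hcb x)).1])
  have hφ : ∀ x, ph c x ^ 2 * w0 ^ 2 ≤ Real.exp (2 * c x) * (1 - κ) := fun x => by
    rw [ph_sq, mul_assoc]
    refine mul_le_mul_of_nonneg_left (le_trans ?_ hβ1.le) (Real.exp_pos _).le
    refine mul_le_mul_of_nonneg_right (Real.exp_le_exp.2 ?_) (sq_nonneg _)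
    nlinarith [(abs_le.1 (hcb x)).1]
  have hlo : ∀ x, Lo C0 (gS b c f) x := fun x v => by
    rw [quadForm_eq, qb_gS, norm_sq_eq]
    have h0 := qb_nonneg hb v.ofLp
    have h1 := (dual_sq_le hb (fun i => pderiv i f x) v.ofLp).trans
      (mul_le_mul_of_nonneg_right (hfb x) h0)
    have h2 := mul_le_mul_of_nonneg_left h1 (sq_nonneg (ph c x))
    have h3 := mul_le_mul_of_nonneg_right (hφ x) h0
    have h4 := mul_le_mul (hl2 x) (hb3 v.ofLp)
      (mul_nonneg (by positivity) (Finset.sum_nonneg fun i _ => mul_self_nonneg _)) (Real.exp_pos _).le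
    have h5 := mul_le_mul_of_nonneg_left h4 hκ0.le
    have h6 : C0⁻¹ * ∑ i, v.ofLp i * v.ofLp i = κ * (e⁻¹ * (M2⁻¹ * ∑ i, v.ofLp i * v.ofLp i)) := by
      rw [hC0]; field_simp
    nlinarith
  have hg : IsRiemannianOn (gS b c f) univ := riem_of_lo (by linarith) (sm_gS hc hf) (sy_gS hb) hlo
  have hd := jd_gS hc hf hg
  refine ⟨hg, fun x => (hlo x).mono (by linarith) (by nlinarith), fun x i j => ?_,
    fun i j => contDiffOn_univ.1 (hd.symT_hh.smooth i j), fun x i j => hd.symT_hh.symm x trivial i j,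
    fun x hρ v hv => ?_⟩
  · refine (abs_entry_le (riem_posDef hg x) (C := e * M1) (fun v => ?_) i j).trans (by linarith)
    rw [qb_gS]
    have h1 := mul_le_mul (hl1 x) (hb1 v) (qb_nonneg hb v) (by linarith)
    nlinarith [mul_nonneg (sq_nonneg (ph c x)) (sq_nonneg (∑ i, pderiv i f x * v i))]
  obtain ⟨s1, s2, s3⟩ := hst n hn b c f hb hc hf hg x _ _ _ _ _ rfl rfl rfl rfl rfl
  have g2 := gm_sq_eq hc hf hg x
  have g1 := hd.one_le_gm (mem_univ x)
  set lam := Real.exp (2 * c x) with hlam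
  have hlam0 : 0 < lam := Real.exp_pos _
  set γ := Id.gm (gS b c f) (ph c) f x with hγ
  set ρ0 := -bl b⁻¹ c x with hρ0
  set X : Fin n → ℝ := fun i => ph c x * pderiv i f x with hX
  set dc : Fin n → ℝ := fun i => pderiv i c x with hdc
  set N := ‖fderiv ℝ c x‖ ^ 2 with hN
  have hN0 : 0 ≤ N := sq_nonneg _
  have hs : qb b⁻¹ X X ≤ lam * (1 - κ) := by
    rw [hX, qb_X]
    exact (mul_le_mul_of_nonneg_left (hfb x) (sq_nonneg _)).trans (hφ x)
  have hγ2 : γ ^ 2 ≤ κ⁻¹ := by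
    have h1 : qb b⁻¹ X X / lam ≤ 1 - κ := by rw [div_le_iff₀ hlam0]; linarith
    rw [← one_div, le_div_iff₀ hκ0]
    nlinarith [sq_nonneg γ]
  have hdd : qb b⁻¹ dc dc ≤ M2 * N := by rw [hN, ← sum_pd_sq]; exact hb2 dc
  have hP : qb b⁻¹ dc X ^ 2 ≤ M2 * N * lam := (qb_sq_le hb.inv dc X).trans
    (mul_le_mul hdd (by nlinarith) (qb_nonneg hb.inv X) (by positivity))
  set P := qb b⁻¹ dc X with hPd
  set Xv := ∑ i, X i * v i with hXv
  set cv := ∑ i, dc i * v i with hcv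
  have hXv2 : Xv ^ 2 ≤ γ ^ 2 - 1 := by
    have h1 := dual_sq_le (riem_posDef hg x) X v.ofLp
    have h2 := mul_le_mul_of_nonneg_left hv (qb_nonneg (riem_posDef hg x).inv X)
    rw [quadForm_eq] at h2
    linarith
  have hcv2 : cv ^ 2 ≤ N * C0 := by
    have h1 : cv = fderiv ℝ c x v := (fderiv_eq_sum c x v).symm
    have h2 : ‖v‖ ^ 2 ≤ C0 := ((hlo x).norm_sq_le (by linarith) v).trans (by nlinarith)
    have h3 : |cv| ≤ ‖fderiv ℝ c x‖ * ‖v‖ := h1 ▸ (fderiv ℝ c x).le_opNorm v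
    calc cv ^ 2 = |cv| ^ 2 := (sq_abs _).symm
      _ ≤ (‖fderiv ℝ c x‖ * ‖v‖) ^ 2 := by gcongr
      _ ≤ N * C0 := by rw [mul_pow]; gcongr
  have hJ : ∑ i, momentumDensity (gS b c f) (KS b c f) x i * v i =
      ((n : ℝ) - 1) * γ / lam * (ρ0 * Xv - ((n : ℝ) - 2) * P * cv) := by
    simp only [s3, hXv, hcv, Finset.mul_sum, ← Finset.sum_sub_distrib]
    exact Finset.sum_congr rfl fun i _ => by ring
  have e1 : energyDensity (gS b c f) (KS b c f) x -
      ∑ i, momentumDensity (gS b c f) (KS b c f) x i * v i =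
      ((n : ℝ) - 1) * (ρ0 * (γ ^ 2 - γ * Xv)) * lam⁻¹ - ((n : ℝ) - 1) * ((n : ℝ) - 2) *
        (lam⁻¹ * (qb b⁻¹ dc dc / 2 + γ ^ 2 * (P ^ 2 / lam) - γ * P * cv)) := by
    rw [hJ, s2]; field_simp; ring
  have e2 : ρ0 * (1 / 2) ≤ ρ0 * (γ ^ 2 - γ * Xv) :=
    mul_le_mul_of_nonneg_left (by nlinarith [sq_nonneg (γ - Xv)]) hρ
  have e3 : C⁻¹ * ρ0 ≤ ((n : ℝ) - 1) * (ρ0 * (γ ^ 2 - γ * Xv)) * lam⁻¹ := by
    have h1 : C⁻¹ ≤ lam⁻¹ := inv_anti₀ hlam0 (by linarith [hl1 x])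
    rw [mul_comm C⁻¹]
    exact mul_le_mul (by nlinarith) h1 (inv_pos.2 (by linarith)).le (by nlinarith)
  have e4 : qb b⁻¹ dc dc / 2 + γ ^ 2 * (P ^ 2 / lam) - γ * P * cv ≤ D * N := by
    have h1 : γ ^ 2 * (P ^ 2 / lam) ≤ κ⁻¹ * (M2 * N) :=
      mul_le_mul hγ2 (by rwa [div_le_iff₀ hlam0]) (by positivity) (by positivity)
    have h2 : γ ^ 2 * P ^ 2 ≤ κ⁻¹ * (M2 * N * e) :=
      mul_le_mul hγ2 (hP.trans (by gcongr; exact hl1 x)) (by positivity) (by positivity)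
    have h3 : D * N = M2 * N / 2 + κ⁻¹ * (M2 * N) + (κ⁻¹ * (M2 * N * e) + N * C0) / 2 := by
      rw [hD]; ring
    nlinarith [sq_nonneg (γ * P + cv)]
  have e5 : lam⁻¹ * (qb b⁻¹ dc dc / 2 + γ ^ 2 * (P ^ 2 / lam) - γ * P * cv) ≤ e * (D * N) := by
    refine (mul_le_mul_of_nonneg_left e4 (by positivity)).trans
      (mul_le_mul_of_nonneg_right ?_ (by positivity))
    rw [inv_le_comm₀ hlam0 (by linarith)]; exact hl2 x
  have e6 := mul_le_mul_of_nonneg_left e5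
    (mul_nonneg (by linarith : 0 ≤ (n : ℝ) - 1) (by linarith : 0 ≤ (n : ℝ) - 2))
  have e7 : ((n : ℝ) - 1) * ((n : ℝ) - 2) * e * D * N ≤ C * N :=
    mul_le_mul_of_nonneg_right (by linarith) hN0
  rw [e1]
  linarith

end Crest.Agent.N346.P0

end
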