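import Crest.Agent.N346.P0.Defs
import Crest.Agent.N346.Id.Flat

/-!
Row 346, Part 0 (helper90): `conf : ConfStmt` and `st : STStmt`.
-/

set_option autoImplicit false
open Filter Topology Set
open scoped ContDiff
open Crest.GeometryTopology.CoordMetric
open Crest.MathPhysics.ExteriorData
open Crest.Agent.R202.Tens Crest.Agent.R247.Bo84 Crest.Agent.N346.Id

noncomputable section

namespace Crest.Agent.N346.P0

theorem conf : ConfStmt := by
  intro n g K ψ hg hK hKs hψ x
  have hc : Conf g (fun y => Real.exp (2 * ψ y) • g y) ψ univ :=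
    ⟨hg, hψ.contDiffOn, fun _ _ => rfl⟩
  have hS : SymT K univ := ⟨fun i j => (hK i j).contDiffOn, fun y _ i j => hKs y i j⟩
  refine ⟨hc.energy_eq hS (fun _ _ => rfl) (mem_univ x), fun i => ?_⟩
  rw [← Jw_ee, hc.Jw_eq hS (fun _ _ => rfl) (mem_univ x), Jw_ee, bil_ee_right]
  congr 3
  exact Finset.sum_congr rfl fun j _ => by rw [hKs x j i]; rfl

theorem st : STStmt := by
  intro n _ b c f hb hc hf hg x lam γ ρ0 X dc hlam hγ hρ hX hdc
  have hx := mem_univ x
  have hφc : ContDiff ℝ ∞ (ph c : E n → ℝ) := (contDiff_const.mul hc).exp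
  have hd : Jd (gS b c f) (ph c) f univ :=
    ⟨hg, hφc.contDiffOn, hf.contDiffOn, fun y _ => Real.exp_pos _⟩
  have hb0 := riem_const (n := n) hb
  have hcf : Conf (fun _ => b) (gb (gS b c f) (ph c) f) c univ :=
    ⟨hb0, hc.contDiffOn, fun y _ => by simp [gb, gS]⟩
  have hc2 : ContDiffAt ℝ 2 c x := hc.contDiffAt.of_le (by norm_cast)
  have hcd : DifferentiableAt ℝ c x := hc2.differentiableAt (by norm_num)
  have hlv : lv (ph c : E n → ℝ) = fun y => -((n : ℝ) - 2) * c y := by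
    funext y
    rw [lv, ph, Real.log_exp]
  have hlam0 : 0 < lam := hlam ▸ Real.exp_pos _
  have hinv : Real.exp (-(2 * c x)) = lam⁻¹ := by rw [Real.exp_neg, hlam]
  set w := wv (gS b c f) (ph c) f x with hw
  have hp : pp (gS b c f) (ph c) f x = Bs.qb b⁻¹ X X / lam := by
    rw [← hd.gam_gb_f_f hx, hcf.gam_eq hx, hinv, hX, gam, Bs.qb, div_eq_mul_inv]
    simp only [inverseField, Finset.mul_sum, Finset.sum_mul]
    exact Finset.sum_congr rfl fun i _ => Finset.sum_congr rfl fun j _ => by ring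
  have h1 := hd.gm_sq_mul hx
  rw [hp, ← hγ] at h1
  have hbw : ∀ Y, bil b Y w = γ * (ph c x * fderiv ℝ f x Y) / lam := by
    intro Y
    have h2 := hcf.bil_eq hx Y w
    rw [bil_symm hd.riemb hx, hw, hd.gb_wv hx, ← hlam, ← hγ] at h2
    rw [hd.phi_df hx, ← hγ, eq_div_iff hlam0.ne']
    linear_combination -h2
  have hcw : fderiv ℝ c x w = γ * Bs.qb b⁻¹ dc X / lam := by
    rw [← bil_grad hb0 hx, hbw, ← gam_eq_fderiv_grad' hb0 hx, gam, hdc, hX, Bs.qb]
    congr 2
    simp only [inverseField, Finset.mul_sum]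
    exact Finset.sum_congr rfl fun i _ => Finset.sum_congr rfl fun j _ => by ring
  have hlap : laplaceBeltrami (fun _ => b) c x = -ρ0 := by
    rw [lap_const_metric hb hc2, hρ, neg_neg]; rfl
  have hgam : gam (fun _ => b) c c x = Bs.qb b⁻¹ dc dc := by rw [hdc]; rfl
  have hJ : ∀ Y, Jw (gS b c f) (KS b c f) x Y = ((n : ℝ) - 1) * γ / lam *
      (ρ0 * (ph c x * fderiv ℝ f x Y) - ((n : ℝ) - 2) * Bs.qb b⁻¹ dc X * fderiv ℝ c x Y) := by
    intro Y
    rw [KS, hd.id_C_J hx, hd.hess_lv hx, hd.lap_lv hx hd.riemb, hlv, hess_const_mul _ hc2,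
      lap_const_mul hd.riemb hx _ hc2, gam_const_mul_left _ hcd, gam_const_mul_right _ hcd,
      fderiv_const_mul hcd, hcf.ric_eq hx, hcf.hess_eq hx, hcf.lap_eq hx hc2, hcf.gam_eq hx,
      hcf.bil_eq hx, bil_ricM_const, hinv, ← hlam, hlap, hgam, ← hw]
    simp only [smul_apply, smul_eq_mul]
    rw [hbw, hcw]
    field_simp
    ring
  refine ⟨h1, ?_, fun i => ?_⟩
  · have h3 := hd.df_wv hx
    rw [← hw, hp, ← hγ] at h3
    have h4 := hd.id_C_mu hx
    rw [← hw, hcf.scalar_eq hx, scalarCurv_const, hinv, hlap, hgam] at h4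
    change energyDensity (gS b c f) (KS b c f) x = _ + Jw (gS b c f) (KS b c f) x w at h4
    rw [h4, hJ, h3, hcw]
    field_simp
    field_simp at h1
    linear_combination (-2 * ((n : ℝ) - 1) * ρ0) * h1
  · rw [← Jw_ee, hJ, hX, hdc]
    rfl

end Crest.Agent.N346.P0

end
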