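import Crest.Agent.N346.P0.Lin

/-! Row 346, Part 0, step 0.2 (helper95): `strict : ConfStmt → FacStmt → FlBdStmt → AvgStmt →
StrictStmt`. -/

set_option autoImplicit false
open MeasureTheory Filter Topology Matrix Set
open scoped ContDiff
open Crest.GeometryTopology.CoordMetric
open Crest.MathPhysics.ExteriorData

noncomputable section

namespace Crest.Agent.N346.P0
open Bs

variable {n : ℕ} {g K : MetricField n} {ψ s : E n → ℝ} {x : E n}

namespace St

theorem quadForm_smul_vec (g : MetricField n) (x w : E n) (t : ℝ) :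
    quadForm g x (t • w) = t ^ 2 * quadForm g x w := by
  simp only [quadForm, PiLp.smul_apply, smul_eq_mul, Finset.mul_sum]
  exact Finset.sum_congr rfl fun i _ => Finset.sum_congr rfl fun j _ => by ring

theorem quadForm_nonneg (hg : (g x).PosDef) (w : E n) : 0 ≤ quadForm g x w := qb_nonneg hg _

/-- uniform lower ellipticity from decay -/
theorem exists_lo (hg : IsRiemannianOn g univ) {a q : ℝ} (hq : 0 < q)
    (h : ∀ x : E n, 1 ≤ ‖x‖ → ∀ i j, |g x i j - (1 : Matrix (Fin n) (Fin n) ℝ) i j| ≤ a * ‖x‖ ^ (-q)) :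
    ∃ Λ : ℝ, 1 ≤ Λ ∧ ∀ x, Lo Λ g x := by
  have h1 : Tendsto (fun R : ℝ => n * (|a| * R ^ (-q))) atTop (𝓝 0) := by
    simpa using ((tendsto_rpow_neg_atTop hq).const_mul |a|).const_mul (n : ℝ)
  obtain ⟨R, hR, hR1⟩ := ((h1.eventually (gt_mem_nhds (by norm_num : (0 : ℝ) < 1 / 2))).and
    (eventually_ge_atTop 1)).exists
  have hc : Continuous fun p : E n × E n => quadForm g p.1 p.2 :=
    continuous_finsetSum _ fun i _ => continuous_finsetSum _ fun j _ =>
      (((contDiff_g hg i j).continuous.comp continuous_fst).mul (by fun_prop)).mul (by fun_prop)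
  obtain ⟨c, hc0, hc⟩ := ((isCompact_closedBall (0 : E n) R).prod
    (isCompact_sphere (0 : E n) 1)).exists_forall_le' (a := 0) hc.continuousOn fun p hp =>
      qb_pos (riem_posDef hg p.1) fun h0 => by
        have h2 : p.2 = 0 := by ext i; exact congrFun h0 i
        simpa [h2] using hp.2
  refine ⟨max 2 c⁻¹, le_max_of_le_left one_le_two, fun x => ?_⟩
  rcases le_total R ‖x‖ with hx | hx
  · refine Lo.mono (Λ := 2) (fun w => ?_) two_pos (le_max_left _ _)
    have h2 := abs_quadForm_sub_le (g := fun _ => 1) (g' := g) (x := x) (a := |a| * R ^ (-q))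
      (fun i j => (h x (hR1.trans hx) i j).trans (mul_le_mul (le_abs_self a)
        (Real.rpow_le_rpow_of_nonpos (by linarith) hx (by linarith)) (by positivity)
        (abs_nonneg a))) w
    rw [quadForm_one] at h2
    nlinarith [(abs_le.1 h2).1, sq_nonneg ‖w‖]
  · refine Lo.mono (Λ := c⁻¹) (fun w => ?_) (inv_pos.2 hc0) (le_max_right _ _)
    rcases eq_or_ne w 0 with rfl | hw
    · simp [quadForm]
    have hn : 0 < ‖w‖ := norm_pos_iff.2 hw
    have h2 := hc (x, ‖w‖⁻¹ • w) ⟨by simpa using hx, by simp [norm_smul, hn.ne']⟩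
    simp only [quadForm_smul_vec] at h2
    rw [inv_pow, ← div_eq_inv_mul, le_div_iff₀ (by positivity)] at h2
    rwa [inv_inv]

/-- the conformal metric -/
abbrev cf (ψ : E n → ℝ) (g : MetricField n) : MetricField n := fun y => Real.exp (2 * ψ y) • g y

theorem quadForm_cf (x w : E n) :
    quadForm (cf ψ g) x w = Real.exp (2 * ψ x) * quadForm g x w := qb_smul _ _ _ _

theorem exp_two (t : ℝ) : Real.exp (2 * t) = Real.exp t ^ 2 := by
  rw [← Real.exp_nat_mul]; norm_num

theorem inv_cf (hg : (g x).PosDef) (i j : Fin n) :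
    inverseField (cf ψ g) x i j = (Real.exp (ψ x) ^ 2)⁻¹ * inverseField g x i j := by
  simp only [inverseField, inv_smul' hg (Real.exp_pos _).ne', exp_two, Matrix.smul_apply,
    smul_eq_mul]

theorem det_cf (x : E n) : (cf ψ g x).det = (Real.exp (ψ x) ^ n) ^ 2 * (g x).det := by
  rw [det_smul, exp_two, Fintype.card_fin, ← pow_mul, ← pow_mul, mul_comm 2 n]

theorem vol_cf (x : E n) : volDensity (cf ψ g) x = Real.exp (ψ x) ^ n * volDensity g x := by
  rw [volDensity, det_cf, Real.sqrt_mul (sq_nonneg _), Real.sqrt_sq (by positivity), volDensity]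

theorem levelNormal_cf (hg : (g x).PosDef) (i : Fin n) :
    levelNormal (cf ψ g) s x i = (Real.exp (ψ x))⁻¹ * levelNormal g s x i := by
  have h1 : gradSq (cf ψ g) s x = ((Real.exp (ψ x))⁻¹) ^ 2 * gradSq g s x := by
    simp only [gradSq, gradDot, inv_cf hg, Finset.mul_sum, inv_pow, mul_assoc]
  have := (Real.exp_pos (ψ x)).ne'
  simp only [levelNormal, inv_cf hg, h1, mul_assoc, ← Finset.mul_sum]
  rw [Real.sqrt_mul (sq_nonneg _), Real.sqrt_sq (by positivity)]
  rcases eq_or_ne (√(gradSq g s x)) 0 with h | h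
  · simp [h]
  · field_simp

theorem contDiffAt_levelNormal (hg : IsRiemannianOn g univ) (hs : ContDiff ℝ ∞ s)
    (hx : fderiv ℝ s x ≠ 0) (i : Fin n) : ContDiffAt ℝ ∞ (fun y => levelNormal g s y i) x :=
  (contDiff_grad hg hs i).contDiffAt.div
    ((contDiff_gradSq hg hs).contDiffAt.sqrt (gradSq_pos hg hx).ne')
    (Real.sqrt_pos.2 (gradSq_pos hg hx)).ne'

theorem continuousAt_levelExp (hg : IsRiemannianOn g univ) (hK : Sm K) (hs : ContDiff ℝ ∞ s)
    (hx : fderiv ℝ s x ≠ 0) : ContinuousAt (levelExp g K s) x := by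
  have h := contDiffAt_levelNormal hg hs hx
  refine ContinuousAt.sub (ContinuousAt.div ?_ (contDiff_volDensity hg).continuous.continuousAt
    (volDensity_pos hg x).ne') ?_
  · exact tendsto_finsetSum _ fun i _ => (contDiffAt_pd (k := 0)
      ((contDiff_volDensity hg).contDiffAt.mul (h i)) (by simp) i).continuousAt
  · exact tendsto_finsetSum _ fun i _ => tendsto_finsetSum _ fun j _ =>
      (((contDiff_inv hg i j).continuous.continuousAt.sub
        ((h i).continuousAt.mul (h j).continuousAt)).mul (hK i j).continuous.continuousAt)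

theorem levelExp_cf (hn : 1 ≤ n) (hg : IsRiemannianOn g univ) (hψ : ContDiff ℝ ∞ ψ)
    (hs : ContDiff ℝ ∞ s) (hx : fderiv ℝ s x ≠ 0) :
    levelExp (cf ψ g) (fun y => Real.exp (ψ y) • K y) s x = (Real.exp (ψ x))⁻¹ *
      (levelExp g K s x + ((n : ℝ) - 1) * ∑ i, pderiv i ψ x * levelNormal g s x i) := by
  obtain ⟨m, rfl⟩ : ∃ m, n = m + 1 := ⟨n - 1, by omega⟩
  have he := fun y => (Real.exp_pos (ψ y)).ne'
  have hv := (volDensity_pos hg x).ne'
  have e1 : (fun y i => volDensity (cf ψ g) y * levelNormal (cf ψ g) s y i) =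
      fun y i => Real.exp (m * ψ y) * (volDensity g y * levelNormal g s y i) := by
    funext y i
    rw [vol_cf, levelNormal_cf (riem_posDef hg y), Real.exp_nat_mul, pow_succ]
    field_simp [he y]
  have dψ := smooth_diff hψ x
  have e2 : ∀ i, pderiv i (fun y => Real.exp (m * ψ y)) x = Real.exp (ψ x) ^ m * m * pderiv i ψ x :=
    fun i => by
      rw [pd_comp (θ := fun t => Real.exp (m * t)) (θ' := Real.exp (m * ψ x) * m)
        (by simpa using ((hasDerivAt_id (ψ x)).const_mul (m : ℝ)).exp) dψ, Real.exp_nat_mul]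
  rw [levelExp, levelExp, gDiv_eq, gDiv_eq, e1,
    divE_smul (V := fun y i => volDensity g y * levelNormal g s y i) (dψ.const_mul _).exp fun i =>
      (smooth_diff (contDiff_volDensity hg) x).mul
        ((contDiffAt_levelNormal hg hs hx i).differentiableAt (by simp))]
  have e3 : ∑ i, pderiv i (fun y => Real.exp (m * ψ y)) x * (volDensity g x * levelNormal g s x i) =
      Real.exp (ψ x) ^ m * m * volDensity g x * ∑ i, pderiv i ψ x * levelNormal g s x i := by
    rw [Finset.mul_sum]; exact Finset.sum_congr rfl fun i _ => by rw [e2]; ring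
  have e4 : ∑ i, ∑ j, (inverseField (cf ψ g) x i j - levelNormal (cf ψ g) s x i *
      levelNormal (cf ψ g) s x j) * (Real.exp (ψ x) • K x) i j = (Real.exp (ψ x))⁻¹ *
      ∑ i, ∑ j, (inverseField g x i j - levelNormal g s x i * levelNormal g s x j) * K x i j := by
    simp only [Finset.mul_sum, inv_cf (riem_posDef hg x), levelNormal_cf (riem_posDef hg x),
      Matrix.smul_apply, smul_eq_mul]
    exact Finset.sum_congr rfl fun i _ => Finset.sum_congr rfl fun j _ => by
      field_simp [he x]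
  rw [e3, e4, vol_cf, Real.exp_nat_mul, pow_succ]
  push_cast
  field_simp [he x]
  ring

theorem levelNormal_normSq (g : MetricField n) :
    levelNormal g (fun y => ‖y‖ ^ 2) = radialNormal g := by
  funext x i
  have h1 : gradSq g (fun y => ‖y‖ ^ 2) x = 2 ^ 2 * ∑ a, ∑ b, inverseField g x a b * x a * x b := by
    simp only [gradSq, gradDot, pd_normSq, Finset.mul_sum]
    exact Finset.sum_congr rfl fun i _ => Finset.sum_congr rfl fun j _ => by ring
  have h2 : ∑ j, inverseField g x i j * (2 * x j) = 2 * ∑ j, inverseField g x i j * x j := by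
    rw [Finset.mul_sum]; exact Finset.sum_congr rfl fun j _ => by ring
  rw [levelNormal, radialNormal, h1, Real.sqrt_mul (sq_nonneg _), Real.sqrt_sq two_pos.le]
  simp only [pd_normSq]
  rw [h2, mul_div_mul_left _ _ two_ne_zero]

theorem levelExp_normSq (g K : MetricField n) (x : E n) :
    levelExp g K (fun y => ‖y‖ ^ 2) x = pastExpansion g K x := by
  rw [levelExp, levelNormal_normSq]; rfl

theorem fderiv_normSq_ne (hx : x ≠ 0) : fderiv ℝ (fun y : E n => ‖y‖ ^ 2) x ≠ 0 := fun h => hx (by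
  ext i
  have := pd_normSq i x
  rw [pderiv, h] at this
  simpa using this.symm)

theorem radial_pos (hg : (g x).PosDef) (hx : x ≠ 0) : 0 < ∑ i, x i * radialNormal g x i := by
  have h1 : 0 < qb (g x)⁻¹ x.ofLp x.ofLp :=
    qb_pos hg.inv fun h0 => hx (by ext i; exact congrFun h0 i)
  have h2 : ∑ i, x i * radialNormal g x i = qb (g x)⁻¹ x.ofLp x.ofLp / √(qb (g x)⁻¹ x.ofLp x.ofLp) := by
    simp only [radialNormal, qb, inverseField, Finset.sum_div, Finset.mul_sum]
    exact Finset.sum_congr rfl fun i _ => Finset.sum_congr rfl fun j _ => by ring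
  rw [h2]
  exact div_pos h1 (Real.sqrt_pos.2 h1)

/-- a function that is negative on the unit sphere is uniformly negative on a shell -/
theorem shell {φ : E n → ℝ} (hφ : ∀ x, x ≠ 0 → ContinuousAt φ x) (h : ∀ x, ‖x‖ = 1 → φ x < 0) :
    ∃ θ r : ℝ, 0 < θ ∧ 1 < r ∧ r < 2 ∧ ∀ x, 1 ≤ ‖x‖ ^ 2 → ‖x‖ ^ 2 ≤ r → φ x ≤ -θ := by
  obtain ⟨a, ha, h1⟩ := (isCompact_sphere (0 : E n) 1).exists_forall_le' (a := 0)
    (f := fun x => -φ x) (fun x hx => (hφ x (by rintro rfl; simp at hx)).neg.continuousWithinAt)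
    fun x hx => neg_pos.2 (h x (by simpa using hx))
  set S := Metric.closedBall (0 : E n) 2 ∩ {x | 1 ≤ ‖x‖ ^ 2} with hS
  have hSc : IsCompact S :=
    (isCompact_closedBall _ _).inter_right (isClosed_le continuous_const (by fun_prop))
  have hc : ContinuousOn φ S := fun x hx =>
    (hφ x (by rintro rfl; have := hx.2; norm_num at this)).continuousWithinAt
  have hT : IsCompact (S ∩ φ ⁻¹' Ici (-(a / 2))) :=
    hSc.of_isClosed_subset (hc.preimage_isClosed_of_isClosed hSc.isClosed isClosed_Ici)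
      inter_subset_left
  obtain ⟨b, hb, h2⟩ := hT.exists_forall_le' (a := 1) (f := fun x => ‖x‖ ^ 2) (by fun_prop)
    fun x hx => lt_of_le_of_ne hx.1.2 fun h' => by
      have h3 : ‖x‖ = 1 := by nlinarith [norm_nonneg x]
      have h4 := h1 x (by simpa using h3)
      have h5 : -(a / 2) ≤ φ x := hx.2
      linarith
  refine ⟨a / 2, min ((1 + b) / 2) (3 / 2), by linarith, lt_min (by linarith) (by norm_num),
    (min_le_right _ _).trans_lt (by norm_num), fun x hx hx' => ?_⟩
  by_contra hcon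
  have h3 : ‖x‖ ^ 2 ≤ 3 / 2 := hx'.trans (min_le_right _ _)
  have := h2 x ⟨⟨by rw [mem_closedBall_zero_iff]; nlinarith [norm_nonneg x], hx⟩,
    (not_le.1 hcon).le⟩
  linarith [hx'.trans (min_le_left _ _)]

theorem eT_nonneg (hg : (g x).PosDef) (EE : VectorField n) {w : E n} (hw : quadForm g x w ≤ 1) :
    0 ≤ eT g EE x w :=
  add_nonneg (mul_nonneg (sub_nonneg.2 hw) (div_nonneg (qb_nonneg hg _) hg.det_pos.le)) (sq_nonneg _)

theorem eT_cf (hn : 1 ≤ n) (hg : (g x).PosDef) (EE : VectorField n) (w : E n) :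
    eT (cf ψ g) EE x w = ((Real.exp (ψ x) ^ (n - 1)) ^ 2)⁻¹ * eT g EE x (Real.exp (ψ x) • w) := by
  obtain ⟨m, rfl⟩ : ∃ m, n = m + 1 := ⟨n - 1, by omega⟩
  have he := (Real.exp_pos (ψ x)).ne'
  have hd := hg.det_pos.ne'
  have hv : volDensity g x ≠ 0 := (Real.sqrt_pos.2 hg.det_pos).ne'
  have h1 : vecNormSq (cf ψ g) EE x = Real.exp (2 * ψ x) * vecNormSq g EE x := qb_smul _ _ _ _
  have h2 : ∑ i, ∑ j, cf ψ g x i j * w i * EE x j =
      Real.exp (ψ x) * ∑ i, ∑ j, g x i j * (Real.exp (ψ x) • w) i * EE x j := by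
    simp only [Matrix.smul_apply, PiLp.smul_apply, smul_eq_mul, exp_two, Finset.mul_sum]
    exact Finset.sum_congr rfl fun i _ => Finset.sum_congr rfl fun j _ => by ring
  rw [eT, eT, quadForm_cf, quadForm_smul_vec, eSq, eSq, h1, det_cf, eDot, eDot, h2, vol_cf, exp_two,
    Nat.add_sub_cancel, pow_succ _ m]
  field_simp

end St

open St in
theorem strict (hconf : ConfStmt) (hfac : FacStmt) (hfl : FlBdStmt) (havg : AvgStmt) :
    StrictStmt := by
  intro n q e0 hE q0 g K EE En P Q A hq hD hBV E1 hE1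
  have hn := hE.n_ge
  have hn' : (3 : ℝ) ≤ n := by exact_mod_cast hn
  have hq0 : 0 < q := by linarith [hE.q_gt]
  have hg := hD.riem
  have hK : Sm K := hD.K_smooth
  have hk : Sm fun y => g y - 1 := (sm_riem hg).sub (Sm.const 1)
  have hw := unitSphereArea_pos (by omega : 1 ≤ n)
  -- jets of the data
  choose a ha0 ha using fun i j => jb_of_decaysAt (hD.g_decay i j)
  choose b hb0 hb using fun i j => jb_of_decaysAt (hD.K_decay i j)
  set L0 := ∑ i, ∑ j, (a i j + b i j) with hL0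
  have hab : ∀ i j, a i j + b i j ≤ L0 := fun i j =>
    (Finset.single_le_sum (f := fun j => a i j + b i j) (fun j _ => add_nonneg (ha0 i j) (hb0 i j))
      (Finset.mem_univ j)).trans (Finset.single_le_sum (f := fun i => ∑ j, (a i j + b i j))
      (fun i _ => Finset.sum_nonneg fun j _ => add_nonneg (ha0 i j) (hb0 i j)) (Finset.mem_univ i))
  have hJ0 : ∀ x : E n, 1 ≤ ‖x‖ → JB (fun y => g y - 1) K x ‖x‖ (L0 * ‖x‖ ^ (-q)) := fun x hx => by
    have hx0 : 0 < ‖x‖ := by linarith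
    have h1 : ‖x‖ ^ (-q0) ≤ ‖x‖ ^ (-q) := Real.rpow_le_rpow_of_exponent_le hx (by linarith)
    refine ⟨fun i j => (ha i j x hx).mono hx0 (mul_le_mul (by linarith [hab i j, hb0 i j]) h1
      (by positivity) (by linarith [hab i j, ha0 i j, hb0 i j])),
      fun i j => (hb i j x hx).mono hx0 ?_⟩
    rw [show -(1 + q0) = -q0 - 1 by ring, Real.rpow_sub_one hx0.ne', mul_div_assoc]
    exact mul_le_mul (by linarith [hab i j, ha0 i j]) (by gcongr) (by positivity)
      (by linarith [hab i j, ha0 i j, hb0 i j])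
  obtain ⟨L1, hL1, hlo1⟩ := exists_lo hg hq0 fun x hx i j => ((hJ0 x hx).1 i j).abs_le
  set L := max L0 L1 with hL
  have hL1' : 1 ≤ L := le_max_of_le_right hL1
  have hlo : ∀ x, Lo L g x := fun x => (hlo1 x).mono (by linarith) (le_max_right _ _)
  have hJ : ∀ x : E n, 1 ≤ ‖x‖ → JB (fun y => g y - 1) K x ‖x‖ (L * ‖x‖ ^ (-q)) := fun x hx =>
    (hJ0 x hx).mono (by linarith) (mul_le_mul_of_nonneg_right (le_max_left _ _) (by positivity))
  -- constants
  obtain ⟨C1, hC1, hc1⟩ := exists_jb_comp n (θ := fun t => Real.exp (2 * t) - 1) (by fun_prop)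
    (by simp) 1
  obtain ⟨C2, hC2, hc2⟩ := exists_jb_comp n (θ := fun t => Real.exp t - 1) (by fun_prop) (by simp) 1
  obtain ⟨CF, hCF, hfl⟩ := hfl n
  set D := CF * (n * (8 * (C1 * (L + 1)))) with hD'
  have hD0 : 0 ≤ D := by positivity
  set δ := ((n : ℝ) - 1) * unitSphereArea n * (E1 - En) with hδ
  have hδ0 : 0 < δ := mul_pos (mul_pos (by linarith) hw) (by linarith)
  set η := min 1 (δ / (D + 1)) with hη
  have hη0 : 0 < η := by positivity
  have hη1 : η ≤ 1 := min_le_left _ _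
  have hηD : D * η ≤ δ := by
    have h : η ≤ δ / (D + 1) := min_le_right _ _
    rw [le_div_iff₀ (by positivity)] at h
    nlinarith
  obtain ⟨ψ, c, hc, hψ, hψ0, hψd, hψr, hψf⟩ := hfac n q e0 hE g K L hL1' hg hlo hJ η hη0
  have hψ1 : ∀ x, ψ x ≤ 1 := fun x => by
    have h := hψd 0 (by norm_num) x
    rw [norm_iteratedFDeriv_zero, Real.norm_eq_abs] at h
    have h2 : (1 + ‖x‖) ^ (2 - (n : ℝ) - ((0 : ℕ) : ℝ)) ≤ 1 :=
      Real.rpow_le_one_of_one_le_of_nonpos (by linarith [norm_nonneg x]) (by simp; linarith)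
    nlinarith [le_abs_self (ψ x)]
  have hp1 : ∀ x : E n, 1 ≤ ‖x‖ → ‖x‖ ^ (2 - (n : ℝ)) ≤ ‖x‖ ^ (-q) := fun x hx =>
    Real.rpow_le_rpow_of_exponent_le hx (by linarith [hE.q_lt])
  have hp2 : ∀ x : E n, 1 ≤ ‖x‖ → ‖x‖ ^ (-q) ≤ 1 := fun x hx =>
    Real.rpow_le_one_of_one_le_of_nonpos hx (by linarith)
  have jψ : ∀ x : E n, 1 ≤ ‖x‖ → Jb 2 ψ x ‖x‖ (η * ‖x‖ ^ (2 - (n : ℝ))) := fun x hx =>
    Jb.of_rpow (by linarith) fun k hk => (hψd k hk x).trans (mul_le_mul_of_nonneg_left
      (Real.rpow_le_rpow_of_nonpos (by linarith) (by linarith)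
        (by linarith [Nat.cast_nonneg (α := ℝ) k])) hη0.le)
  have hle1 : ∀ x : E n, 1 ≤ ‖x‖ → η * ‖x‖ ^ (2 - (n : ℝ)) ≤ 1 := fun x hx =>
    mul_le_one₀ hη1 (by positivity) ((hp1 x hx).trans (hp2 x hx))
  set u := fun y => Real.exp (2 * ψ y) - 1 with hu
  set v := fun y => Real.exp (ψ y) - 1 with hv
  have su : ContDiff ℝ ∞ u := (contDiff_const.mul hψ).exp.sub contDiff_const
  have sv : ContDiff ℝ ∞ v := hψ.exp.sub contDiff_const
  have ju : ∀ x : E n, 1 ≤ ‖x‖ → ∀ i j, Jb 2 (fun y => (u y • g y) i j) x ‖x‖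
      (4 * (C1 * (L + 1)) * η * ‖x‖ ^ (2 - (n : ℝ))) := fun x hx i j => by
    have hx0 : 0 < ‖x‖ := by linarith
    have h1 : Jb 2 (fun y => g y i j) x ‖x‖ (L + 1) := by
      have := Jb.add (hk i j) contDiff_const ((hJ x hx).1 i j)
        (Jb.const ((1 : Matrix (Fin n) (Fin n) ℝ) i j) 2 x hx0)
      simp only [Matrix.sub_apply, sub_add_cancel] at this
      refine this.mono hx0 (add_le_add (mul_le_of_le_one_right (by linarith) (hp2 x hx)) ?_)
      rw [Matrix.one_apply]; split_ifs <;> simp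
    exact (Jb.mul su (sm_riem hg i j) hx0 (hc1 ψ x _ _ hψ hx0 (hle1 x hx) (jψ x hx)) h1).mono hx0
      (le_of_eq (by ring))
  have jv : ∀ x : E n, 1 ≤ ‖x‖ → ∀ i j, Jb 1 (fun y => (v y • K y) i j) x ‖x‖
      (2 * C2 * L * ‖x‖ ^ (2 - (n : ℝ)) * ‖x‖ ^ (-q) / ‖x‖) := fun x hx i j => by
    have hx0 : 0 < ‖x‖ := by linarith
    refine (Jb.mul sv (hK i j) hx0 ((hc2 ψ x _ _ hψ hx0 (hle1 x hx) (jψ x hx)).of_le one_le_two)
      ((hJ x hx).2 i j)).mono hx0 ?_
    calc _ = η * (2 * C2 * L * ‖x‖ ^ (2 - (n : ℝ)) * ‖x‖ ^ (-q) / ‖x‖) := by ring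
      _ ≤ _ := mul_le_of_le_one_left (by positivity) hη1
  have eg : (fun y => cf ψ g y - 1) = fun y => (g y - 1) + u y • g y := by
    funext y; simp only [hu, sub_smul, one_smul]; abel
  have eK : (fun y => Real.exp (ψ y) • K y) = fun y => K y + v y • K y := by
    funext y; simp only [hv, sub_smul, one_smul]; abel
  have sug : Sm fun y => u y • g y := (sm_riem hg).smul su
  have svK : Sm fun y => v y • K y := hK.smul sv
  have hge : ∀ x w, quadForm g x w ≤ quadForm (cf ψ g) x w := fun x w => by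
    rw [quadForm_cf]
    exact le_mul_of_one_le_left (quadForm_nonneg (riem_posDef hg x) w)
      (Real.one_le_exp (by linarith [hψ0 x]))
  have hlo' : ∀ x, Lo L (cf ψ g) x := fun x w => (hlo x w).trans (hge x w)
  have hg' : IsRiemannianOn (cf ψ g) univ := riem_of_lo (by linarith)
    ((sm_riem hg).smul (contDiff_const.mul hψ).exp) ((sy_riem hg).smul _) hlo'
  have hK' : Sm fun y => Real.exp (ψ y) • K y := hK.smul hψ.exp
  obtain ⟨θ0, r1, hθ0, hr1, hr2, htrap⟩ := shell
    (φ := levelExp (cf ψ g) (fun y => Real.exp (ψ y) • K y) fun y => ‖y‖ ^ 2)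
    (fun x hx => continuousAt_levelExp hg' hK' (contDiff_norm_sq ℝ) (fderiv_normSq_ne hx))
    fun x hx => by
      have hx0 : x ≠ 0 := by rintro rfl; simp at hx
      obtain ⟨h, hh, hd⟩ := hψr x
      rw [levelExp_cf (by omega) hg hψ (contDiff_norm_sq ℝ) (fderiv_normSq_ne hx0), levelExp_normSq,
        levelNormal_normSq]
      refine mul_neg_of_pos_of_neg (by positivity) ?_
      simp only [hd, mul_assoc, ← Finset.mul_sum]
      have := mul_pos (by linarith : 0 < (n : ℝ) - 1) (mul_pos hh (radial_pos (riem_posDef hg x) hx0))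
      linarith [hD.trap x hx]
  obtain ⟨CE, hCE⟩ := hD.EE_decay
  obtain ⟨hen, hmo⟩ := havg n hn q0 g K EE En P Q hD
  set Λ := L + 4 * (C1 * (L + 1)) + 2 * C2 * L + |CE| with hΛ
  have p1 : 0 ≤ 4 * (C1 * (L + 1)) := by positivity
  have p2 : 0 ≤ 2 * C2 * L := by positivity
  have p3 := abs_nonneg CE
  have int1 : ∀ {F : E n → ℝ}, ContDiff ℝ ∞ F → ∀ {R : ℝ}, 0 < R →
      Integrable fun x => eta R x * F x := fun hF R hR =>
    ((contDiff_eta R).continuous.mul hF.continuous).integrable_of_hasCompactSupport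
      (hasCompactSupport_eta hR).mul_right
  refine ⟨cf ψ g, fun y => Real.exp (ψ y) • K y, Λ, (Real.exp 1 ^ 2)⁻¹ * (((n : ℝ) - 1) * c), θ0, r1,
    by linarith, mul_pos (by positivity) (mul_pos (by linarith) hc), hθ0, hr1, hr2, hg', hK',
    Sy.smul _ hD.K_symm, fun x => (hlo' x).mono (by linarith) (by linarith), fun x hx => ?_,
    hD.EE_smooth, fun x i => (hCE x i).trans (mul_le_mul_of_nonneg_right
      (by linarith [le_abs_self CE]) (by positivity)), hD.EE_div, hD.charge, fun x hx => ?_, htrap,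
    ?_, fun i => ?_, hBV.mono_le hg hg' fun x _ => hge x⟩
  · -- decay
    have hx0 : 0 < ‖x‖ := by linarith
    have t0 : 0 < ‖x‖ ^ (-q) := by positivity
    rw [eg, eK]
    refine ⟨fun i j => (Jb.add (hk i j) (sug i j) ((hJ x hx).1 i j) (ju x hx i j)).mono hx0 ?_,
      fun i j => (Jb.add (hK i j) (svK i j) ((hJ x hx).2 i j) (jv x hx i j)).mono hx0 ?_⟩
    · have h1 : η * ‖x‖ ^ (2 - (n : ℝ)) ≤ ‖x‖ ^ (-q) :=
        (mul_le_of_le_one_left (by positivity) hη1).trans (hp1 x hx)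
      have h2 := mul_le_mul_of_nonneg_left h1 p1
      nlinarith [mul_nonneg p2 t0.le, mul_nonneg p3 t0.le]
    · rw [← add_div]
      refine div_le_div_of_nonneg_right ?_ hx0.le
      have h2 := mul_le_mul_of_nonneg_left ((hp1 x hx).trans (hp2 x hx)) (mul_nonneg p2 t0.le)
      nlinarith [mul_nonneg p1 t0.le, mul_nonneg p3 t0.le]
  · -- dominant energy condition
    rw [DECE_iff]
    intro w hw1
    have hx0 : 0 < ‖x‖ := by linarith
    obtain ⟨c1, c2⟩ := hconf n g K ψ hg hK hD.K_symm hψ x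
    have hw2 : quadForm g x (Real.exp (ψ x) • w) ≤ 1 := by
      rwa [quadForm_smul_vec, ← exp_two, ← quadForm_cf]
    have h1 := DECE_iff.1 (hD.dec x hx) _ hw2
    have h2 := hψf x hx _ hw2
    have h3 := eT_nonneg (riem_posDef hg x) EE hw2
    set e := Real.exp (ψ x) with he
    have he0 : 0 < e := Real.exp_pos _
    have he1 : 1 ≤ e := Real.one_le_exp (hψ0 x)
    have h4 : ((e ^ (n - 1)) ^ 2)⁻¹ ≤ (e ^ 2)⁻¹ := by
      have : e ≤ e ^ (n - 1) := le_self_pow₀ he1 (by omega)
      gcongr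
    have h5 : (Real.exp 1 ^ 2)⁻¹ ≤ (e ^ 2)⁻¹ := by
      have : e ≤ Real.exp 1 := Real.exp_le_exp.2 (hψ1 x)
      gcongr
    have h6 : ∑ i, momentumDensity (cf ψ g) (fun y => Real.exp (ψ y) • K y) x i * w i =
        (e ^ 2)⁻¹ * (∑ i, momentumDensity g K x i * (e • w) i +
          ((n : ℝ) - 1) * ∑ i, (∑ j, K x i j * gradV g ψ x j) * (e • w) i) := by
      rw [Finset.mul_sum, ← Finset.sum_add_distrib, Finset.mul_sum]
      refine Finset.sum_congr rfl fun i _ => ?_
      rw [c2 i, Real.exp_neg, ← he, PiLp.smul_apply, smul_eq_mul]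
      field_simp
    rw [eT_cf (by omega) (riem_posDef hg x), c1, h6, Real.exp_neg, exp_two, ← he]
    have h7 := mul_le_mul_of_nonneg_right h4 h3
    have h8 := mul_le_mul_of_nonneg_right h5
      (by have : 0 < (n : ℝ) - 1 := by linarith
          positivity : 0 ≤ ((n : ℝ) - 1) * c * ‖x‖ ^ (-(n : ℝ) - e0))
    have h9 := mul_le_mul_of_nonneg_left (add_le_add h1
      (mul_le_mul_of_nonneg_left h2 (by linarith : 0 ≤ (n : ℝ) - 1))) (by positivity : 0 ≤ (e ^ 2)⁻¹)
    nlinarith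
  · -- energy
    filter_upwards [hen.eventually (gt_mem_nhds (show ((n : ℝ) - 1) * unitSphereArea n * En <
      ((n : ℝ) - 1) * unitSphereArea n * En + δ / 2 by linarith)), eventually_ge_atTop 1] with R h1 hR
    have hR0 : 0 < R := by linarith
    have h2 := hfl (eV fun y => u y • g y) R (n * (8 * (C1 * (L + 1))) * η * R ^ (1 - (n : ℝ))) hR0
      (by positivity) (contDiff_eV sug) fun x hx _ i => by
        have hx1 : 1 ≤ ‖x‖ := hR.trans hx
        have hx0 : 0 < ‖x‖ := by linarith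
        refine (jb_eV (j := 0) hx0 sug (fun i l => (ju x hx1 i l).of_le one_le_two) i).abs_le.trans ?_
        have h3 : ‖x‖ ^ (2 - (n : ℝ)) / ‖x‖ ≤ R ^ (1 - (n : ℝ)) := by
          rw [← Real.rpow_sub_one hx0.ne', show 2 - (n : ℝ) - 1 = 1 - n by ring]
          exact Real.rpow_le_rpow_of_nonpos hR0 hx (by linarith)
        calc _ = n * (8 * (C1 * (L + 1))) * η * (‖x‖ ^ (2 - (n : ℝ)) / ‖x‖) := by ring
          _ ≤ _ := by gcongr
    have h3 : R ^ (1 - (n : ℝ)) * R ^ ((n : ℝ) - 1) = 1 := by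
      rw [← Real.rpow_add hR0]; simp
    have h4 : CF * (n * (8 * (C1 * (L + 1))) * η * R ^ (1 - (n : ℝ))) * R ^ ((n : ℝ) - 1) = D * η := by
      rw [hD']; linear_combination CF * (n * (8 * (C1 * (L + 1)))) * η * h3
    rw [h4] at h2
    rw [eg]
    simp only [Lmu_add hk sug, mul_add]
    rw [integral_add (int1 (contDiff_Lmu hk) hR0) (int1 (contDiff_Lmu sug) hR0)]
    have h5 : ∫ x, eta R x * Lmu (fun y => u y • g y) x =
        (∫ x, eta R x * divE (eV fun y => u y • g y) x) / 2 := by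
      rw [← integral_div]; simp only [Lmu, mul_div_assoc]
    rw [h5]
    nlinarith [(abs_le.1 h2).2]
  · -- momentum
    have h1 : Tendsto (fun R : ℝ => ∫ x, eta R x * LJ (fun y => v y • K y) x i) atTop (𝓝 0) := by
      have h2 : Tendsto (fun R : ℝ => CF * ((1 + n) * (2 * C2 * L)) * R ^ (-q)) atTop (𝓝 0) := by
        simpa using (tendsto_rpow_neg_atTop hq0).const_mul (CF * ((1 + n) * (2 * C2 * L)))
      refine squeeze_zero_norm' ?_ h2
      filter_upwards [eventually_ge_atTop 1] with R hR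
      have hR0 : 0 < R := by linarith
      have h3 := hfl (pV (fun y => v y • K y) i) R
        ((1 + n) * (2 * C2 * L) * (R ^ (1 - (n : ℝ)) * R ^ (-q))) hR0 (by positivity)
        (contDiff_pV svK i) fun x hx _ l => by
          have hx1 : 1 ≤ ‖x‖ := hR.trans hx
          have hx0 : 0 < ‖x‖ := by linarith
          refine (jb_pV hx0 svK (jv x hx1) i l).abs_le.trans ?_
          have h3 : ‖x‖ ^ (2 - (n : ℝ)) / ‖x‖ ≤ R ^ (1 - (n : ℝ)) := by
            rw [← Real.rpow_sub_one hx0.ne', show 2 - (n : ℝ) - 1 = 1 - n by ring]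
            exact Real.rpow_le_rpow_of_nonpos hR0 hx (by linarith)
          have h4 : ‖x‖ ^ (-q) ≤ R ^ (-q) := Real.rpow_le_rpow_of_nonpos hR0 hx (by linarith)
          calc _ = (1 + n) * (2 * C2 * L) * (‖x‖ ^ (2 - (n : ℝ)) / ‖x‖ * ‖x‖ ^ (-q)) := by ring
            _ ≤ _ := by gcongr
      have h4 : R ^ (1 - (n : ℝ)) * R ^ ((n : ℝ) - 1) = 1 := by
        rw [← Real.rpow_add hR0]; simp
      refine h3.trans (le_of_eq ?_)
      linear_combination CF * ((1 + n) * (2 * C2 * L)) * R ^ (-q) * h4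
    have h2 := (hmo i).add h1
    rw [add_zero] at h2
    refine h2.congr' ?_
    filter_upwards [eventually_gt_atTop 0] with R hR
    rw [eK]
    simp only [LJ_add hK svK, mul_add]
    rw [integral_add (int1 (contDiff_LJ hK i) hR) (int1 (contDiff_LJ svK i) hR)]

end Crest.Agent.N346.P0

end
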