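import Crest.Agent.N346.P0.Asm
import Crest.Agent.N346.P0.GB
import Crest.Agent.N346.P0.GA
import Crest.Agent.N346.P0.JL
import Crest.Agent.N346.P0.Hom
import Crest.Agent.N346.P0.Newt
import Crest.Agent.N346.P0.Avg
import Crest.Agent.N346.P0.Pert
import Crest.Agent.N346.P0.Stat
import Crest.Agent.N346.P0.STI
import Crest.Agent.N346.P0.SJ
import Crest.Agent.N346.P0.Fac
import Crest.Agent.N346.P0.Strict
import Crest.Agent.N346.P0.Bend
import Crest.Agent.N346.P0.Pull

/-! Row 346, Part 0 (helper11): all leaves plugged in. -/

set_option autoImplicit false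

namespace Crest.Agent.N346.P0

/-- Part 0: from normalised data to good data. -/
theorem p0 : P0Stmt :=
  p0_of boost (strict conf (fac jlap (vv hom)) flbd avg) (ga (newt hom) (vv hom) flbd)
    (GB.gb jl (sti st) (sj jl st (sti st)) pert) (bend (sti st) pert) pull

end Crest.Agent.N346.P0
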