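import Crest.Agent.N346.T.Sphere

/-! Row 346, Part 0.1 (helper66): normalisation of the data, `normU : NormUStmt`,
`normC : NormCStmt`. -/

set_option autoImplicit false
open MeasureTheory Metric Filter Set
open scoped Topology ContDiff
open Crest.GeometryTopology.CoordMetric
open Crest.MathPhysics.ExteriorData

noncomputable section

namespace Crest.Agent.N346

namespace Nrm

variable {n : ℕ}

/-! ### the sign of `K` -/

theorem pderiv_neg (i : Fin n) (f : E n → ℝ) (x : E n) :
    pderiv i (fun y => -f y) x = -pderiv i f x := by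
  simp [pderiv, fderiv_fun_neg]

theorem traceK_neg (g K : MetricField n) (x : E n) : traceK g (fun y => -K y) x = -traceK g K x := by
  simp [traceK]

theorem energyDensity_neg (g K : MetricField n) (x : E n) :
    energyDensity g (fun y => -K y) x = energyDensity g K x := by
  simp [energyDensity, traceK_neg, normSqK]

theorem momentumDensity_neg (g K : MetricField n) (x : E n) (i : Fin n) :
    momentumDensity g (fun y => -K y) x i = -momentumDensity g K x i := by
  have h1 : ∀ k j, covDerivK g (fun y => -K y) x k i j = -covDerivK g K x k i j := fun k j => by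
    simp only [covDerivK, Matrix.neg_apply, pderiv_neg, mul_neg, Finset.sum_neg_distrib]
    ring
  have h2 : traceK g (fun y => -K y) = fun y => -traceK g K y := funext (traceK_neg g K)
  simp only [momentumDensity, h1, h2, pderiv_neg, mul_neg, Finset.sum_neg_distrib]
  ring

theorem pastExpansion_neg (g K : MetricField n) (x : E n) :
    pastExpansion g (fun y => -K y) x = futureExpansion g K x := by
  simp [pastExpansion, futureExpansion, sphereTraceK]

theorem momentumFlux_neg (g K : MetricField n) (R : ℝ) (i : Fin n) :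
    momentumFlux g (fun y => -K y) R i = -momentumFlux g K R i := by
  unfold momentumFlux
  rw [← mul_neg, ← integral_neg]
  congr 2
  funext x
  rw [← Finset.sum_neg_distrib]
  refine Finset.sum_congr rfl fun j _ => ?_
  simp only [traceK_neg, Matrix.neg_apply]
  ring

theorem decaysAt_neg {j : ℕ} {a : ℝ} {f : E n → ℝ} (h : DecaysAt j a f) :
    DecaysAt j a fun x => -f x := by
  intro k hk
  obtain ⟨C, hC⟩ := h k hk
  refine ⟨C, fun x hx => ?_⟩
  have : iteratedFDeriv ℝ k (fun x => -f x) x = -iteratedFDeriv ℝ k f x :=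
    iteratedFDeriv_neg_apply
  rw [this, norm_neg]
  exact hC x hx

theorem decaysAt_bound {j : ℕ} {a : ℝ} {f : E n → ℝ} (h : DecaysAt j a f) :
    ∃ C : ℝ, 0 ≤ C ∧ ∀ x : E n, 1 ≤ ‖x‖ → |f x| ≤ C * ‖x‖ ^ (-a) := by
  obtain ⟨C, hC⟩ := h 0 (Nat.zero_le _)
  refine ⟨max C 0, le_max_right _ _, fun x hx => ?_⟩
  have := hC x hx
  rw [norm_iteratedFDeriv_zero, Real.norm_eq_abs, Nat.cast_zero, sub_zero] at this
  exact this.trans (mul_le_mul_of_nonneg_right (le_max_left _ _) (by positivity))

/-! ### Cauchy–Schwarz for a positive definite matrix -/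

/-- the bilinear form of a matrix -/
def bq (G : Matrix (Fin n) (Fin n) ℝ) (v w : Fin n → ℝ) : ℝ := ∑ i, ∑ j, G i j * v i * w j

theorem bq_eq (G : Matrix (Fin n) (Fin n) ℝ) (v w : Fin n → ℝ) : bq G v w = v ⬝ᵥ G.mulVec w := by
  simp only [bq, dotProduct, Matrix.mulVec, Finset.mul_sum]
  exact Finset.sum_congr rfl fun i _ => Finset.sum_congr rfl fun j _ => by ring

theorem symm_of_posDef {G : Matrix (Fin n) (Fin n) ℝ} (hG : G.PosDef) (i j : Fin n) :
    G i j = G j i := by
  simpa using (hG.isHermitian.apply j i)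

theorem bq_comm {G : Matrix (Fin n) (Fin n) ℝ} (hG : G.PosDef) (v w : Fin n → ℝ) :
    bq G v w = bq G w v := by
  unfold bq
  rw [Finset.sum_comm]
  exact Finset.sum_congr rfl fun i _ => Finset.sum_congr rfl fun j _ => by
    rw [symm_of_posDef hG]; ring

theorem bq_nonneg {G : Matrix (Fin n) (Fin n) ℝ} (hG : G.PosDef) (v : Fin n → ℝ) :
    0 ≤ bq G v v := by
  rw [bq_eq]
  simpa using hG.posSemidef.dotProduct_mulVec_nonneg v

theorem bq_cs {G : Matrix (Fin n) (Fin n) ℝ} (hG : G.PosDef) (v w : Fin n → ℝ) :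
    bq G v w ^ 2 ≤ bq G v v * bq G w w := by
  have h := discrim_le_zero (a := bq G w w) (b := 2 * bq G v w) (c := bq G v v) fun t => by
    have h1 := bq_nonneg hG (v + t • w)
    have h2 := bq_comm hG w v
    simp only [bq_eq, Matrix.mulVec_add, Matrix.mulVec_smul, add_dotProduct, dotProduct_add,
      smul_dotProduct, dotProduct_smul, smul_eq_mul] at h1 h2 ⊢
    rw [h2] at h1
    linarith
  rw [discrim] at h
  linarith

/-- covector–vector Cauchy–Schwarz -/
theorem dot_sq_le {G : Matrix (Fin n) (Fin n) ℝ} (hG : G.PosDef) (J w : Fin n → ℝ) :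
    (J ⬝ᵥ w) ^ 2 ≤ bq G⁻¹ J J * bq G w w := by
  have hu : G.mulVec (G⁻¹.mulVec J) = J := by
    rw [Matrix.mulVec_mulVec, Matrix.mul_nonsing_inv _ (Ne.isUnit hG.det_pos.ne'),
      Matrix.one_mulVec]
  have h := bq_cs hG (G⁻¹.mulVec J) w
  rw [bq_comm hG _ w, bq_eq G w, bq_eq G (G⁻¹.mulVec J), hu, dotProduct_comm w,
    dotProduct_comm _ J, ← bq_eq] at h
  exact h

theorem abs_dot_le {G : Matrix (Fin n) (Fin n) ℝ} (hG : G.PosDef) (J w : Fin n → ℝ)
    (hw : bq G w w ≤ 1) : |J ⬝ᵥ w| ≤ Real.sqrt (bq G⁻¹ J J) :=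
  Real.abs_le_sqrt ((dot_sq_le hG J w).trans
    (mul_le_of_le_one_right (bq_nonneg hG.inv J) hw))

/-- the Gram identity for the cross product -/
theorem gram {G : Matrix (Fin 3) (Fin 3) ℝ} (hG : G.PosDef) (a b : Fin 3 → ℝ) :
    G.det * bq G⁻¹ (crossProduct a b) (crossProduct a b) = bq G a a * bq G b b - bq G a b ^ 2 := by
  have hd := hG.det_pos.ne'
  have h1 : G.det * bq G⁻¹ (crossProduct a b) (crossProduct a b) =
      bq G.adjugate (crossProduct a b) (crossProduct a b) := by
    simp only [bq, Matrix.inv_def, Ring.inverse_eq_inv', Matrix.smul_apply, smul_eq_mul,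
      Finset.mul_sum]
    refine Finset.sum_congr rfl fun i _ => Finset.sum_congr rfl fun j _ => ?_
    field_simp
  rw [h1, Matrix.adjugate_fin_three, cross_apply]
  simp only [bq, Fin.sum_univ_three, Matrix.of_apply, Matrix.cons_val', Matrix.cons_val_zero,
    Matrix.cons_val_one, Matrix.cons_val_two, Matrix.cons_val_fin_one, Matrix.head_cons,
    Matrix.tail_cons, Matrix.head_fin_const, Nat.succ_eq_add_one, Matrix.empty_val']
  rw [symm_of_posDef hG 1 0, symm_of_posDef hG 2 0, symm_of_posDef hG 2 1]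
  ring

theorem cross_le {G : Matrix (Fin 3) (Fin 3) ℝ} (hG : G.PosDef) (w a b : Fin 3 → ℝ) :
    2 * |Real.sqrt G.det * (crossProduct a b ⬝ᵥ w)| ≤
      bq G w w * bq G a a - bq G w a ^ 2 + bq G b b := by
  have hd := hG.det_pos
  have h1 : crossProduct a b ⬝ᵥ w = crossProduct w a ⬝ᵥ b := by
    rw [dotProduct_comm, dotProduct_comm _ b, triple_product_permutation b, 
      triple_product_permutation w]
  have h2 := mul_le_mul_of_nonneg_left (dot_sq_le hG (crossProduct w a) b) hd.le
  rw [← mul_assoc, gram hG] at h2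
  have hA : 0 ≤ bq G w w * bq G a a - bq G w a ^ 2 := sub_nonneg.2 (bq_cs hG w a)
  have hB := bq_nonneg hG b
  set A := bq G w w * bq G a a - bq G w a ^ 2
  have h3 : |Real.sqrt G.det * (crossProduct a b ⬝ᵥ w)| ^ 2 ≤ ((A + bq G b b) / 2) ^ 2 := by
    rw [sq_abs, mul_pow, Real.sq_sqrt hd.le, h1]
    nlinarith [sq_nonneg (A - bq G b b)]
  have h4 := (pow_le_pow_iff_left₀ (abs_nonneg _) (by positivity) two_ne_zero).1 h3
  linarith

/-! ### the volume density -/

theorem contDiff_g {g : MetricField n} (hg : IsRiemannianOn g univ) (i j : Fin n) :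
    ContDiff ℝ ∞ fun x => g x i j := contDiffOn_univ.1 (hg.contDiffOn i j)

theorem vol_pos {g : MetricField n} (hg : IsRiemannianOn g univ) (x : E n) : 0 < volDensity g x :=
  Real.sqrt_pos.2 (hg.posDef x trivial).det_pos

theorem contDiff_vol {g : MetricField n} (hg : IsRiemannianOn g univ) :
    ContDiff ℝ ∞ (volDensity g) := by
  have h : ContDiff ℝ ∞ fun x => (g x).det := by
    simp only [Matrix.det_apply, Units.smul_def, zsmul_eq_mul]
    exact ContDiff.sum fun σ _ => contDiff_const.mul (contDiff_prod fun i _ => contDiff_g hg _ _)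
  exact h.sqrt fun x => (hg.posDef x trivial).det_pos.ne'

theorem vol_bdd {g : MetricField n} {j : ℕ} {q : ℝ} (hq : 0 ≤ q)
    (hd : ∀ a b, DecaysAt j q fun x => g x a b - (1 : Matrix (Fin n) (Fin n) ℝ) a b) :
    ∃ M : ℝ, 0 ≤ M ∧ ∀ x : E n, 1 ≤ ‖x‖ → volDensity g x ≤ M := by
  choose C hC0 hC using fun a b => decaysAt_bound (hd a b)
  set M := 1 + ∑ a, ∑ b, C a b with hM
  refine ⟨Real.sqrt ((Fintype.card (Fin n)).factorial • M ^ Fintype.card (Fin n)),
    Real.sqrt_nonneg _, fun x hx => Real.sqrt_le_sqrt ((le_abs_self _).trans ?_)⟩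
  refine Matrix.det_le (abv := AbsoluteValue.abs) fun a b => ?_
  have h1 := hC a b x hx
  have h2 : ‖x‖ ^ (-q) ≤ 1 := Real.rpow_le_one_of_one_le_of_nonpos hx (by linarith)
  have h3 : C a b ≤ ∑ a, ∑ b, C a b :=
    (Finset.single_le_sum (f := fun b => C a b) (fun b _ => hC0 a b) (Finset.mem_univ b)).trans
      (Finset.single_le_sum (f := fun a => ∑ b, C a b)
        (fun a _ => Finset.sum_nonneg fun b _ => hC0 a b) (Finset.mem_univ a))
  have h4 : |(1 : Matrix (Fin n) (Fin n) ℝ) a b| ≤ 1 := by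
    rw [Matrix.one_apply]; split_ifs <;> simp
  have h5 := mul_le_of_le_one_right (hC0 a b) h2
  have h6 := abs_add_le (g x a b - (1 : Matrix (Fin n) (Fin n) ℝ) a b)
    ((1 : Matrix (Fin n) (Fin n) ℝ) a b)
  rw [sub_add_cancel] at h6
  change |g x a b| ≤ M
  linarith

theorem global_decay {f : E n → ℝ} (hf : Continuous f) {a C : ℝ} (ha : 0 ≤ a) (hC0 : 0 ≤ C)
    (hC : ∀ x : E n, 1 ≤ ‖x‖ → |f x| ≤ C * ‖x‖ ^ (-a)) :
    ∃ C' : ℝ, 0 ≤ C' ∧ ∀ x : E n, |f x| ≤ C' * (1 + ‖x‖) ^ (-a) := by
  obtain ⟨M, hM⟩ := (isCompact_closedBall (0 : E n) 1).exists_bound_of_continuousOn hf.continuousOn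
  have hM0 : 0 ≤ M := (norm_nonneg _).trans (hM 0 (mem_closedBall_self zero_le_one))
  have key : ∀ r s : ℝ, 0 < r → 0 < s → s ≤ 2 * r → r ^ (-a) ≤ 2 ^ a * s ^ (-a) := by
    intro r s hr hs h
    have h1 : (2 * r) ^ (-a) ≤ s ^ (-a) := Real.rpow_le_rpow_of_nonpos hs h (by linarith)
    rw [Real.mul_rpow (by norm_num) hr.le, Real.rpow_neg (by norm_num)] at h1
    have h2 : (0 : ℝ) < 2 ^ a := by positivity
    rwa [inv_mul_le_iff₀ h2] at h1
  refine ⟨(C + M) * 2 ^ a, by positivity, fun x => ?_⟩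
  have hx0 := norm_nonneg x
  rcases le_total 1 ‖x‖ with h | h
  · have h1 := key ‖x‖ (1 + ‖x‖) (by linarith) (by linarith) (by linarith)
    calc |f x| ≤ C * ‖x‖ ^ (-a) := hC x h
      _ ≤ (C + M) * (2 ^ a * (1 + ‖x‖) ^ (-a)) := by gcongr; linarith
      _ = _ := by ring
  · have h1 := key 1 (1 + ‖x‖) one_pos (by linarith) (by linarith)
    rw [Real.one_rpow] at h1
    calc |f x| ≤ M * 1 := by rw [mul_one]; exact hM x (mem_closedBall_zero_iff.2 h)
      _ ≤ (C + M) * (2 ^ a * (1 + ‖x‖) ^ (-a)) := by gcongr; linarith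
      _ = _ := by ring

/-! ### the charge -/

theorem continuous_divE {X : VectorField n} (hX : ∀ i, ContDiff ℝ 1 fun x => X x i) :
    Continuous (divE X) := continuous_finsetSum _ fun i _ => T.continuous_pderiv (hX i) i

theorem integrable_divE {X : VectorField n} (hX : ∀ i, ContDiff ℝ 1 fun x => X x i)
    (h0 : ∀ x : E n, 1 ≤ ‖x‖ → divE X x = 0) : Integrable (divE X) :=
  (continuous_divE hX).integrable_of_hasCompactSupport
    (HasCompactSupport.intro (isCompact_closedBall (0 : E n) 1) fun x hx =>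
      h0 x (not_le.1 (mt mem_closedBall_zero_iff.2 hx)).le)

theorem divE_of_gDiv {g : MetricField n} (hg : IsRiemannianOn g univ) {V : VectorField n} {x : E n}
    (h : gDiv g V x = 0) : divE (fun y i => volDensity g y * V y i) x = 0 :=
  (div_eq_zero_iff.1 h).resolve_right (vol_pos hg x).ne'

theorem charge_of_flux (hn : 2 ≤ n) {g : MetricField n} (hg : IsRiemannianOn g univ)
    {V : VectorField n} (hV : ∀ i, ContDiff ℝ ∞ fun x => V x i)
    (h0 : ∀ x ∈ exteriorRegion n, gDiv g V x = 0) {Q : ℝ}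
    (hQ : Tendsto (chargeFlux g V) atTop (𝓝 Q)) :
    ∫ x, divE (fun y i => volDensity g y * V y i) x = unitSphereArea n * Q := by
  have hω := T.unitSphereArea_pos (n := n) (by omega)
  set X : VectorField n := fun y i => volDensity g y * V y i with hX
  have hXs : ∀ i, ContDiff ℝ 1 fun x => X x i := fun i =>
    ((contDiff_vol hg).mul (hV i)).of_le (by exact_mod_cast le_top)
  have h1 : ∀ R : ℝ, 1 ≤ R → unitSphereArea n * chargeFlux g V R = ∫ x, divE X x := by
    intro R hR
    rw [← setIntegral_eq_integral_of_forall_compl_eq_zero (s := closedBall 0 R) (fun x hx =>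
      divE_of_gDiv hg (h0 x (hR.trans (not_le.1 (mt mem_closedBall_zero_iff.2 hx)).le))),
      T.div_ball hn X hXs (by linarith), chargeFlux, ← mul_assoc, mul_one_div_cancel hω.ne',
      one_mul]
    simp only [hX, Finset.mul_sum, mul_assoc]
  refine tendsto_nhds_unique (tendsto_const_nhds.congr' ?_) (hQ.const_mul _)
  filter_upwards [eventually_ge_atTop 1] with R hR
  exact (h1 R hR).symm

theorem divE_lin {X Y : VectorField n} (hX : ∀ i, ContDiff ℝ 1 fun x => X x i)
    (hY : ∀ i, ContDiff ℝ 1 fun x => Y x i) (c s : ℝ) (x : E n) :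
    divE (fun y i => c * X y i + s * Y y i) x = c * divE X x + s * divE Y x := by
  simp only [divE, Finset.mul_sum, ← Finset.sum_add_distrib]
  refine Finset.sum_congr rfl fun i _ => ?_
  have h1 := ((hX i).differentiable one_ne_zero x).hasFDerivAt
  have h2 := ((hY i).differentiable one_ne_zero x).hasFDerivAt
  simp only [pderiv]
  rw [((h1.const_mul c).fun_add (h2.const_mul s)).fderiv]
  simp

theorem exists_rot (a b : ℝ) :
    ∃ c s : ℝ, c ^ 2 + s ^ 2 = 1 ∧ c * a + s * b = Real.sqrt (a ^ 2 + b ^ 2) := by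
  rcases (show 0 ≤ a ^ 2 + b ^ 2 by positivity).eq_or_lt with h | h
  · have ha : a = 0 := by nlinarith [sq_nonneg a, sq_nonneg b]
    exact ⟨1, 0, by norm_num, by rw [← h, ha]; simp⟩
  · have h1 := Real.sqrt_pos.2 h
    have h2 := Real.sq_sqrt h.le
    refine ⟨a / Real.sqrt (a ^ 2 + b ^ 2), b / Real.sqrt (a ^ 2 + b ^ 2), ?_, ?_⟩
    · rw [div_pow, div_pow, h2, ← add_div, div_self h.ne']
    · field_simp
      linarith

/-- the charged energy condition for either sign of `K` -/
theorem dece {g K K' : MetricField 3} (hg : IsRiemannianOn g univ) {Ef B : VectorField 3}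
    {x : E 3} (h : chargedMomentumNorm g K Ef B x ≤ chargedEnergyDensity g K Ef B x) {σ : ℝ}
    (hσ : |σ| = 1) (h1 : energyDensity g K' x = energyDensity g K x)
    (h2 : ∀ i, momentumDensity g K' x i = σ * momentumDensity g K x i) {c s : ℝ}
    (hcs : c ^ 2 + s ^ 2 = 1) :
    DECE g K' (fun y i => c * (volDensity g y * Ef y i) + s * (volDensity g y * B y i)) 0 x := by
  intro w hw
  have hG := hg.posDef x trivial
  have hd := hG.det_pos
  have hv := vol_pos hg x
  have hv2 : volDensity g x ^ 2 = (g x).det := Real.sq_sqrt hd.le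
  set a : Fin 3 → ℝ := c • Ef x + s • B x with ha
  set b : Fin 3 → ℝ := (-s) • Ef x + c • B x with hb
  have e1 : eSq g (fun y i => c * (volDensity g y * Ef y i) + s * (volDensity g y * B y i)) x =
      bq (g x) a a := by
    rw [eSq, div_eq_iff hd.ne', ← hv2]
    simp only [vecNormSq, bq, ha, Finset.sum_mul, Pi.add_apply, Pi.smul_apply, smul_eq_mul]
    exact Finset.sum_congr rfl fun i _ => Finset.sum_congr rfl fun j _ => by ring
  have e2 : eDot g (fun y i => c * (volDensity g y * Ef y i) + s * (volDensity g y * B y i)) x w =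
      bq (g x) w a := by
    rw [eDot, div_eq_iff hv.ne']
    simp only [bq, ha, Finset.sum_mul, Pi.add_apply, Pi.smul_apply, smul_eq_mul]
    exact Finset.sum_congr rfl fun i _ => Finset.sum_congr rfl fun j _ => by ring
  have e3 : bq (g x) a a + bq (g x) b b = vecNormSq g Ef x + vecNormSq g B x := by
    simp only [vecNormSq, bq, ha, hb, Pi.add_apply, Pi.smul_apply, smul_eq_mul,
      ← Finset.sum_add_distrib]
    exact Finset.sum_congr rfl fun i _ => Finset.sum_congr rfl fun j _ => by
      linear_combination (g x i j * Ef x i * Ef x j + g x i j * B x i * B x j) * hcs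
  have e4 : crossProduct a b = crossProduct (Ef x) (B x) := by
    simp only [ha, hb, map_add, map_smul, LinearMap.add_apply, LinearMap.smul_apply, cross_self,
      ← cross_anticomm (Ef x) (B x), smul_zero, smul_neg]
    rw [zero_add, add_zero, ← neg_smul, smul_smul, smul_smul, ← add_smul,
      show -s * -s + c * c = 1 by linarith, one_smul]
  have e5 : ∑ i, momentumDensity g K' x i * w i =
      σ * (chargedMomentumDensity g K Ef B x ⬝ᵥ w) +
        σ * (2 * (Real.sqrt (g x).det * (crossProduct a b ⬝ᵥ w))) := by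
    simp only [e4, h2, dotProduct, chargedMomentumDensity, crossLower, volDensity, Finset.mul_sum,
      ← Finset.sum_add_distrib]
    exact Finset.sum_congr rfl fun i _ => by ring
  have h3 := abs_dot_le hG (chargedMomentumDensity g K Ef B x) w hw
  have h4 := cross_le hG w a b
  have h5 := le_abs_self (σ * (chargedMomentumDensity g K Ef B x ⬝ᵥ w))
  have h6 := le_abs_self (σ * (2 * (Real.sqrt (g x).det * (crossProduct a b ⬝ᵥ w))))
  rw [abs_mul, hσ, one_mul] at h5 h6
  rw [abs_mul, abs_two] at h6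
  have h7 : Real.sqrt (bq (g x)⁻¹ (chargedMomentumDensity g K Ef B x)
      (chargedMomentumDensity g K Ef B x)) ≤
      energyDensity g K x - (vecNormSq g Ef x + vecNormSq g B x) := h
  have e6 : quadForm g x w = bq (g x) w w := rfl
  rw [e1, e2, e5, h1, e6]
  nlinarith

end Nrm

open Nrm

theorem normU : NormUStmt := by
  intro n hn q hq g K hg hK hKs hgd hKd hdec htr En P hE hP
  have hdiv : ∀ x : E n, divE (fun _ _ => 0) x = 0 := fun x => by simp [divE, pderiv]
  refine ⟨hq, hg, fun i j => (hK i j).neg, fun x i j => by simp [hKs x i j], hgd,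
    fun i j => decaysAt_neg (hKd i j), fun i => contDiff_const, ⟨0, fun x i => by simp⟩,
    fun x _ => hdiv x, by simp [hdiv], fun x hx w hw => ?_,
    fun x hx => by rw [pastExpansion_neg]; exact htr x hx, hE, fun i => ?_⟩
  · have h1 := abs_dot_le (hg.posDef x trivial) (momentumDensity g K x) w hw
    have h2 : Real.sqrt (bq (g x)⁻¹ (momentumDensity g K x) (momentumDensity g K x)) ≤
      energyDensity g K x := hdec x hx
    have h3 := neg_abs_le (momentumDensity g K x ⬝ᵥ w)
    simp only [eSq, eDot, vecNormSq, energyDensity_neg, momentumDensity_neg, mul_zero,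
      Finset.sum_const_zero, zero_div, neg_mul, Finset.sum_neg_distrib]
    simp only [dotProduct] at h1 h3
    linarith
  · simp only [momentumFlux_neg, PiLp.neg_apply]
    exact (hP i).neg

theorem normC : NormCStmt := by
  intro q hq g K hg hK hKs Ef B hEs hBs hgd hKd hEd hBd hE0 hB0 hdec htr En P QE QB hE hP hQE hQB
  obtain ⟨c, s, hcs, hQ⟩ := exists_rot QE QB
  set X : VectorField 3 := fun y i => volDensity g y * Ef y i with hX
  set Y : VectorField 3 := fun y i => volDensity g y * B y i with hY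
  have hXs : ∀ i, ContDiff ℝ ∞ fun x => X x i := fun i => (contDiff_vol hg).mul (hEs i)
  have hYs : ∀ i, ContDiff ℝ ∞ fun x => Y x i := fun i => (contDiff_vol hg).mul (hBs i)
  have hX1 : ∀ i, ContDiff ℝ 1 fun x => X x i := fun i => (hXs i).of_le (by exact_mod_cast le_top)
  have hY1 : ∀ i, ContDiff ℝ 1 fun x => Y x i := fun i => (hYs i).of_le (by exact_mod_cast le_top)
  have hX0 : ∀ x : E 3, 1 ≤ ‖x‖ → divE X x = 0 := fun x hx => divE_of_gDiv hg (hE0 x hx)
  have hY0 : ∀ x : E 3, 1 ≤ ‖x‖ → divE Y x = 0 := fun x hx => divE_of_gDiv hg (hB0 x hx)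
  set EE : VectorField 3 := fun y i => c * X y i + s * Y y i with hEE
  have hsm : ∀ i, ContDiff ℝ ∞ fun x => EE x i := fun i =>
    (contDiff_const.mul (hXs i)).add (contDiff_const.mul (hYs i))
  have hdec' : ∃ C : ℝ, ∀ x i, |EE x i| ≤ C * (1 + ‖x‖) ^ (1 - ((3 : ℕ) : ℝ)) := by
    obtain ⟨M, hM0, hM⟩ := vol_bdd (by linarith : 0 ≤ q) hgd
    have h1 : ∀ i, ∃ C : ℝ, 0 ≤ C ∧ ∀ x : E 3, |EE x i| ≤ C * (1 + ‖x‖) ^ (-2 : ℝ) := fun i => by
      obtain ⟨C₁, h10, h1⟩ := decaysAt_bound (hEd i)
      obtain ⟨C₂, h20, h2⟩ := decaysAt_bound (hBd i)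
      refine global_decay (hsm i).continuous (by norm_num) (C := |c| * (M * C₁) + |s| * (M * C₂))
        (by positivity) fun x hx => ?_
      have hv := (vol_pos hg x).le
      calc |EE x i| ≤ |c| * (volDensity g x * |Ef x i|) + |s| * (volDensity g x * |B x i|) := by
            refine (abs_add_le _ _).trans (le_of_eq ?_)
            simp only [hX, hY, abs_mul, abs_of_nonneg hv]
        _ ≤ |c| * (M * (C₁ * ‖x‖ ^ (-2 : ℝ))) + |s| * (M * (C₂ * ‖x‖ ^ (-2 : ℝ))) := by
            gcongr
            exacts [hM x hx, h1 x hx, hM x hx, h2 x hx]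
        _ = _ := by ring
    choose C hC0 hC using h1
    refine ⟨∑ i, C i, fun x i => ?_⟩
    rw [show (1 : ℝ) - ((3 : ℕ) : ℝ) = -2 by norm_num]
    exact (hC i x).trans (mul_le_mul_of_nonneg_right
      (Finset.single_le_sum (fun i _ => hC0 i) (Finset.mem_univ i)) (by positivity))
  have hdiv : ∀ x : E 3, 1 ≤ ‖x‖ → divE EE x = 0 := fun x hx => by
    rw [hEE, divE_lin hX1 hY1, hX0 x hx, hY0 x hx]; simp
  have hch : ∫ x, divE EE x = unitSphereArea 3 * Real.sqrt (QE ^ 2 + QB ^ 2) := by
    simp only [hEE, divE_lin hX1 hY1]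
    rw [integral_add ((integrable_divE hX1 hX0).const_mul c) ((integrable_divE hY1 hY0).const_mul s),
      integral_const_mul, integral_const_mul, charge_of_flux (by norm_num) hg hEs hE0 hQE,
      charge_of_flux (by norm_num) hg hBs hB0 hQB, ← hQ]
    ring
  have hq' : (((3 : ℕ) : ℝ) - 2) / 2 < q := by norm_num; linarith
  rcases htr with htr | htr
  · refine ⟨fun x => -K x, EE, -P, norm_neg P, hq', hg, fun i j => (hK i j).neg,
      fun x i j => by simp [hKs x i j], hgd, fun i j => decaysAt_neg (hKd i j), hsm, hdec', hdiv,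
      hch, fun x hx => dece hg (hdec x hx) (σ := -1) (by simp) (energyDensity_neg g K x)
        (fun i => by rw [momentumDensity_neg]; ring) hcs,
      fun x hx => by rw [pastExpansion_neg]; exact htr x hx, hE, fun i => ?_⟩
    simp only [momentumFlux_neg, PiLp.neg_apply]
    exact (hP i).neg
  · exact ⟨K, EE, P, rfl, hq', hg, hK, hKs, hgd, hKd, hsm, hdec', hdiv, hch,
      fun x hx => dece hg (hdec x hx) (σ := 1) (by simp) rfl (fun i => by ring) hcs, htr, hE, hP⟩

end Crest.Agent.N346

end
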