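import Crest.Agent.N346.P0.Lin

/-! Row 346, Part 0 (helper11): assembly of `P0Stmt` from the steps. -/

set_option autoImplicit false
open MeasureTheory Filter Topology Matrix
open scoped ContDiff
open Crest.GeometryTopology.CoordMetric
open Crest.MathPhysics.ExteriorData

noncomputable section

namespace Crest.Agent.N346.P0

theorem Mid.mono_area {n : ℕ} {e0 m A A' Q : ℝ} {B : Matrix (Fin n) (Fin n) ℝ} {f : E n → ℝ}
    {g K : MetricField n} {EE : VectorField n} {ψ : E n → ℝ} {R1 C c0 θ0 r1 β : ℝ}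
    (h : Mid n e0 m A Q B f g K EE ψ R1 C c0 θ0 r1 β) (hA : A' ≤ A) :
    Mid n e0 m A' Q B f g K EE ψ R1 C c0 θ0 r1 β :=
  { h with area := h.area.mono_area hA }

theorem p0_of (hBo : BoostStmt) (hS : StrictStmt) (hA : GAStmt) (hB : GBStmt) (hBe : BendStmt)
    (hP : PullStmt) : P0Stmt := by
  intro n hn q0 g K EE En P Q A hD hA0 hBV E' hE hPE ε hε
  have hn' : (3 : ℝ) ≤ n := by exact_mod_cast hn
  have hq0 := hD.q_gt
  set q := min q0 (3 * ((n : ℝ) - 2) / 4) with hq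
  have hq1 : ((n : ℝ) - 2) / 2 < q := lt_min hq0 (by linarith)
  have hq2 : q ≤ 3 * ((n : ℝ) - 2) / 4 := min_le_right _ _
  set e0 := min (1 / 2) (q - ((n : ℝ) - 2) / 2) with he0
  have he1 : 0 < e0 := lt_min (by norm_num) (by linarith)
  have he2 : e0 ≤ 1 / 2 := min_le_left _ _
  have he3 : e0 ≤ q - ((n : ℝ) - 2) / 2 := min_le_right _ _
  have hX : Expo n q e0 := ⟨hn, hq1, by linarith, he1, by linarith, by linarith⟩
  obtain ⟨g1, K1, Λ, c0, θ0, r1, h1⟩ := hS n q e0 hX q0 g K EE En P Q A (min_le_left _ _) hD hBV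
    ((En + E') / 2) (by linarith)
  have hE0 : 0 < E' := (norm_nonneg P).trans_lt hPE
  have hw : ‖E'⁻¹ • P‖ < 1 := by
    rw [norm_smul, norm_inv, Real.norm_of_nonneg hE0.le, inv_mul_lt_iff₀ hE0]; simpa using hPE
  obtain ⟨ξ, g0, B, hb⟩ := hBo n _ hw
  obtain ⟨β0, hβ0, hbend⟩ := hBe n hn _ ξ g0 B hb
  obtain ⟨C, c1, hC, hc1, hlin⟩ := hA n q e0 hX g1 K1 EE _ P Q A Λ c0 θ0 r1 h1 E' _ ξ g0 B
    (by linarith) (by rw [smul_smul, mul_inv_cancel₀ hE0.ne', one_smul]) hb (2 * Λ)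
    (by linarith [h1.Λ_ge])
  set ε' := min ε 1 / 2 with hε'
  have hε1 : 0 < ε' := by have := lt_min hε one_pos; positivity
  have hε2 : 2 * ε' ≤ ε := by have := min_le_left ε 1; linarith
  have hε3 : ε' ≤ 1 / 2 := by have := min_le_right ε 1; linarith
  obtain ⟨η, hη, hgb⟩ := hB n q e0 hX g1 K1 EE _ P Q A Λ c0 θ0 r1 h1 hA0 _ ξ g0 B hb C c1 β0 ε'
    hC hc1 hβ0 hε1
  obtain ⟨R, hR1, hR2⟩ := ((hlin (min η ε) (lt_min hη hε)).and hgb).exists
  obtain ⟨ψ, T, s2, R1, C', c', hL⟩ := hR1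
  have hm : E' / g0 + min η ε ≤ √(E' ^ 2 - ‖P‖ ^ 2) + ε := by
    refine add_le_add (Real.le_sqrt_of_sq_le (le_of_eq ?_)) (min_le_right _ _)
    have h2 := hb.g0_sq
    have h3 := hb.g0_pos
    rw [norm_smul, norm_inv, Real.norm_of_nonneg hE0.le] at h2
    field_simp at h2 ⊢
    linarith
  have hL' : LinOut n q e0 g1 K1 (E'⁻¹ • P) g0 B (√(E' ^ 2 - ‖P‖ ^ 2) + ε) (2 * Λ) C c1 η R ψ T s2
      R1 C' c' :=
    { hL with
      far := hL.far.mono le_rfl le_rfl le_rfl hm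
      key := fun x hx v hv => le_trans (by
        have := min_le_left η ε
        gcongr) (hL.key x hx v hv) }
  obtain ⟨g2, K2, C2, c2, h2⟩ := hR2 _ ψ T s2 R1 C' c' hL'
  have he4 : e0 < (n : ℝ) - 2 := by linarith
  obtain ⟨g3, K3, R3, c3, h3⟩ := hbend e0 _ _ Q g2 K2 EE ψ R1 C2 c2 θ0 r1 he1 he4
    (mul_nonneg (by linarith) hA0) h2 ε' hε1
  obtain ⟨g4, K4, EE4, s, R0, C4, c4, h4⟩ := hP n hn B hb.det_ne e0 _ ((1 - ε) * A) Q g3 K3 EE ψ R3
    C2 c3 θ0 r1 β0 he1 he4 (h3.mono_area (by nlinarith [mul_nonneg (sq_nonneg ε') hA0]))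
  exact ⟨g4, K4, EE4, ψ, s, R0, C4, c4, e0, θ0, r1, h4⟩

end Crest.Agent.N346.P0

end
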