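import Crest.Agent.N346.Basic2
import Crest.Agent.N346.Id.Defs

/-!
Row 346, Part 0 (lieutenant helper11): FROZEN definitions and leaf statements for `P0Stmt`.

`Data --StrictStmt--> Strict --GAStmt, GBStmt--> Mid (f = ξ·x) --BendStmt--> Mid (f = 0)
 --PullStmt--> Good`.  See the team note "helper11: P0 lemma level".
-/

set_option autoImplicit false
open MeasureTheory Filter Topology Matrix
open scoped ContDiff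
open Crest.GeometryTopology.CoordMetric
open Crest.MathPhysics.ExteriorData

noncomputable section

namespace Crest.Agent.N346.P0

variable {n : ℕ}

/-! ### jets, linearised constraints -/

/-- Jet bound at the point `x`, scale `r`, size `a`: `‖Dᵏ f x‖ ≤ a / rᵏ` for `k ≤ j`. -/
def Jb (j : ℕ) (f : E n → ℝ) (x : E n) (r a : ℝ) : Prop :=
  ∀ k : ℕ, k ≤ j → ‖iteratedFDeriv ℝ k f x‖ ≤ a / r ^ k

/-- Jet bound for a pair (metric perturbation, second fundamental form). -/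
def JB (k K : MetricField n) (x : E n) (r a : ℝ) : Prop :=
  (∀ i j, Jb 2 (fun y => k y i j) x r a) ∧ ∀ i j, Jb 1 (fun y => K y i j) x r (a / r)

/-- smooth matrix field -/
def Sm (T : MetricField n) : Prop := ∀ i j, ContDiff ℝ ∞ fun x => T x i j

/-- symmetric matrix field -/
def Sy (T : MetricField n) : Prop := ∀ x i j, T x i j = T x j i

/-- lower ellipticity bound at a point -/
def Lo (Λ : ℝ) (g : MetricField n) (x : E n) : Prop := ∀ v, Λ⁻¹ * ‖v‖ ^ 2 ≤ quadForm g x v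

/-- the ADM energy vector `∂ⱼ kᵢⱼ - ∂ᵢ kⱼⱼ` -/
def eV (k : MetricField n) : VectorField n :=
  fun x i => ∑ j, (pderiv j (fun y => k y i j) x - pderiv i (fun y => k y j j) x)

/-- linearised energy density -/
def Lmu (k : MetricField n) (x : E n) : ℝ := divE (eV k) x / 2

/-- the flat momentum tensor `Kᵢⱼ - (tr K) δᵢⱼ`, row `i` -/
def pV (K : MetricField n) (i : Fin n) : VectorField n :=
  fun x j => K x i j - (∑ a, K x a a) * (1 : Matrix (Fin n) (Fin n) ℝ) i j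

/-- linearised momentum density -/
def LJ (K : MetricField n) (x : E n) (i : Fin n) : ℝ := divE (pV K i) x

/-- the electric term of `DECE` -/
def eT (g : MetricField n) (EE : VectorField n) (x v : E n) : ℝ :=
  (1 - quadForm g x v) * eSq g EE x + eDot g EE x v ^ 2

/-- `(τ² + |y|²)^(-p)` -/
def br (τ p : ℝ) (y : E n) : ℝ := (τ ^ 2 + ‖y‖ ^ 2) ^ (-p)

/-- explicit superharmonic function at scale `R` -/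
def VV (e0 R : ℝ) (y : E n) : ℝ :=
  2 * (((n : ℝ) - 2 + e0) / ((n : ℝ) - 2)) * R ^ (-e0) * br R (((n : ℝ) - 2) / 2) y
    - br R (((n : ℝ) - 2 + e0) / 2) y

/-- the linear map of a matrix -/
abbrev lin (B : Matrix (Fin n) (Fin n) ℝ) : E n →L[ℝ] E n := Matrix.toEuclideanCLM (𝕜 := ℝ) B

/-- constant coefficient Laplacian `Hⁱʲ ∂ᵢ ∂ⱼ c` -/
def bl (H : Matrix (Fin n) (Fin n) ℝ) (c : E n → ℝ) (x : E n) : ℝ :=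
  ∑ i, ∑ j, H i j * pderiv i (pderiv j c) x

/-- the linear function `ξ · x` -/
def dotF (ξ : E n) (x : E n) : ℝ := ∑ i, ξ i * x i

/-- the lapse `φ = exp (-(n-2) c)` -/
def ph (c : E n → ℝ) (x : E n) : ℝ := Real.exp (-((n : ℝ) - 2) * c x)

/-- induced metric of the graph `t = f` in the static spacetime `-φ² dt² + e^{2c} b` -/
def gS (b : Matrix (Fin n) (Fin n) ℝ) (c f : E n → ℝ) : MetricField n :=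
  fun x => Real.exp (2 * c x) • b - Id.XX (ph c) f x

/-- second fundamental form of that graph -/
def KS (b : Matrix (Fin n) (Fin n) ℝ) (c f : E n → ℝ) : MetricField n :=
  Id.hh (gS b c f) (ph c) f

/-- Boost data for the velocity `w`. -/
structure Boost (w ξ : E n) (g0 : ℝ) (B : Matrix (Fin n) (Fin n) ℝ) : Prop where
  w_lt : ‖w‖ < 1
  g0_ge : 1 ≤ g0
  g0_sq : g0 ^ 2 * (1 - ‖w‖ ^ 2) = 1
  ξ_eq : ξ = g0 • w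
  BtB : Bᵀ * B = 1 + vecMulVec ξ.ofLp ξ.ofLp
  BtB_inv : (Bᵀ * B)⁻¹ = 1 - vecMulVec w.ofLp w.ofLp
  det : B.det = g0
  lo : ∀ x, ‖x‖ ≤ ‖lin B x‖
  hi : ∀ x, ‖lin B x‖ ≤ g0 * ‖x‖

/-- admissible exponents -/
structure Expo (n : ℕ) (q e0 : ℝ) : Prop where
  n_ge : 3 ≤ n
  q_gt : ((n : ℝ) - 2) / 2 < q
  q_lt : q < (n : ℝ) - 2
  e0_pos : 0 < e0
  e0_lt : e0 < 2 * q - ((n : ℝ) - 2)
  e0_lt_one : e0 < 1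

/-! ### intermediate data -/

/-- After step 0.2: strict energy condition, strictly trapped shell, averaged fluxes. -/
structure Strict (n : ℕ) (q e0 : ℝ) (g K : MetricField n) (EE : VectorField n) (E1 : ℝ) (P : E n)
    (Q A Λ c0 θ0 r1 : ℝ) : Prop where
  Λ_ge : 1 ≤ Λ
  c0_pos : 0 < c0
  θ0_pos : 0 < θ0
  r1_gt : 1 < r1
  r1_lt : r1 < 2
  riem : IsRiemannianOn g Set.univ
  K_smooth : Sm K
  K_symm : Sy K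
  g_lo : ∀ x, Lo Λ g x
  decay : ∀ x : E n, 1 ≤ ‖x‖ → JB (fun y => g y - 1) K x ‖x‖ (Λ * ‖x‖ ^ (-q))
  EE_smooth : ∀ i, ContDiff ℝ ∞ fun x => EE x i
  EE_decay : ∀ x i, |EE x i| ≤ Λ * (1 + ‖x‖) ^ (1 - (n : ℝ))
  EE_div : ∀ x : E n, 1 ≤ ‖x‖ → divE EE x = 0
  charge : ∫ x, divE EE x = unitSphereArea n * Q
  dec : ∀ x : E n, 1 ≤ ‖x‖ → DECE g K EE (c0 * ‖x‖ ^ (-(n : ℝ) - e0)) x
  trap : ∀ x : E n, 1 ≤ ‖x‖ ^ 2 → ‖x‖ ^ 2 ≤ r1 → levelExp g K (fun y => ‖y‖ ^ 2) x ≤ -θ0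
  energy : ∀ᶠ R in atTop,
    ∫ x, eta R x * Lmu (fun y => g y - 1) x ≤ ((n : ℝ) - 1) * unitSphereArea n * E1
  momentum : ∀ i, Tendsto (fun R => ∫ x, eta R x * LJ K x i) atTop
    (𝓝 (((n : ℝ) - 1) * unitSphereArea n * P i))
  area : BV g (Metric.closedBall 0 1) A

/-- The far-field function `ψ` (it lives in the coordinates `y = B x`). -/
structure Far (n : ℕ) (e0 m : ℝ) (ψ : E n → ℝ) (R1 C c0 : ℝ) : Prop where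
  smooth : ContDiff ℝ ∞ ψ
  decay : ∀ k : ℕ, k ≤ 2 → ∀ y,
    ‖iteratedFDeriv ℝ k ψ y‖ ≤ C * (1 + ‖y‖) ^ (2 - (n : ℝ) - (k : ℝ))
  bdd : ∀ k : ℕ, ∃ D : ℝ, ∀ y, ‖iteratedFDeriv ℝ k ψ y‖ ≤ D
  lap_le : ∀ y, |lap ψ y| ≤ C * (1 + ‖y‖) ^ (-(n : ℝ) - e0)
  lap_pos : ∀ y : E n, R1 ≤ ‖y‖ → c0 * ‖y‖ ^ (-(n : ℝ) - e0) ≤ -lap ψ y
  mass : -∫ y, lap ψ y ≤ unitSphereArea n * m

/-- Output of the linear step at scale `R` (`C`, `c1` do not depend on `R`; `R1`, `C'`, `c'` do). -/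
structure LinOut (n : ℕ) (q e0 : ℝ) (g K : MetricField n) (w : E n) (g0 : ℝ)
    (B : Matrix (Fin n) (Fin n) ℝ) (m Λ' C c1 η R : ℝ) (ψ : E n → ℝ) (T : MetricField n)
    (s2 : E n → ℝ) (R1 C' c' : ℝ) : Prop where
  far : Far n e0 m ψ R1 C' c'
  c'_pos : 0 < c'
  ψ_jet : ∀ k : ℕ, k ≤ 2 → ∀ y, ‖iteratedFDeriv ℝ k ψ y‖ ≤ C * (R + ‖y‖) ^ (-q - (k : ℝ))
  T_smooth : Sm T
  T_symm : Sy T
  T_jet : ∀ i j, ∀ k : ℕ, k ≤ 1 → ∀ x,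
    ‖iteratedFDeriv ℝ k (fun y => T y i j) x‖ ≤ C * (R + ‖x‖) ^ (-q - 1 - (k : ℝ))
  R1_ge : 2 * R ≤ R1
  T_far : ∀ x, R1 ≤ ‖x‖ → T x = 0
  s2_nonneg : ∀ x, 0 ≤ s2 x
  s2_le : ∀ x, s2 x ≤ C * (R + ‖x‖) ^ (-q - 2)
  s2_ge : ∀ x : E n, R ≤ ‖x‖ → c1 * ‖x‖ ^ (-(n : ℝ) - e0) ≤ s2 x
  key : ∀ x : E n, 1 ≤ ‖x‖ → ∀ v : E n, ‖v‖ ≤ Λ' →
    s2 x * (1 - dotF w v) - η * ‖x‖ ^ (-(n : ℝ) - e0) ≤
      (Lmu (fun y => eta R y • (g y - 1)) x - eta R x * Lmu (fun y => g y - 1) x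
        - ((n : ℝ) - 1) * g0 ^ 2 * lap ψ (lin B x))
      - ∑ i, (LJ (fun y => eta R y • K y) x i - eta R x * LJ K x i
        - w i * (((n : ℝ) - 1) * g0 ^ 2 * lap ψ (lin B x)) + LJ T x i) * v i

/-- Data that agree with the static graph data `(gS, KS) (BᵀB, ψ ∘ B, f)` outside `B(0, R1)`. -/
structure Mid (n : ℕ) (e0 m A Q : ℝ) (B : Matrix (Fin n) (Fin n) ℝ) (f : E n → ℝ)
    (g K : MetricField n) (EE : VectorField n) (ψ : E n → ℝ) (R1 C c0 θ0 r1 β : ℝ) : Prop where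
  R1_ge : 2 ≤ R1
  c0_pos : 0 < c0
  θ0_pos : 0 < θ0
  r1_gt : 1 < r1
  r1_lt : r1 < 2
  riem : IsRiemannianOn g Set.univ
  K_smooth : Sm K
  K_symm : Sy K
  far : Far n e0 m ψ R1 C c0
  ψ_small : ∀ y, |ψ y| ≤ β
  g_far : ∀ x, R1 ≤ ‖x‖ → g x = gS (Bᵀ * B) (fun y => ψ (lin B y)) f x
  K_far : ∀ x, R1 ≤ ‖x‖ → K x = KS (Bᵀ * B) (fun y => ψ (lin B y)) f x
  EE_smooth : ∀ i, ContDiff ℝ ∞ fun x => EE x i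
  EE_decay : ∀ x i, |EE x i| ≤ C * (1 + ‖x‖) ^ (1 - (n : ℝ))
  EE_div : ∀ x : E n, 1 ≤ ‖x‖ → divE EE x = 0
  charge : ∫ x, divE EE x = unitSphereArea n * Q
  dec : ∀ x : E n, 1 ≤ ‖x‖ → DECE g K EE (c0 * ‖x‖ ^ (-(n : ℝ) - e0)) x
  trap : ∀ x : E n, 1 ≤ ‖x‖ ^ 2 → ‖x‖ ^ 2 ≤ r1 → levelExp g K (fun y => ‖y‖ ^ 2) x ≤ -θ0
  area : BV g (Metric.closedBall 0 1) A

/-! ### tools -/

/-- (JL) jet-Lipschitz estimate for the constraint map. -/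
def JLStmt : Prop := ∀ (n : ℕ) (Λ : ℝ), 1 ≤ Λ → ∃ C : ℝ, 0 ≤ C ∧
  ∀ g g' K K' : MetricField n, IsRiemannianOn g Set.univ → IsRiemannianOn g' Set.univ →
  Sm K → Sm K' → ∀ (x : E n) (r α β : ℝ), 0 < r → 0 ≤ α → α ≤ Λ → 0 ≤ β → β ≤ Λ →
  Lo Λ g x → Lo Λ g' x → JB (fun y => g y - 1) K x r α →
  JB (fun y => g' y - g y) (fun y => K' y - K y) x r β →
  |energyDensity g' K' x - energyDensity g K x - Lmu (fun y => g' y - g y) x|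
      ≤ C * ((α + β) * β / r ^ 2) ∧
    ∀ i, |momentumDensity g' K' x i - momentumDensity g K x i - LJ (fun y => K' y - K y) x i|
      ≤ C * ((α + β) * β / r ^ 2)

/-- (JLap) the Laplace–Beltrami operator is close to the flat Laplacian. -/
def JLapStmt : Prop := ∀ (n : ℕ) (Λ : ℝ), 1 ≤ Λ → ∃ C : ℝ, 0 ≤ C ∧
  ∀ g : MetricField n, IsRiemannianOn g Set.univ → ∀ v : E n → ℝ, ContDiff ℝ ∞ v →
  ∀ (x : E n) (r α a : ℝ), 0 < r → 0 ≤ α → α ≤ Λ → Lo Λ g x →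
  (∀ i j, Jb 1 (fun y => (g y - 1) i j) x r α) → Jb 2 v x r a →
  |laplaceBeltrami g v x - lap v x| ≤ C * (α * a / r ^ 2)

/-- (HOM) derivatives of `(τ² + |y|²)^(-p)`, uniformly in `τ`. -/
def HomStmt : Prop := ∀ (n : ℕ) (p : ℝ), 0 ≤ p →
  (∀ τ : ℝ, 0 < τ → ContDiff ℝ ∞ (br τ p : E n → ℝ)) ∧
  (∀ τ : ℝ, 0 < τ → ∀ (y : E n) (i : Fin n),
    pderiv i (br τ p) y = -(2 * p * br τ (p + 1) y) * y i) ∧
  (∀ τ : ℝ, 0 < τ → ∀ y : E n, lap (br τ p) y =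
    br τ (p + 2) y * (2 * p * (2 * p + 2 - n) * ‖y‖ ^ 2 - 2 * p * n * τ ^ 2)) ∧
  ∀ k : ℕ, ∃ C : ℝ, 0 ≤ C ∧ ∀ τ : ℝ, 0 < τ → ∀ y : E n,
    ‖iteratedFDeriv ℝ k (br τ p) y‖ ≤ C * (τ + ‖y‖) ^ (-(2 * p) - (k : ℝ))

/-- (V) the explicit superharmonic function. -/
def VStmt : Prop := ∀ (n : ℕ), 3 ≤ n → ∀ e0 : ℝ, 0 < e0 → e0 < 1 →
  (∀ k : ℕ, ∃ C : ℝ, 0 ≤ C ∧ ∀ R : ℝ, 1 ≤ R → ∀ y : E n,
    ‖iteratedFDeriv ℝ k (VV e0 R) y‖ ≤ C * R ^ (-e0) * (R + ‖y‖) ^ (2 - (n : ℝ) - (k : ℝ))) ∧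
  ∃ C c : ℝ, 0 ≤ C ∧ 0 < c ∧ ∀ R : ℝ, 1 ≤ R →
    ContDiff ℝ ∞ (VV e0 R : E n → ℝ) ∧ (∀ y : E n, 0 ≤ VV e0 R y) ∧
    (∀ y : E n, c * ‖y‖ ^ 2 * (R + ‖y‖) ^ (-(n : ℝ) - e0 - 2) ≤ -lap (VV e0 R) y) ∧
    (∀ y : E n, |lap (VV e0 R) y| ≤ C * (R + ‖y‖) ^ (-(n : ℝ) - e0)) ∧
    (-∫ y : E n, lap (VV e0 R) y ≤ C * R ^ (-e0)) ∧
    ∀ y : E n, ∃ h : ℝ, c * R ^ (-e0) * (R + ‖y‖) ^ (-(n : ℝ)) ≤ h ∧
      ∀ i, pderiv i (VV e0 R) y = -h * y i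

/-- (NEWT) smoothed Newton potential, kernel `br ε ((n-2)/2)`, `ε` small. -/
def NewtStmt : Prop := ∀ (n : ℕ), 3 ≤ n → ∃ C : ℝ, 0 ≤ C ∧
  ∀ (G : E n → ℝ) (ρ M : ℝ), ContDiff ℝ ∞ G → 1 ≤ ρ → (∀ y, ρ ≤ ‖y‖ → G y = 0) →
  (∀ y, Jb 1 G y ρ M) → ∀ η : ℝ, 0 < η → ∃ u : E n → ℝ, ContDiff ℝ ∞ u ∧
    (∀ k : ℕ, k ≤ 2 → ∀ y, ‖iteratedFDeriv ℝ k u y‖
      ≤ C * M * ρ ^ n * (ρ + ‖y‖) ^ (2 - (n : ℝ) - (k : ℝ))) ∧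
    (∀ y, |lap u y + G y| ≤ η * (1 + ‖y‖) ^ (-(n : ℝ) - 1)) ∧
    (∀ k : ℕ, ∃ D : ℝ, ∀ y, ‖iteratedFDeriv ℝ k u y‖ ≤ D) ∧
    (∫ y, G y = 0 → ∃ D : ℝ, ∀ y, ‖fderiv ℝ u y‖ ≤ D * (1 + ‖y‖) ^ (-(n : ℝ)))

/-- (FlBd) size of an averaged flux. -/
def FlBdStmt : Prop := ∀ n : ℕ, ∃ C : ℝ, 0 ≤ C ∧ ∀ (V : VectorField n) (R a : ℝ), 0 < R → 0 ≤ a →
  (∀ i, ContDiff ℝ ∞ fun x => V x i) →
  (∀ x : E n, R ≤ ‖x‖ → ‖x‖ ≤ 2 * R → ∀ i, |V x i| ≤ a) →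
  |∫ x, eta R x * divE V x| ≤ C * a * R ^ ((n : ℝ) - 1)

/-- (AVG) averaged ADM fluxes. -/
def AvgStmt : Prop := ∀ (n : ℕ), 3 ≤ n → ∀ (q : ℝ) (g K : MetricField n) (EE : VectorField n)
  (En : ℝ) (P : E n) (Q : ℝ), Data n q g K EE En P Q →
  Tendsto (fun R => ∫ x, eta R x * Lmu (fun y => g y - 1) x) atTop
      (𝓝 (((n : ℝ) - 1) * unitSphereArea n * En)) ∧
    ∀ i, Tendsto (fun R => ∫ x, eta R x * LJ K x i) atTop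
      (𝓝 (((n : ℝ) - 1) * unitSphereArea n * P i))

/-- (CONF) conformal change of the constraints (from helper90's `Id` files). -/
def ConfStmt : Prop := ∀ (n : ℕ) (g K : MetricField n) (ψ : E n → ℝ),
  IsRiemannianOn g Set.univ → Sm K → Sy K → ContDiff ℝ ∞ ψ → ∀ x : E n,
  energyDensity (fun y => Real.exp (2 * ψ y) • g y) (fun y => Real.exp (ψ y) • K y) x
      = Real.exp (-(2 * ψ x)) * (energyDensity g K x - ((n : ℝ) - 1) * laplaceBeltrami g ψ x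
        - ((n : ℝ) - 1) * ((n : ℝ) - 2) / 2 * gradSq g ψ x) ∧
    ∀ i, momentumDensity (fun y => Real.exp (2 * ψ y) • g y) (fun y => Real.exp (ψ y) • K y) x i
      = Real.exp (-ψ x) * (momentumDensity g K x i
        + ((n : ℝ) - 1) * ∑ j, K x i j * Bs.gradV g ψ x j)

/-- (FAC) the conformal factor of step 0.2. -/
def FacStmt : Prop := ∀ (n : ℕ) (q e0 : ℝ), Expo n q e0 → ∀ (g K : MetricField n) (Λ : ℝ), 1 ≤ Λ →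
  IsRiemannianOn g Set.univ → (∀ x, Lo Λ g x) →
  (∀ x : E n, 1 ≤ ‖x‖ → JB (fun y => g y - 1) K x ‖x‖ (Λ * ‖x‖ ^ (-q))) →
  ∀ η : ℝ, 0 < η → ∃ (ψ : E n → ℝ) (c : ℝ), 0 < c ∧ ContDiff ℝ ∞ ψ ∧ (∀ x, 0 ≤ ψ x) ∧
    (∀ k : ℕ, k ≤ 2 → ∀ x, ‖iteratedFDeriv ℝ k ψ x‖ ≤ η * (1 + ‖x‖) ^ (2 - (n : ℝ) - (k : ℝ))) ∧
    (∀ x : E n, ∃ h : ℝ, 0 < h ∧ ∀ i, pderiv i ψ x = -h * x i) ∧
    ∀ x : E n, 1 ≤ ‖x‖ → ∀ v : E n, quadForm g x v ≤ 1 →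
      c * ‖x‖ ^ (-(n : ℝ) - e0) ≤ -laplaceBeltrami g ψ x - ((n : ℝ) - 2) / 2 * gradSq g ψ x
        - ∑ i, (∑ j, K x i j * Bs.gradV g ψ x j) * v i

/-- (PERT) dependence of the unit ball and of the electric term on the metric. -/
def PertStmt : Prop := ∀ (n : ℕ) (Λ : ℝ), 1 ≤ Λ → ∃ C : ℝ, 0 ≤ C ∧
  ∀ (g g' : MetricField n) (EE : VectorField n) (x : E n) (β : ℝ), (g x).PosDef → (g' x).PosDef →
  Lo Λ g x → Lo Λ g' x → (∀ i j, |g x i j| ≤ Λ) → (∀ i j, |g' x i j| ≤ Λ) → 0 ≤ β →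
  (∀ i j, |g' x i j - g x i j| ≤ β) → ∀ v' : E n, quadForm g' x v' ≤ 1 →
    0 ≤ eT g' EE x v' ∧ eT g' EE x v' ≤ C * ∑ i, EE x i ^ 2 ∧
    ∃ v : E n, quadForm g x v ≤ 1 ∧ ‖v - v'‖ ≤ C * β ∧
      eT g' EE x v' ≤ eT g EE x v + C * β * ∑ i, EE x i ^ 2

/-- (ST) exact constraints of the static graph data (helper90's identity (C) + CONF). -/
def STStmt : Prop := ∀ (n : ℕ), 3 ≤ n → ∀ (b : Matrix (Fin n) (Fin n) ℝ) (c f : E n → ℝ),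
  b.PosDef → ContDiff ℝ ∞ c → ContDiff ℝ ∞ f → IsRiemannianOn (gS b c f) Set.univ →
  ∀ (x : E n) (lam γ ρ0 : ℝ) (X dc : Fin n → ℝ), lam = Real.exp (2 * c x) →
  γ = Id.gm (gS b c f) (ph c) f x → ρ0 = -bl b⁻¹ c x → (X = fun i => ph c x * pderiv i f x) →
  (dc = fun i => pderiv i c x) →
  γ ^ 2 * (1 - Bs.qb b⁻¹ X X / lam) = 1 ∧
  energyDensity (gS b c f) (KS b c f) x = ((n : ℝ) - 1) / lam * (γ ^ 2 * ρ0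
    - ((n : ℝ) - 2) / 2 * Bs.qb b⁻¹ dc dc - ((n : ℝ) - 2) * γ ^ 2 / lam * Bs.qb b⁻¹ dc X ^ 2) ∧
  ∀ i, momentumDensity (gS b c f) (KS b c f) x i
    = ((n : ℝ) - 1) * γ / lam * (ρ0 * X i - ((n : ℝ) - 2) * Bs.qb b⁻¹ dc X * dc i)

/-- (STI) spacelike static graph data: positivity and the energy condition. -/
def STIStmt : Prop := ∀ (n : ℕ), 3 ≤ n → ∀ (b : Matrix (Fin n) (Fin n) ℝ), b.PosDef →
  ∀ w0 : ℝ, 0 ≤ w0 → w0 < 1 → ∃ C β0 : ℝ, 1 ≤ C ∧ 0 < β0 ∧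
  ∀ c f : E n → ℝ, ContDiff ℝ ∞ c → ContDiff ℝ ∞ f → (∀ x, |c x| ≤ β0) →
  (∀ x, Bs.qb b⁻¹ (fun i => pderiv i f x) (fun i => pderiv i f x) ≤ w0 ^ 2) →
  IsRiemannianOn (gS b c f) Set.univ ∧ (∀ x, Lo C (gS b c f) x) ∧
  (∀ x i j, |gS b c f x i j| ≤ C) ∧ Sm (KS b c f) ∧ Sy (KS b c f) ∧
  ∀ x : E n, 0 ≤ -bl b⁻¹ c x → ∀ v : E n, quadForm (gS b c f) x v ≤ 1 →
    C⁻¹ * -bl b⁻¹ c x - C * ‖fderiv ℝ c x‖ ^ 2 ≤ energyDensity (gS b c f) (KS b c f) x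
      - ∑ i, momentumDensity (gS b c f) (KS b c f) x i * v i

/-- (SJ) jets and linearisation of the boosted static data. -/
def SJStmt : Prop := ∀ (n : ℕ), 3 ≤ n → ∀ (w ξ : E n) (g0 : ℝ) (B : Matrix (Fin n) (Fin n) ℝ),
  Boost w ξ g0 B → ∃ C β0 : ℝ, 1 ≤ C ∧ 0 < β0 ∧
  ∀ c : E n → ℝ, ContDiff ℝ ∞ c → (∀ x, |c x| ≤ β0) →
  ∀ (x : E n) (r β : ℝ), 0 < r → 0 ≤ β → β ≤ β0 → Jb 2 c x r β →
    JB (fun y => gS (Bᵀ * B) c (dotF ξ) y - 1) (KS (Bᵀ * B) c (dotF ξ)) x r (C * β) ∧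
    |Lmu (fun y => gS (Bᵀ * B) c (dotF ξ) y - 1) x
        + ((n : ℝ) - 1) * g0 ^ 2 * bl (Bᵀ * B)⁻¹ c x| ≤ C * (β ^ 2 / r ^ 2) ∧
    ∀ i, |LJ (KS (Bᵀ * B) c (dotF ξ)) x i
        + w i * (((n : ℝ) - 1) * g0 ^ 2 * bl (Bᵀ * B)⁻¹ c x)| ≤ C * (β ^ 2 / r ^ 2)

/-- (BOOST) existence of the boost matrix. -/
def BoostStmt : Prop := ∀ (n : ℕ) (w : E n), ‖w‖ < 1 →
  ∃ (ξ : E n) (g0 : ℝ) (B : Matrix (Fin n) (Fin n) ℝ), Boost w ξ g0 B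

/-! ### the steps -/

/-- Step 0.2. -/
def StrictStmt : Prop := ∀ (n : ℕ) (q e0 : ℝ), Expo n q e0 → ∀ (q0 : ℝ) (g K : MetricField n)
  (EE : VectorField n) (En : ℝ) (P : E n) (Q A : ℝ), q ≤ q0 → Data n q0 g K EE En P Q →
  BV g (Metric.closedBall 0 1) A → ∀ E1 : ℝ, En < E1 →
  ∃ (g' K' : MetricField n) (Λ c0 θ0 r1 : ℝ), Strict n q e0 g' K' EE E1 P Q A Λ c0 θ0 r1

/-- Step 0.3, linear part. -/
def GAStmt : Prop := ∀ (n : ℕ) (q e0 : ℝ), Expo n q e0 → ∀ (g K : MetricField n)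
  (EE : VectorField n) (E1 : ℝ) (P : E n) (Q A Λ c0 θ0 r1 : ℝ),
  Strict n q e0 g K EE E1 P Q A Λ c0 θ0 r1 → ∀ (E' : ℝ) (w ξ : E n) (g0 : ℝ)
  (B : Matrix (Fin n) (Fin n) ℝ), E1 < E' → P = E' • w → Boost w ξ g0 B → ∀ Λ' : ℝ, 0 ≤ Λ' →
  ∃ C c1 : ℝ, 0 ≤ C ∧ 0 < c1 ∧ ∀ η : ℝ, 0 < η → ∀ᶠ R in atTop,
    ∃ (ψ : E n → ℝ) (T : MetricField n) (s2 : E n → ℝ) (R1 C' c' : ℝ),
      LinOut n q e0 g K w g0 B (E' / g0 + η) Λ' C c1 η R ψ T s2 R1 C' c'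

/-- Step 0.3, nonlinear verification:
`g' = 1 + η_R (g - 1) + (1 - η_2) (gS - 1)`, `K' = η_R K + (1 - η_2) (KS + T)`. -/
def GBStmt : Prop := ∀ (n : ℕ) (q e0 : ℝ), Expo n q e0 → ∀ (g K : MetricField n)
  (EE : VectorField n) (E1 : ℝ) (P : E n) (Q A Λ c0 θ0 r1 : ℝ),
  Strict n q e0 g K EE E1 P Q A Λ c0 θ0 r1 → 0 ≤ A → ∀ (w ξ : E n) (g0 : ℝ)
  (B : Matrix (Fin n) (Fin n) ℝ), Boost w ξ g0 B → ∀ C c1 β ε : ℝ, 0 ≤ C → 0 < c1 → 0 < β → 0 < ε →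
  ∃ η : ℝ, 0 < η ∧ ∀ᶠ R in atTop, ∀ (m : ℝ) (ψ : E n → ℝ) (T : MetricField n) (s2 : E n → ℝ)
    (R1 C' c' : ℝ), LinOut n q e0 g K w g0 B m (2 * Λ) C c1 η R ψ T s2 R1 C' c' →
    ∃ (g' K' : MetricField n) (C'' c0' : ℝ),
      Mid n e0 m ((1 - ε) * A) Q B (dotF ξ) g' K' EE ψ R1 C'' c0' θ0 r1 β

/-- Step 0.4: bending the slice to `t = 0`. -/
def BendStmt : Prop := ∀ (n : ℕ), 3 ≤ n → ∀ (w ξ : E n) (g0 : ℝ) (B : Matrix (Fin n) (Fin n) ℝ),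
  Boost w ξ g0 B → ∃ β0 : ℝ, 0 < β0 ∧ ∀ (e0 m A Q : ℝ) (g K : MetricField n) (EE : VectorField n)
  (ψ : E n → ℝ) (R1 C c0 θ0 r1 : ℝ), 0 < e0 → e0 < (n : ℝ) - 2 → 0 ≤ A →
  Mid n e0 m A Q B (dotF ξ) g K EE ψ R1 C c0 θ0 r1 β0 → ∀ ε : ℝ, 0 < ε →
  ∃ (g' K' : MetricField n) (R1' c0' : ℝ),
    Mid n e0 m ((1 - ε) * A) Q B (fun _ => 0) g' K' EE ψ R1' C c0' θ0 r1 β0

/-- Step 0.5: the linear change of coordinates `y = B x`. -/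
def PullStmt : Prop := ∀ (n : ℕ), 3 ≤ n → ∀ (B : Matrix (Fin n) (Fin n) ℝ), B.det ≠ 0 →
  ∀ (e0 m A Q : ℝ) (g K : MetricField n) (EE : VectorField n) (ψ : E n → ℝ)
  (R1 C c0 θ0 r1 β : ℝ), 0 < e0 → e0 < (n : ℝ) - 2 →
  Mid n e0 m A Q B (fun _ => 0) g K EE ψ R1 C c0 θ0 r1 β →
  ∃ (g' K' : MetricField n) (EE' : VectorField n) (s : E n → ℝ) (R0 C' c0' : ℝ),
    Good n m A Q g' K' EE' ψ s R0 C' c0' e0 θ0 r1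

end Crest.Agent.N346.P0

end
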