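import Crest.Agent.N346.P0.Lin

/-! Row 346, Part 0, step GA (helper15), file 1: the compactly supported sources. -/

set_option autoImplicit false
open MeasureTheory Filter Topology Matrix
open scoped ContDiff
open Crest.GeometryTopology.CoordMetric
open Crest.MathPhysics.ExteriorData

noncomputable section

namespace Crest.Agent.N346.P0.GA
open Bs

variable {n : ℕ} {u G G' : E n → ℝ} {x : E n} {r a b R ρ M M' : ℝ} {k K : MetricField n}

/-- a compactly supported source of size `M` at scale `ρ` -/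
structure Src (G : E n → ℝ) (ρ M : ℝ) : Prop where
  sm : ContDiff ℝ ∞ G
  far : ∀ y, ρ ≤ ‖y‖ → G y = 0
  jet : ∀ y, Jb 1 G y ρ M

theorem Src.add (h : Src G ρ M) (h' : Src G' ρ M') : Src (fun y => G y + G' y) ρ (M + M') :=
  ⟨h.sm.add h'.sm, fun y hy => by rw [h.far y hy, h'.far y hy, add_zero],
    fun y => Jb.add h.sm h'.sm (h.jet y) (h'.jet y)⟩

theorem Src.neg (h : Src G ρ M) : Src (fun y => -G y) ρ M :=
  ⟨h.sm.neg, fun y hy => by rw [h.far y hy, neg_zero], fun y => (h.jet y).neg⟩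

theorem Src.const_mul (h : Src G ρ M) (c : ℝ) : Src (fun y => c * G y) ρ (|c| * M) :=
  ⟨contDiff_const.mul h.sm, fun y hy => by rw [h.far y hy, mul_zero],
    fun y => Jb.const_mul h.sm c (h.jet y)⟩

theorem Src.mono (h : Src G ρ M) (hρ : 0 < ρ) (hM : M ≤ M') : Src G ρ M' :=
  ⟨h.sm, h.far, fun y => (h.jet y).mono hρ hM⟩

theorem Src.nonneg (h : Src G ρ M) : 0 ≤ M := (h.jet 0).nonneg

theorem Src.integrable (h : Src G ρ M) : Integrable G :=
  h.sm.continuous.integrable_of_hasCompactSupport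
    (hasCompactSupport_of_far (R := ρ) fun y hy => h.far y hy.le)

/-- commutator of `Lmu` with the cut-off -/
def F0 (k : MetricField n) (R : ℝ) (x : E n) : ℝ :=
  Lmu (fun y => eta R y • k y) x - eta R x * Lmu k x

/-- commutator of `LJ` with the cut-off -/
def Fi (K : MetricField n) (R : ℝ) (i : Fin n) (x : E n) : ℝ :=
  LJ (fun y => eta R y • K y) x i - eta R x * LJ K x i

/-- auxiliary vector field -/
def UU (u : E n → ℝ) (k : MetricField n) : VectorField n :=
  fun y i => ∑ j, (pderiv j u y * k y i j - pderiv i u y * k y j j)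

theorem contDiff_UU (hu : ContDiff ℝ ∞ u) (hk : Sm k) (i : Fin n) :
    ContDiff ℝ ∞ fun y => UU u k y i :=
  ContDiff.sum fun j _ => ((contDiff_pd hu j).mul (hk i j)).sub ((contDiff_pd hu i).mul (hk j j))

theorem Lmu_smul (hu : ContDiff ℝ ∞ u) (hk : Sm k) (x : E n) :
    Lmu (fun y => u y • k y) x - u x * Lmu k x
      = (∑ i, pderiv i u x * eV k x i + divE (UU u k) x) * (1 / 2) := by
  have e : eV (fun y => u y • k y) = fun y i => u y * eV k y i + UU u k y i := by
    funext y i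
    simp only [eV, UU, Matrix.smul_apply, smul_eq_mul,
      pd_mul (smooth_diff hu y) (smooth_diff (hk _ _) y), Finset.mul_sum, ← Finset.sum_add_distrib]
    exact Finset.sum_congr rfl fun j _ => by ring
  rw [Lmu, e, divE_add (fun i => hu.mul (contDiff_eV hk i)) (contDiff_UU hu hk),
    divE_smul (smooth_diff hu x) fun i => smooth_diff (contDiff_eV hk i) x, Lmu]
  ring

theorem pV_smul (u : E n → ℝ) (K : MetricField n) (i : Fin n) :
    pV (fun y => u y • K y) i = fun y j => u y * pV K i y j := by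
  funext y j
  simp only [pV, Matrix.smul_apply, smul_eq_mul, ← Finset.mul_sum]
  ring

theorem LJ_smul (hu : ContDiff ℝ ∞ u) (hK : Sm K) (x : E n) (i : Fin n) :
    LJ (fun y => u y • K y) x i - u x * LJ K x i = ∑ j, pderiv j u x * pV K i x j := by
  rw [LJ, pV_smul, divE_smul (smooth_diff hu x) fun j => smooth_diff (contDiff_pV hK i j) x, LJ]
  ring

theorem contDiff_F0 (hk : Sm k) (R : ℝ) : ContDiff ℝ ∞ (F0 k R) :=
  (contDiff_Lmu (Sm.smul (contDiff_eta R) hk)).sub ((contDiff_eta R).mul (contDiff_Lmu hk))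

theorem contDiff_Fi (hK : Sm K) (R : ℝ) (i : Fin n) : ContDiff ℝ ∞ (Fi K R i) :=
  (contDiff_LJ (Sm.smul (contDiff_eta R) hK) i).sub ((contDiff_eta R).mul (contDiff_LJ hK i))

theorem pd_eta_out (hR : 0 < R) (hx : ‖x‖ < R ∨ 2 * R < ‖x‖) (i : Fin n) :
    pderiv i (eta R) x = 0 :=
  hx.elim (fun h => pd_eta_of_le hR h.le i) fun h => pd_eta_of_ge hR h.le i

theorem out_nhds (hx : ‖x‖ < R ∨ 2 * R < ‖x‖) : ∀ᶠ y in 𝓝 x, ‖y‖ < R ∨ 2 * R < ‖y‖ :=
  ((isOpen_lt continuous_norm continuous_const).union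
    (isOpen_lt continuous_const continuous_norm)).mem_nhds hx

theorem F0_out (hk : Sm k) (hR : 0 < R) (hx : ‖x‖ < R ∨ 2 * R < ‖x‖) : F0 k R x = 0 := by
  have e : UU (eta R) k =ᶠ[𝓝 x] fun _ _ => 0 := (out_nhds hx).mono fun y hy => by
    funext i; simp [UU, pd_eta_out hR hy]
  rw [F0, Lmu_smul (contDiff_eta R) hk, divE_congr e]
  simp [pd_eta_out hR hx, divE]

theorem Fi_out (hK : Sm K) (hR : 0 < R) (hx : ‖x‖ < R ∨ 2 * R < ‖x‖) (i : Fin n) :
    Fi K R i x = 0 := by
  rw [Fi, LJ_smul (contDiff_eta R) hK]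
  simp [pd_eta_out hR hx]

theorem src_of_annulus (hG : ContDiff ℝ ∞ G) (hR : 0 < R) (ha : 0 ≤ a)
    (h0 : ∀ x, ‖x‖ < R ∨ 2 * R < ‖x‖ → G x = 0)
    (h : ∀ x, R ≤ ‖x‖ → ‖x‖ ≤ 2 * R → Jb 1 G x R a) : Src G (3 * R) (3 * a) := by
  refine ⟨hG, fun y hy => h0 y (.inr (by linarith)), fun y => ?_⟩
  have : Jb 1 G y R a := by
    by_cases hy : ‖y‖ < R ∨ 2 * R < ‖y‖
    · exact Jb.of_eventually_zero ((out_nhds hy).mono h0) hR ha
    · push Not at hy
      exact h y hy.1 hy.2
  simpa using this.rescale hR (t := 3) (by norm_num)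

/-- the commutators are sources -/
theorem exists_F (n : ℕ) : ∃ C : ℝ, 0 ≤ C ∧ ∀ k K : MetricField n, Sm k → Sm K → ∀ R a : ℝ,
    0 < R → 0 ≤ a → (∀ x, R ≤ ‖x‖ → ‖x‖ ≤ 2 * R → JB k K x R a) →
    Src (F0 k R) (3 * R) (C * (a / R ^ 2)) ∧ ∀ i, Src (Fi K R i) (3 * R) (C * (a / R ^ 2)) := by
  obtain ⟨D, hD, hη⟩ := exists_eta_jb n 3
  refine ⟨3 * ((6 * n ^ 2 + 2 * n * (n + 1)) * D), by positivity, fun k K hk hK R a hR ha h => ?_⟩
  have he := contDiff_eta (n := n) R
  have hp : 0 ≤ D * (a / R ^ 2) := by positivity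
  refine ⟨(src_of_annulus (a := 6 * n ^ 2 * D * (a / R ^ 2)) (contDiff_F0 hk R) hR
    (by positivity) (fun x hx => F0_out hk hR hx) fun x h1 h2 => ?_).mono (by positivity) ?_,
    fun i => (src_of_annulus (a := 2 * n * (n + 1) * D * (a / R ^ 2)) (contDiff_Fi hK R i) hR
    (by positivity) (fun x hx => Fi_out hK hR hx i) fun x h1 h2 => ?_).mono (by positivity) ?_⟩
  · have hd : ∀ i, Jb 2 (pderiv i (eta R)) x R (D / R) := fun i => (hη R hR x).1.pd he i
    have j1 := Jb.sum_fin hR (fun i => (contDiff_pd he i).mul (contDiff_eV hk i)) fun i =>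
      Jb.mul (contDiff_pd he i) (contDiff_eV hk i) hR ((hd i).of_le one_le_two)
        (jb_eV (j := 1) hR hk (h x h1 h2).1 i)
    have j2 : ∀ i, Jb 2 (fun y => UU (eta R) k y i) x R _ := fun i =>
      Jb.sum_fin hR (fun j => ((contDiff_pd he j).mul (hk i j)).sub
        ((contDiff_pd he i).mul (hk j j))) fun j =>
        Jb.sub ((contDiff_pd he j).mul (hk i j)) ((contDiff_pd he i).mul (hk j j))
          (Jb.mul (contDiff_pd he j) (hk i j) hR (hd j) ((h x h1 h2).1 i j))
          (Jb.mul (contDiff_pd he i) (hk j j) hR (hd i) ((h x h1 h2).1 j j))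
    have j3 := jb_divE (j := 1) hR (contDiff_UU he hk) j2
    have s1 : ContDiff ℝ ∞ fun y => ∑ i, pderiv i (eta R) y * eV k y i :=
      ContDiff.sum fun i _ => (contDiff_pd he i).mul (contDiff_eV hk i)
    have s2 := contDiff_divE (contDiff_UU he hk)
    have j4 := Jb.mul_const (s1.add s2) (1 / 2) (Jb.add s1 s2 j1 j3)
    refine (j4.congr (.of_forall fun y => Lmu_smul he hk y)).mono hR (le_of_eq ?_)
    rw [abs_of_pos (by norm_num)]
    field_simp
    ring
  · have : 0 ≤ (n : ℝ) * (n + 1) * (D * (a / R ^ 2)) := by positivity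
    nlinarith
  · have j1 := Jb.sum_fin hR (fun j => (contDiff_pd he j).mul (contDiff_pV hK i j)) fun j =>
      Jb.mul (contDiff_pd he j) (contDiff_pV hK i j) hR
        (((hη R hR x).1.pd he j).of_le one_le_two) (jb_pV hR hK (h x h1 h2).2 i j)
    refine (j1.congr (.of_forall fun y => LJ_smul he hK y i)).mono hR (le_of_eq ?_)
    field_simp
    ring
  · have : 0 ≤ (n : ℝ) ^ 2 * (D * (a / R ^ 2)) := by positivity
    nlinarith

theorem integrable_eta_mul (hR : 0 < R) (hu : Continuous u) : Integrable fun x => eta R x * u x :=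
  ((contDiff_eta R).continuous.mul hu).integrable_of_hasCompactSupport
    (hasCompactSupport_eta hR).mul_right

theorem integral_F0 (hk : Sm k) (hR : 0 < R) (hi : Integrable (F0 k R)) :
    ∫ x, F0 k R x = -∫ x, eta R x * Lmu k x := by
  have h1 := integrable_eta_mul hR (contDiff_Lmu hk).continuous
  have h2 := integral_Lmu (Sm.smul (contDiff_eta R) hk) (R := 2 * R) fun y hy => by
    rw [eta_eq_zero hR hy.le, zero_smul]
  have h3 := integral_add hi h1
  simp only [F0, sub_add_cancel, h2] at h3 ⊢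
  linarith

theorem integral_Fi (hK : Sm K) (hR : 0 < R) (i : Fin n) (hi : Integrable (Fi K R i)) :
    ∫ x, Fi K R i x = -∫ x, eta R x * LJ K x i := by
  have h1 := integrable_eta_mul hR (contDiff_LJ hK i).continuous
  have h2 := integral_LJ (Sm.smul (contDiff_eta R) hK) (R := 2 * R) (fun y hy => by
    rw [eta_eq_zero hR hy.le, zero_smul]) i
  have h3 := integral_add hi h1
  simp only [Fi, sub_add_cancel, h2] at h3 ⊢
  linarith

/-- the normalised bump -/
def rho (R : ℝ) (x : E n) : ℝ := (∫ y : E n, eta R y)⁻¹ * eta R x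

theorem integral_eta (hR : 0 < R) : ∫ y : E n, eta R y = R ^ n * ∫ y : E n, eta 1 y := by
  have := Measure.integral_comp_inv_smul_of_nonneg (volume : Measure (E n)) (eta 1) hR.le
  simp only [finrank_euclideanSpace, Fintype.card_fin, smul_eq_mul] at this
  rw [← this]
  exact integral_congr_ae (.of_forall fun y => eta_scale R y)

theorem integral_eta_pos (hR : 0 < R) : 0 < ∫ y : E n, eta R y :=
  (contDiff_eta R).continuous.integral_pos_of_hasCompactSupport_nonneg_nonzero
    (hasCompactSupport_eta hR) (eta_nonneg R) (x := 0)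
    (by rw [eta_eq_one hR (by simpa using hR.le)]; exact one_ne_zero)

theorem rho_nonneg (hR : 0 < R) (x : E n) : 0 ≤ rho R x :=
  mul_nonneg (inv_pos.2 (integral_eta_pos hR)).le (eta_nonneg R x)

theorem integral_rho (hR : 0 < R) : ∫ x : E n, rho R x = 1 := by
  simp only [rho]
  rw [integral_const_mul, inv_mul_cancel₀ (integral_eta_pos hR).ne']

theorem exists_rho (n : ℕ) : ∃ C : ℝ, 0 ≤ C ∧ ∀ R : ℝ, 0 < R →
    Src (rho R : E n → ℝ) (3 * R) (C / R ^ n) := by
  obtain ⟨D, hD, hη⟩ := exists_eta_jb n 1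
  have hI := integral_eta_pos (n := n) one_pos
  refine ⟨(∫ y : E n, eta 1 y)⁻¹ * (3 * D), by positivity, fun R hR => ?_⟩
  have h : Src (eta R : E n → ℝ) (3 * R) (3 * D) :=
    ⟨contDiff_eta R, fun y hy => eta_eq_zero hR (by linarith), fun y => by
      simpa using (hη R hR y).1.rescale hR (t := 3) (by norm_num)⟩
  refine (h.const_mul _).mono (by positivity) (le_of_eq ?_)
  rw [abs_of_pos (inv_pos.2 (integral_eta_pos hR)), integral_eta hR]
  field_simp

end Crest.Agent.N346.P0.GA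

end
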