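import Crest.Agent.N346.P0.GA1

/-! Row 346, Part 0, step GA (helper15), file 2: a compactly supported symmetric tensor with
(almost) prescribed linearised momentum density. -/

set_option autoImplicit false
open MeasureTheory Filter Topology Matrix
open scoped ContDiff
open Crest.GeometryTopology.CoordMetric
open Crest.MathPhysics.ExteriorData

noncomputable section

namespace Crest.Agent.N346.P0.GA
open Bs

variable {n : ℕ} {u : E n → ℝ} {x : E n} {r a : ℝ} {Y : Fin n → E n → ℝ}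

/-- divergence of the potentials -/
def dY (Y : Fin n → E n → ℝ) (x : E n) : ℝ := ∑ c, pderiv c (Y c) x

/-- `∂ᵢYⱼ + ∂ⱼYᵢ - t (div Y) δᵢⱼ` -/
def SS (t : ℝ) (Y : Fin n → E n → ℝ) : MetricField n := fun x => Matrix.of fun i j =>
  pderiv i (Y j) x + pderiv j (Y i) x - dY Y x * (t * (1 : Matrix (Fin n) (Fin n) ℝ) i j)

theorem contDiff_dY (hY : ∀ i, ContDiff ℝ ∞ (Y i)) : ContDiff ℝ ∞ (dY Y) :=
  ContDiff.sum fun c _ => contDiff_pd (hY c) c

theorem sm_SS (hY : ∀ i, ContDiff ℝ ∞ (Y i)) (t : ℝ) : Sm (SS t Y) := fun i j =>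
  ((contDiff_pd (hY j) i).add (contDiff_pd (hY i) j)).sub ((contDiff_dY hY).mul contDiff_const)

theorem sy_SS (t : ℝ) (Y : Fin n → E n → ℝ) : Sy (SS t Y) := fun x i j => by
  simp only [SS, Matrix.of_apply, Matrix.one_apply, eq_comm (a := i), add_comm]

theorem pV_SS (hn : 3 ≤ n) (Y : Fin n → E n → ℝ) (i : Fin n) :
    pV (SS ((n : ℝ) - 1)⁻¹ Y) i = fun y j => SS 1 Y y i j := by
  funext y j
  have h3 : (3 : ℝ) ≤ n := by exact_mod_cast hn
  have h1 : (n : ℝ) - 1 ≠ 0 := by linarith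
  have e : ∑ c, SS ((n : ℝ) - 1)⁻¹ Y y c c = dY Y y * (1 - ((n : ℝ) - 1)⁻¹) := by
    simp only [SS, Matrix.of_apply, Matrix.one_apply_eq, Finset.sum_sub_distrib,
      Finset.sum_add_distrib, Finset.sum_const, Finset.card_univ, Fintype.card_fin, nsmul_eq_mul]
    rw [show ∑ c, pderiv c (Y c) y = dY Y y from rfl]
    field_simp
    ring
  rw [pV, e]
  simp only [SS, Matrix.of_apply]
  ring

theorem divE_SS (hY : ∀ i, ContDiff ℝ ∞ (Y i)) (x : E n) (i : Fin n) :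
    divE (fun y j => SS 1 Y y i j) x = lap (Y i) x := by
  have h1 : ∀ j, pderiv j (fun y => SS 1 Y y i j) x = pderiv i (pderiv j (Y j)) x
      + pderiv j (pderiv j (Y i)) x - if i = j then pderiv i (dY Y) x else 0 := fun j => by
    simp only [SS, Matrix.of_apply]
    rw [pd_sub (smooth_diff ((contDiff_pd (hY j) i).add (contDiff_pd (hY i) j)) x)
      (smooth_diff ((contDiff_dY hY).mul contDiff_const) x),
      pd_add (smooth_diff (contDiff_pd (hY j) i) x) (smooth_diff (contDiff_pd (hY i) j) x),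
      pd_mul_const, pd_comm ((hY j).of_le (natle 2)).contDiffAt j i, Matrix.one_apply]
    split_ifs with h
    · subst h; simp
    · simp
  have h2 : pderiv i (dY Y) x = ∑ j, pderiv i (pderiv j (Y j)) x :=
    pd_sum (fun j _ => smooth_diff (contDiff_pd (hY j) j) x) i
  simp only [divE, h1, Finset.sum_sub_distrib, Finset.sum_add_distrib, Finset.sum_ite_eq,
    Finset.mem_univ, if_true, h2, lap]
  ring

theorem LJ_T (hn : 3 ≤ n) (hu : ContDiff ℝ ∞ u) (hY : ∀ i, ContDiff ℝ ∞ (Y i)) (x : E n)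
    (i : Fin n) : LJ (fun y => u y • SS ((n : ℝ) - 1)⁻¹ Y y) x i
      = ∑ j, pderiv j u x * SS 1 Y x i j + u x * lap (Y i) x := by
  have := LJ_smul hu (sm_SS hY ((n : ℝ) - 1)⁻¹) x i
  rw [LJ.eq_1 (SS _ Y), pV_SS hn, divE_SS hY] at this
  linarith

theorem jb_SS {j : ℕ} {t : ℝ} (ht : |t| ≤ 1) (hY : ∀ i, ContDiff ℝ ∞ (Y i)) (hr : 0 < r)
    (h : ∀ i l, Jb j (pderiv l (Y i)) x r a) (i l : Fin n) :
    Jb j (fun y => SS t Y y i l) x r ((n + 2) * a) := by
  have ha := (h i l).nonneg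
  refine (Jb.sub ((contDiff_pd (hY l) i).add (contDiff_pd (hY i) l))
    ((contDiff_dY hY).mul contDiff_const)
    (Jb.add (contDiff_pd (hY l) i) (contDiff_pd (hY i) l) (h l i) (h i l))
    (Jb.mul_const (contDiff_dY hY) (t * (1 : Matrix (Fin n) (Fin n) ℝ) i l)
      (Jb.sum_fin hr (fun c => contDiff_pd (hY c) c) fun c => h c c))).mono hr ?_
  have h1 : |t * (1 : Matrix (Fin n) (Fin n) ℝ) i l| ≤ 1 := by
    rw [Matrix.one_apply]; split_ifs <;> simp [ht]
  have h2 : 0 ≤ (n : ℝ) * a := by positivity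
  nlinarith

theorem one_add_rpow_le {s t : ℝ} (hx : 1 ≤ ‖x‖) (hs : s ≤ 0) (hst : s ≤ t) :
    (1 + ‖x‖) ^ s ≤ ‖x‖ ^ t :=
  (Real.rpow_le_rpow_of_nonpos (by linarith) (by linarith) hs).trans
    (Real.rpow_le_rpow_of_exponent_le hx hst)

/-- the tensor `T` -/
theorem exists_T (hN : NewtStmt) (hn : 3 ≤ n) : ∃ C : ℝ, 0 ≤ C ∧
    ∀ (G : Fin n → E n → ℝ) (ρ M : ℝ), 1 ≤ ρ → (∀ i, Src (G i) ρ M) → (∀ i, ∫ y, G i y = 0) →
    ∀ e0 : ℝ, 0 ≤ e0 → e0 < 1 → ∀ η : ℝ, 0 < η → ∃ (T : MetricField n) (R2 : ℝ),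
      Sm T ∧ Sy T ∧ (∀ x, R2 ≤ ‖x‖ → T x = 0) ∧
      (∀ i j x, Jb 1 (fun y => T y i j) x (ρ + ‖x‖)
        (C * (M * ρ ^ n * (ρ + ‖x‖) ^ (1 - (n : ℝ))))) ∧
      ∀ x : E n, 1 ≤ ‖x‖ → ∀ i, |LJ T x i - G i x| ≤ η * ‖x‖ ^ (-(n : ℝ) - e0) := by
  obtain ⟨C, hC, hN⟩ := hN n hn
  obtain ⟨D, hD, hη⟩ := exists_eta_jb n 1
  have h3 : (3 : ℝ) ≤ n := by exact_mod_cast hn
  refine ⟨2 * (D * ((n + 2) * C)), by positivity, fun G ρ M hρ hG h0 e0 he0 he1 η hη0 => ?_⟩
  choose Y hY hYj hYl _ hYd using fun i => hN (fun y => -G i y) ρ M (hG i).neg.sm hρ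
    (hG i).neg.far (hG i).neg.jet (η / 2) (by positivity)
  choose A hA using fun i => hYd i (by rw [integral_neg, h0, neg_zero])
  set A0 := ∑ i, |A i|
  have hA0 : 0 ≤ A0 := by positivity
  have hA' : ∀ i l y, |pderiv l (Y i) y| ≤ A0 * (1 + ‖y‖) ^ (-(n : ℝ)) := fun i l y =>
    ((abs_pd_le l _ y).trans (hA i y)).trans (by
      gcongr
      exact (le_abs_self _).trans (Finset.single_le_sum (f := fun i => |A i|)
        (fun i _ => abs_nonneg _) (Finset.mem_univ i)))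
  have hlim : Tendsto (fun R : ℝ => n * D * ((n + 2) * A0) * 2 * R ^ (-(1 - e0))) atTop (𝓝 0) := by
    simpa using (tendsto_rpow_neg_atTop (by linarith : 0 < 1 - e0)).const_mul
      (n * D * ((n + 2) * A0) * 2)
  obtain ⟨R, hR1, hR2⟩ := ((eventually_ge_atTop ρ).and
    (hlim.eventually_le_const (by positivity : 0 < η / 2))).exists
  have hR : 0 < R := by linarith
  have he := contDiff_eta (n := n) R
  have ht : |((n : ℝ) - 1)⁻¹| ≤ 1 := by
    rw [abs_of_nonneg (inv_nonneg.2 (by linarith))]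
    exact inv_le_one_of_one_le₀ (by linarith)
  refine ⟨fun y => eta R y • SS ((n : ℝ) - 1)⁻¹ Y y, 2 * R, Sm.smul he (sm_SS hY _),
    Sy.smul _ (sy_SS _ Y), fun x hx => by simp only [eta_eq_zero hR hx, zero_smul],
    fun i j x => ?_, fun x hx i => ?_⟩
  · have hr : 0 < ρ + ‖x‖ := by positivity
    have h1 : ∀ i l, Jb 1 (pderiv l (Y i)) x (ρ + ‖x‖)
        (C * M * ρ ^ n * (ρ + ‖x‖) ^ (2 - (n : ℝ)) / (ρ + ‖x‖)) := fun i l =>
      (Jb.of_rpow hr fun k hk => hYj i k hk x).pd (hY i) l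
    refine (Jb.mul he (sm_SS hY _ i j) hr ((hη R hR x).2 _ hr (by linarith))
      (jb_SS ht hY hr h1 i j)).mono hr (le_of_eq ?_)
    rw [show (1 : ℝ) - n = 2 - n - 1 by ring, Real.rpow_sub_one hr.ne']
    ring
  · have hp : 0 < ‖x‖ ^ (-(n : ℝ) - e0) := by positivity
    have h1 : eta R x * G i x = G i x := by
      rcases le_total ‖x‖ R with h | h
      · rw [eta_eq_one hR h, one_mul]
      · rw [(hG i).far x (hR1.trans h), mul_zero]
    have h2 : |eta R x * (lap (Y i) x + -G i x)| ≤ η / 2 * ‖x‖ ^ (-(n : ℝ) - e0) := by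
      rw [abs_mul, abs_of_nonneg (eta_nonneg R x)]
      refine (mul_le_of_le_one_left (abs_nonneg _) (eta_le_one R x)).trans ((hYl i x).trans ?_)
      gcongr
      exact one_add_rpow_le hx (by linarith) (by linarith)
    have h4 : |∑ j, pderiv j (eta R) x * SS 1 Y x i j| ≤ η / 2 * ‖x‖ ^ (-(n : ℝ) - e0) := by
      rcases le_total (2 * R) ‖x‖ with h | h
      · simp only [pd_eta_of_ge hR h, zero_mul, Finset.sum_const_zero, abs_zero]; positivity
      have h5 : ∀ j, |SS 1 Y x i j| ≤ (n + 2) * (A0 * (1 + ‖x‖) ^ (-(n : ℝ))) := fun j =>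
        (jb_SS (j := 0) (r := 1) (by simp) hY one_pos (fun i l k hk => by
          obtain rfl : k = 0 := by omega
          simpa using hA' i l x) i j).abs_le
      have h6 : (1 + ‖x‖) ^ (-(n : ℝ)) ≤ 2 * R * R ^ (-(1 - e0)) * ‖x‖ ^ (-(n : ℝ) - e0) := by
        refine (one_add_rpow_le hx (by linarith) le_rfl).trans ?_
        have e1 : ‖x‖ ^ (-(n : ℝ)) = ‖x‖ ^ e0 * ‖x‖ ^ (-(n : ℝ) - e0) := by
          rw [← Real.rpow_add (by linarith)]; congr 1; ring
        have e2 : R * R ^ (-(1 - e0)) = R ^ e0 := by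
          rw [show -(1 - e0) = e0 - 1 by ring, Real.rpow_sub_one hR.ne']; field_simp
        rw [e1, mul_assoc 2, e2]
        gcongr
        calc ‖x‖ ^ e0 ≤ (2 * R) ^ e0 := by gcongr
          _ = 2 ^ e0 * R ^ e0 := Real.mul_rpow (by norm_num) hR.le
          _ ≤ 2 ^ (1 : ℝ) * R ^ e0 := by gcongr; norm_num
          _ = _ := by rw [Real.rpow_one]
      calc _ ≤ ∑ j, |pderiv j (eta R) x * SS 1 Y x i j| := Finset.abs_sum_le_sum_abs _ _
        _ ≤ ∑ _j : Fin n, D / R * ((n + 2) * (A0 *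
            (2 * R * R ^ (-(1 - e0)) * ‖x‖ ^ (-(n : ℝ) - e0)))) := by
          refine Finset.sum_le_sum fun j _ => ?_
          rw [abs_mul]
          gcongr
          · exact (hη R hR x).1.abs_pd_le j
          · exact (h5 j).trans (by gcongr)
        _ = n * D * ((n + 2) * A0) * 2 * R ^ (-(1 - e0)) * ‖x‖ ^ (-(n : ℝ) - e0) := by
          simp only [Finset.sum_const, Finset.card_univ, Fintype.card_fin, nsmul_eq_mul]
          field_simp
        _ ≤ _ := by gcongr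
    rw [LJ_T hn he hY]
    calc _ = |∑ j, pderiv j (eta R) x * SS 1 Y x i j + eta R x * (lap (Y i) x + -G i x)| := by
          congr 1; linear_combination h1
      _ ≤ _ := abs_add_le _ _
      _ ≤ _ := by linarith

end Crest.Agent.N346.P0.GA

end
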