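import Crest.Agent.N346.P0.GA2

/-! Row 346, Part 0, step GA (helper15), file 3: the far-field function `ψ`. -/

set_option autoImplicit false
open MeasureTheory Filter Topology Matrix
open scoped ContDiff
open Crest.GeometryTopology.CoordMetric
open Crest.MathPhysics.ExteriorData

noncomputable section

namespace Crest.Agent.N346.P0.GA
open Bs

variable {n : ℕ} {u v : E n → ℝ}

theorem lap_add (hu : ContDiff ℝ ∞ u) (hv : ContDiff ℝ ∞ v) (x : E n) :
    lap (fun y => u y + v y) x = lap u x + lap v x := by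
  have e : ∀ i, pderiv i (fun y => u y + v y) = fun y => pderiv i u y + pderiv i v y :=
    fun i => funext fun y => pd_add (smooth_diff hu y) (smooth_diff hv y) i
  simp only [lap, e, pd_add (smooth_diff (contDiff_pd hu _) x) (smooth_diff (contDiff_pd hv _) x),
    Finset.sum_add_distrib]

theorem norm_iter_add (hu : ContDiff ℝ ∞ u) (hv : ContDiff ℝ ∞ v) (k : ℕ) (x : E n) :
    ‖iteratedFDeriv ℝ k (fun y => u y + v y) x‖
      ≤ ‖iteratedFDeriv ℝ k u x‖ + ‖iteratedFDeriv ℝ k v x‖ := by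
  have := iteratedFDeriv_add_apply (𝕜 := ℝ) (i := k) (x := x)
    (hu.of_le (natle k)).contDiffAt (hv.of_le (natle k)).contDiffAt
  rw [show (fun y => u y + v y) = u + v from rfl, this]
  exact norm_add_le _ _

theorem size {R ρ t q s : ℝ} (hR : 0 < R) (hρ : R ≤ ρ) (ht : 0 ≤ t) (hq : q ≤ (n : ℝ) - 2)
    (hs : s ≤ 0) : R ^ (-q - 2) * R ^ n * (ρ + t) ^ s ≤ (R + t) ^ ((n : ℝ) - q - 2 + s) := by
  rw [← Real.rpow_natCast, ← Real.rpow_add hR, Real.rpow_add (x := R + t) (by positivity),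
    show -q - 2 + n = n - q - 2 by ring]
  exact mul_le_mul (Real.rpow_le_rpow hR.le (by linarith) (by linarith))
    (Real.rpow_le_rpow_of_nonpos (by positivity) (by linarith) hs)
    (Real.rpow_nonneg (by linarith) _) (by positivity)

theorem integrable_of_le {s A : ℝ} (hu : Continuous u) (hs : 0 < s)
    (h : ∀ y, |u y| ≤ A * (1 + ‖y‖) ^ (-(n : ℝ) - s)) : Integrable u := by
  have h1 : Integrable fun y : E n => (1 + ‖y‖) ^ (-((n : ℝ) + s)) :=
    integrable_one_add_norm (by simpa using hs)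
  refine (h1.const_mul A).mono' hu.aestronglyMeasurable (.of_forall fun y => ?_)
  rw [show -((n : ℝ) + s) = -(n : ℝ) - s by ring]
  exact h y

theorem lower {c t R y z s : ℝ} (hc : 0 ≤ c) (hy : 0 < y) (hR : 0 ≤ R) (hRy : R ≤ y) (hz : y ≤ z)
    (hzt : z ≤ t * y) (hs : s ≤ 0) :
    c * (1 + t) ^ (s - 2) * y ^ s ≤ c * z ^ 2 * (R + z) ^ (s - 2) := by
  have ht : 0 ≤ 1 + t := by nlinarith
  calc _ = c * y ^ 2 * ((1 + t) * y) ^ (s - 2) := by
        rw [Real.mul_rpow ht hy.le, Real.rpow_sub hy, Real.rpow_two]; field_simp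
    _ ≤ _ := by
        gcongr c * ?_ * ?_
        · gcongr
        · exact Real.rpow_le_rpow_of_nonpos (by linarith) (by linarith) (by linarith)

/-- the function `ψ` and the margin `s2` -/
theorem exists_psi (hN : NewtStmt) (hV : VStmt) {q e0 : ℝ} (hE : Expo n q e0) {w ξ : E n} {g0 : ℝ}
    {B : Matrix (Fin n) (Fin n) ℝ} (hB : Boost w ξ g0 B) {M0 : ℝ} (hM0 : 0 ≤ M0) :
    ∃ C c1 : ℝ, 0 ≤ C ∧ 0 < c1 ∧ ∀ η : ℝ, 0 < η → ∀ᶠ R in atTop, ∀ (G : E n → ℝ) (m : ℝ),
      Src G (3 * R) (M0 * R ^ (-q - 2)) → ∫ x, G x = ((n : ℝ) - 1) * unitSphereArea n * m →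
      ∃ (ψ s2 : E n → ℝ) (C' c' : ℝ), Far n e0 (m / g0 + η) ψ (g0 * (3 * R)) C' c' ∧ 0 < c' ∧
        (∀ k : ℕ, k ≤ 2 → ∀ y, ‖iteratedFDeriv ℝ k ψ y‖ ≤ C * (R + ‖y‖) ^ (-q - (k : ℝ))) ∧
        (∀ x, 0 ≤ s2 x) ∧ (∀ x, s2 x ≤ C * (R + ‖x‖) ^ (-q - 2)) ∧
        (∀ x : E n, R ≤ ‖x‖ → c1 * ‖x‖ ^ (-(n : ℝ) - e0) ≤ s2 x) ∧
        ∀ x : E n, 1 ≤ ‖x‖ → |((n : ℝ) - 1) * g0 ^ 2 * lap ψ (lin B x) + G x + s2 x|
          ≤ η * ‖x‖ ^ (-(n : ℝ) - e0) := by
  have hn := hE.n_ge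
  have h3 : (3 : ℝ) ≤ n := by exact_mod_cast hn
  have he0 := hE.e0_pos
  have he1 := hE.e0_lt_one
  have hq := hE.q_lt
  have hg1 := hB.g0_ge
  have hg0 := hB.g0_pos
  obtain ⟨CN, hCN, hN⟩ := hN n hn
  obtain ⟨hVj, CV, cV, hCV, hcV, hV⟩ := hV n hn e0 he0 he1
  choose D hD0 hD using hVj
  set D' := D 0 + D 1 + D 2
  have hD' : ∀ k ≤ 2, D k ≤ D' := fun k hk => by
    have := hD0 0; have := hD0 1; have := hD0 2
    interval_cases k <;> simp only [D'] <;> linarith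
  have hD'0 : 0 ≤ D' := (hD0 0).trans (hD' 0 (by norm_num))
  obtain ⟨κ, hκ⟩ : ∃ κ : ℝ, κ = ((n : ℝ) - 1) * g0 ^ 2 := ⟨_, rfl⟩
  have hκ0 : 0 < κ := by rw [hκ]; exact mul_pos (by linarith) (by positivity)
  rw [← hκ]
  have hω := unitSphereArea_pos (n := n) (by omega)
  set I := ∫ y : E n, (1 + ‖y‖) ^ (-(n : ℝ) - 1)
  have hI : 0 ≤ I := integral_nonneg fun y => by positivity
  set A := CN * (κ⁻¹ * (g0 * M0)) * (g0 * 3) ^ n
  have hA : 0 ≤ A := by positivity
  refine ⟨A + D' + κ * CV, κ * (cV * (1 + g0) ^ (-(n : ℝ) - e0 - 2)), by positivity, by positivity,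
    fun η hη => ?_⟩
  have hlim : Tendsto (fun R : ℝ => CV * R ^ (-e0)) atTop (𝓝 0) := by
    simpa using (tendsto_rpow_neg_atTop he0).const_mul CV
  filter_upwards [eventually_ge_atTop 1,
    hlim.eventually_le_const (by positivity : 0 < unitSphereArea n * η / 2)] with R hR1 hRe G m hG hm
  have hR : 0 < R := by linarith
  obtain ⟨hVs, -, hVl, hVu, hVm, -⟩ := hV R hR1
  set c2 := cV * (1 + 1) ^ (-(n : ℝ) - e0 - 2)
  have hc2 : 0 < c2 := by positivity
  obtain ⟨η1, hη1, h1, h2, h4⟩ : ∃ η1 : ℝ, 0 < η1 ∧ κ * η1 ≤ η ∧ η1 ≤ c2 / 2 ∧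
      η1 * I ≤ unitSphereArea n * η / 2 := by
    refine ⟨min (η / κ) (min (c2 / 2) (unitSphereArea n * η / 2 / (I + 1))), by positivity,
      ?_, (min_le_right _ _).trans (min_le_left _ _), ?_⟩
    · rw [mul_comm, ← le_div_iff₀ hκ0]; exact min_le_left _ _
    · calc _ ≤ unitSphereArea n * η / 2 / (I + 1) * (I + 1) := by
            gcongr
            · exact (min_le_right _ _).trans (min_le_right _ _)
            · linarith
        _ = _ := by field_simp
  have hρ : R ≤ g0 * (3 * R) := by nlinarith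
  have hG' : Src (fun y => κ⁻¹ * G (lin B⁻¹ y)) (g0 * (3 * R))
      (κ⁻¹ * (g0 * (M0 * R ^ (-q - 2)))) := by
    have h : Src (fun y => G (lin B⁻¹ y)) (g0 * (3 * R)) (g0 * (M0 * R ^ (-q - 2))) :=
      ⟨contDiff_comp_lin _ hG.sm, fun y hy => hG.far _
        (le_of_mul_le_mul_left (hy.trans (hB.le_norm_inv y)) hg0), fun y => by
        simpa using (Jb.comp_clm (lin B⁻¹) le_rfl hB.norm_lin_inv_le hG.sm (by positivity)
          (hG.jet _)).rescale (by positivity) hg1⟩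
    simpa only [abs_of_pos (inv_pos.2 hκ0)] using h.const_mul κ⁻¹
  obtain ⟨c, hc, hcj, hcl, hcb, -⟩ := hN _ _ _ hG'.sm (by linarith) hG'.far hG'.jet η1 hη1
  set M' := κ⁻¹ * (g0 * (M0 * R ^ (-q - 2)))
  have hM' : 0 ≤ M' := hG'.nonneg
  have hRe0 : R ^ (-e0) ≤ 1 := Real.rpow_le_one_of_one_le_of_nonpos hR1 (by linarith)
  have hVj : ∀ k : ℕ, ∀ y : E n, ‖iteratedFDeriv ℝ k (VV e0 R) y‖
      ≤ D k * (R + ‖y‖) ^ (2 - (n : ℝ) - (k : ℝ)) := fun k y =>
    (hD k R hR1 y).trans (by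
      gcongr
      exact mul_le_of_le_one_right (hD0 k) hRe0)
  have hone : ∀ (ρ s : ℝ) (y : E n), 1 ≤ ρ → s ≤ 0 → (ρ + ‖y‖) ^ s ≤ (1 + ‖y‖) ^ s :=
    fun ρ s y h hs => Real.rpow_le_rpow_of_nonpos (by positivity) (by linarith) hs
  have hVu' : ∀ y : E n, |lap (VV e0 R) y| ≤ CV * (1 + ‖y‖) ^ (-(n : ℝ) - e0) := fun y =>
    (hVu y).trans (mul_le_mul_of_nonneg_left (hone _ _ y hR1 (by linarith)) hCV)
  have hcl' : ∀ y : E n, |lap c y + κ⁻¹ * G (lin B⁻¹ y)| ≤ η1 * (1 + ‖y‖) ^ (-(n : ℝ) - e0) :=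
    fun y => (hcl y).trans (by
      gcongr
      · linarith [norm_nonneg y])
  set A1 := M' * (1 + g0 * (3 * R)) ^ ((n : ℝ) + e0)
  have hA1 : 0 ≤ A1 := by positivity
  have hGb : ∀ y : E n, |κ⁻¹ * G (lin B⁻¹ y)| ≤ A1 * (1 + ‖y‖) ^ (-(n : ℝ) - e0) := fun y => by
    rcases le_total (g0 * (3 * R)) ‖y‖ with h | h
    · rw [hG'.far y h, abs_zero]; positivity
    · refine (hG'.jet y).abs_le.trans ?_
      rw [mul_assoc, show -(n : ℝ) - e0 = -((n : ℝ) + e0) by ring, Real.rpow_neg (by positivity),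
        ← div_eq_mul_inv]
      refine le_mul_of_one_le_right hM' ((one_le_div (by positivity)).2 ?_)
      gcongr
  set A2 := CN * M' * (g0 * (3 * R)) ^ n
  have hA2 : 0 ≤ A2 := by positivity
  refine ⟨fun y => c y + VV e0 R y, fun x => κ * -lap (VV e0 R) (lin B x),
    A2 + D' + (η1 + A1 + CV), c2 / 2, ⟨hc.add hVs, fun k hk y => ?_, fun k => ?_, fun y => ?_,
      fun y hy => ?_, ?_⟩, by positivity, fun k hk y => ?_, fun x => ?_, fun x => ?_,
      fun x hx => ?_, fun x hx => ?_⟩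
  · have hk0 : (0 : ℝ) ≤ k := Nat.cast_nonneg k
    have hs : 2 - (n : ℝ) - k ≤ 0 := by linarith
    have e1 := (hcj k hk y).trans (mul_le_mul_of_nonneg_left (hone _ _ y (by linarith) hs) hA2)
    have e2 := (hVj k y).trans (mul_le_mul (hD' k hk) (hone _ _ y hR1 hs) (by positivity) hD'0)
    have e3 : 0 ≤ (η1 + A1 + CV) * (1 + ‖y‖) ^ (2 - (n : ℝ) - k) := by positivity
    have := norm_iter_add hc hVs k y
    linarith
  · obtain ⟨D1, hD1⟩ := hcb k
    have hk0 : (0 : ℝ) ≤ k := Nat.cast_nonneg k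
    refine ⟨D1 + D k, fun y => (norm_iter_add hc hVs k y).trans (add_le_add (hD1 y) ?_)⟩
    exact (hVj k y).trans (mul_le_of_le_one_right (hD0 k)
      (Real.rpow_le_one_of_one_le_of_nonpos (by linarith [norm_nonneg y]) (by linarith)))
  · have e3 : 0 ≤ (A2 + D') * (1 + ‖y‖) ^ (-(n : ℝ) - e0) := by positivity
    have e1 := abs_le.1 (hcl' y)
    have e2 := abs_le.1 (hGb y)
    have e4 := abs_le.1 (hVu' y)
    rw [lap_add hc hVs, abs_le]
    constructor <;> linarith [e1.1, e1.2, e2.1, e2.2, e4.1, e4.2]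
  · have hy1 : 1 ≤ ‖y‖ := by linarith
    have e1 := (abs_le.1 (hcl y)).2
    rw [hG'.far y hy, add_zero] at e1
    have e2 : η1 * (1 + ‖y‖) ^ (-(n : ℝ) - 1) ≤ c2 / 2 * ‖y‖ ^ (-(n : ℝ) - e0) := by
      gcongr
      exact one_add_rpow_le hy1 (by linarith) (by linarith)
    have e3 := (lower (t := 1) (s := -(n : ℝ) - e0) hcV.le (by linarith : 0 < ‖y‖) hR.le
      (hρ.trans hy) le_rfl (by simp) (by linarith)).trans (hVl y)
    rw [lap_add hc hVs]
    linarith
  · have i1 : Integrable fun y => lap c y + κ⁻¹ * G (lin B⁻¹ y) :=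
      integrable_of_le ((contDiff_lap hc).add hG'.sm).continuous he0 hcl'
    have i2 := hG'.integrable
    have i3 : Integrable (lap (VV e0 R : E n → ℝ)) :=
      integrable_of_le (contDiff_lap hVs).continuous he0 hVu'
    have i4 : Integrable fun y : E n => (1 + ‖y‖) ^ (-(n : ℝ) - 1) :=
      integrable_of_le (A := 1) (s := 1) ((continuous_const.add continuous_norm).rpow_const
        fun y => .inl (by change 1 + ‖y‖ ≠ 0; positivity)) one_pos fun y => by rw [abs_of_nonneg (by positivity), one_mul]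
    have e1 : ∫ y, lap (fun y => c y + VV e0 R y) y = (∫ y, lap c y + κ⁻¹ * G (lin B⁻¹ y))
        - (∫ y, κ⁻¹ * G (lin B⁻¹ y)) + ∫ y : E n, lap (VV e0 R) y := by
      rw [← integral_sub i1 i2, ← integral_add (f := fun y => lap c y + κ⁻¹ * G (lin B⁻¹ y)
        - κ⁻¹ * G (lin B⁻¹ y)) (i1.sub i2) i3]
      refine integral_congr_ae (.of_forall fun y => ?_)
      simp only [lap_add hc hVs]
      ring
    have e2 : ∫ y, κ⁻¹ * G (lin B⁻¹ y) = unitSphereArea n * (m / g0) := by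
      have hd : B⁻¹.det = g0⁻¹ := by rw [det_nonsing_inv, hB.det, Ring.inverse_eq_inv']
      have : (n : ℝ) - 1 ≠ 0 := by linarith
      rw [integral_const_mul, integral_comp_lin (by rw [hd]; positivity), hd, hm, hκ,
        abs_of_pos (by positivity)]
      field_simp
    have e3 : -∫ y, lap c y + κ⁻¹ * G (lin B⁻¹ y) ≤ η1 * I := by
      rw [← integral_neg, ← integral_const_mul]
      exact integral_mono i1.neg (i4.const_mul _) fun y => (neg_le_abs _).trans (hcl y)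
    rw [e1, e2]
    linarith
  · have hk0 : (0 : ℝ) ≤ k := Nat.cast_nonneg k
    have hy := norm_nonneg y
    have e1 : ‖iteratedFDeriv ℝ k c y‖ ≤ A * (R + ‖y‖) ^ (-q - (k : ℝ)) := by
      refine (hcj k hk y).trans ?_
      have := size (n := n) (s := 2 - (n : ℝ) - k) hR hρ hy hq.le (by linarith)
      rw [show (n : ℝ) - q - 2 + (2 - n - k) = -q - k by ring] at this
      calc _ = A * (R ^ (-q - 2) * R ^ n * (g0 * (3 * R) + ‖y‖) ^ (2 - (n : ℝ) - k)) := by
            simp only [A, A2, M', mul_pow]; ring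
        _ ≤ _ := by gcongr
    have e2 : ‖iteratedFDeriv ℝ k (VV e0 R) y‖ ≤ D' * (R + ‖y‖) ^ (-q - (k : ℝ)) :=
      (hVj k y).trans (by
        gcongr
        · exact hD' k hk
        · linarith
        · linarith)
    have e3 : 0 ≤ κ * CV * (R + ‖y‖) ^ (-q - (k : ℝ)) := by positivity
    have := norm_iter_add hc hVs k y
    linarith
  · exact mul_nonneg hκ0.le (le_trans (by positivity) (hVl _))
  · have hx := norm_nonneg x
    have e1 : (R + ‖lin B x‖) ^ (-(n : ℝ) - e0) ≤ (R + ‖x‖) ^ (-q - 2) :=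
      (Real.rpow_le_rpow_of_nonpos (by positivity) (by linarith [hB.lo x]) (by linarith)).trans
        (Real.rpow_le_rpow_of_exponent_le (by linarith) (by linarith))
    have e2 := ((neg_le_abs _).trans (hVu (lin B x))).trans (mul_le_mul_of_nonneg_left e1 hCV)
    have e3 : 0 ≤ (A + D') * (R + ‖x‖) ^ (-q - 2) := by positivity
    have := mul_le_mul_of_nonneg_left e2 hκ0.le
    linarith
  · rw [mul_assoc]
    exact mul_le_mul_of_nonneg_left ((lower (s := -(n : ℝ) - e0) hcV.le (by linarith) hR.le hx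
      (hB.lo x) (hB.hi x) (by linarith)).trans (hVl _)) hκ0.le
  · have e1 := hcl (lin B x)
    rw [lin_inv_lin hB.det_ne] at e1
    have e2 : (1 + ‖lin B x‖) ^ (-(n : ℝ) - 1) ≤ ‖x‖ ^ (-(n : ℝ) - e0) :=
      (Real.rpow_le_rpow_of_nonpos (by positivity) (by linarith [hB.lo x]) (by linarith)).trans
        (one_add_rpow_le hx (by linarith) (by linarith))
    rw [lap_add hc hVs]
    calc _ = κ * |lap c (lin B x) + κ⁻¹ * G x| := by
          rw [← abs_of_pos hκ0, ← abs_mul, abs_of_pos hκ0]; congr 1; field_simp; ring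
      _ ≤ κ * (η1 * ‖x‖ ^ (-(n : ℝ) - e0)) := by gcongr; exact e1.trans (by gcongr)
      _ ≤ _ := by rw [← mul_assoc]; gcongr

end Crest.Agent.N346.P0.GA

end
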