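import Crest.Agent.N346.P0.Lin

/-! Row 346, Part 0 (helper11): step 0.3, nonlinear verification, first half
(sizes, the cut-off data, the jets of the perturbation). -/

set_option autoImplicit false
open MeasureTheory Filter Topology Matrix
open scoped ContDiff
open Crest.GeometryTopology.CoordMetric
open Crest.MathPhysics.ExteriorData

noncomputable section

namespace Crest.Agent.N346.P0.GB
open Bs

variable {n : ℕ} {q e0 R r : ℝ}

/-- the small scale -/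
def sg (n : ℕ) (q e0 R r : ℝ) : ℝ := R ^ (-(2 * q - ((n : ℝ) - 2) - e0)) * r ^ (-(n : ℝ) - e0)

theorem sg_nonneg (hR : 1 ≤ R) (hr : 1 ≤ r) : 0 ≤ sg n q e0 R r := by unfold sg; positivity

theorem q_pos (h : Expo n q e0) : 0 < q := by
  have : (3 : ℝ) ≤ n := by exact_mod_cast h.n_ge
  linarith [h.q_gt]

theorem t_le_a (h : Expo n q e0) (hR : 1 ≤ R) (hr : 1 ≤ r) : (R + r) ^ (-q) ≤ r ^ (-q) :=
  Real.rpow_le_rpow_of_nonpos (by linarith) (by linarith) (by linarith [q_pos h])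

theorem t_le_R (h : Expo n q e0) (hR : 1 ≤ R) (hr : 0 ≤ r) : (R + r) ^ (-q) ≤ R ^ (-q) :=
  Real.rpow_le_rpow_of_nonpos (by linarith) (by linarith) (by linarith [q_pos h])

theorem a_le_one (h : Expo n q e0) (hr : 1 ≤ r) : r ^ (-q) ≤ 1 :=
  Real.rpow_le_one_of_one_le_of_nonpos hr (by linarith [q_pos h])

theorem a_le_R (h : Expo n q e0) (hR : 1 ≤ R) (hr : R ≤ r) : r ^ (-q) ≤ R ^ (-q) :=
  Real.rpow_le_rpow_of_nonpos (by linarith) hr (by linarith [q_pos h])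

theorem s1 (h : Expo n q e0) (hR : 1 ≤ R) (hr : 1 ≤ r) :
    r ^ (-q) * (R + r) ^ (-q) / r ^ 2 ≤ sg n q e0 R r := by
  have hr0 : 0 < r := by linarith
  have hs : 0 < R + r := by linarith
  have h1 := h.q_lt
  have h2 := h.e0_pos
  have h3 := h.e0_lt
  have e1 : r ^ (-q) / r ^ 2 = r ^ ((n : ℝ) - 2 + e0 - q) * r ^ (-(n : ℝ) - e0) := by
    rw [← Real.rpow_add hr0, ← Real.rpow_two, ← Real.rpow_sub hr0]; congr 1; ring
  have e2 : (R + r) ^ ((n : ℝ) - 2 + e0 - q) * (R + r) ^ (-q)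
      = (R + r) ^ (-(2 * q - ((n : ℝ) - 2) - e0)) := by
    rw [← Real.rpow_add hs]; congr 1; ring
  calc _ = r ^ ((n : ℝ) - 2 + e0 - q) * (R + r) ^ (-q) * r ^ (-(n : ℝ) - e0) := by
        rw [mul_div_right_comm, e1]; ring
    _ ≤ (R + r) ^ ((n : ℝ) - 2 + e0 - q) * (R + r) ^ (-q) * r ^ (-(n : ℝ) - e0) := by
        gcongr <;> linarith
    _ ≤ _ := by
        rw [e2, sg]
        gcongr ?_ * _
        exact Real.rpow_le_rpow_of_nonpos (by linarith) (by linarith) (by linarith)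

theorem s0 {s : ℝ} (h : Expo n q e0) (hR : 1 ≤ R) (hr : R ≤ r) (hs : s ≤ -2 * q - 2) :
    r ^ s ≤ sg n q e0 R r := by
  have hr0 : 0 < r := by linarith
  calc r ^ s ≤ r ^ (-(2 * q - ((n : ℝ) - 2) - e0) + (-(n : ℝ) - e0)) :=
        Real.rpow_le_rpow_of_exponent_le (by linarith) (by linarith)
    _ ≤ _ := by
        rw [Real.rpow_add hr0, sg]
        gcongr ?_ * _
        exact Real.rpow_le_rpow_of_nonpos (by linarith) hr (by linarith [h.e0_lt])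

theorem s2 (h : Expo n q e0) (hR : 1 ≤ R) (hr : R ≤ r) :
    (r ^ (-q)) ^ 2 / r ^ 2 ≤ sg n q e0 R r := by
  have hr0 : 0 < r := by linarith
  rw [← Real.rpow_mul_natCast hr0.le, ← Real.rpow_two, ← Real.rpow_sub hr0]
  exact s0 h hR hr (by push_cast; linarith)

theorem ee_le (h : Expo n q e0) (hr : 1 ≤ r) :
    ((1 + r) ^ (1 - (n : ℝ))) ^ 2 ≤ r ^ (2 - 2 * (n : ℝ)) := by
  have : (3 : ℝ) ≤ n := by exact_mod_cast h.n_ge
  rw [← Real.rpow_mul_natCast (by linarith)]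
  refine (Real.rpow_le_rpow_of_nonpos (by linarith : 0 < r) (by linarith)
    (by push_cast; linarith)).trans (le_of_eq ?_)
  congr 1; push_cast; ring

theorem s3 (h : Expo n q e0) (hR : 1 ≤ R) (hr : R ≤ r) :
    ((1 + r) ^ (1 - (n : ℝ))) ^ 2 ≤ sg n q e0 R r :=
  (ee_le h (hR.trans hr)).trans (s0 h hR hr (by linarith [h.q_lt]))

theorem t_le_κ (h : Expo n q e0) (hR : 1 ≤ R) (hr : 0 ≤ r) :
    (R + r) ^ (-q) ≤ R ^ (-(2 * q - ((n : ℝ) - 2) - e0)) :=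
  (t_le_R h hR hr).trans
    (Real.rpow_le_rpow_of_exponent_le hR (by linarith [h.q_lt, h.e0_pos]))

theorem s4 (h : Expo n q e0) (hR : 1 ≤ R) (hr : 1 ≤ r) :
    (R + r) ^ (-q) * ((1 + r) ^ (1 - (n : ℝ))) ^ 2 ≤ sg n q e0 R r := by
  have : (3 : ℝ) ≤ n := by exact_mod_cast h.n_ge
  refine mul_le_mul (t_le_κ h hR (by linarith)) ((ee_le h hr).trans
    (Real.rpow_le_rpow_of_exponent_le hr (by linarith [h.e0_lt_one]))) (by positivity)
    (by positivity)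

theorem s5 (h : Expo n q e0) (hR : 1 ≤ R) (hr : 1 ≤ r) (hr4 : r ≤ 4) :
    (R + r) ^ (-q) ≤ 4 ^ ((n : ℝ) + e0) * sg n q e0 R r := by
  have h1 : (4 : ℝ) ^ (-(n : ℝ) - e0) ≤ r ^ (-(n : ℝ) - e0) :=
    Real.rpow_le_rpow_of_nonpos (by linarith) hr4 (by linarith [h.e0_pos, Nat.cast_nonneg (α := ℝ) n])
  have h2 : (4 : ℝ) ^ ((n : ℝ) + e0) * 4 ^ (-(n : ℝ) - e0) = 1 := by
    rw [← Real.rpow_add (by norm_num)]; simp
  calc _ ≤ R ^ (-(2 * q - ((n : ℝ) - 2) - e0)) * (4 ^ ((n : ℝ) + e0) * 4 ^ (-(n : ℝ) - e0)) := by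
        rw [h2, mul_one]; exact t_le_κ h hR (by linarith)
    _ ≤ R ^ (-(2 * q - ((n : ℝ) - 2) - e0)) * (4 ^ ((n : ℝ) + e0) * r ^ (-(n : ℝ) - e0)) := by
        gcongr
    _ = _ := by rw [sg]; ring

theorem abs_sum_mul_le {e : Fin n → ℝ} {a : ℝ} (h : ∀ i, |e i| ≤ a) (v : E n) :
    |∑ i, e i * v i| ≤ n * a * ‖v‖ := by
  calc _ ≤ ∑ _i : Fin n, a * ‖v‖ := by
        refine (Finset.abs_sum_le_sum_abs _ _).trans (Finset.sum_le_sum fun i _ => ?_)
        rw [abs_mul]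
        exact mul_le_mul (h i) (PiLp.norm_apply_le v i) (abs_nonneg _) ((abs_nonneg _).trans (h i))
    _ = _ := by simp [mul_assoc]

theorem eventually_lt_norm {x : E n} {s : ℝ} (h : s < ‖x‖) : ∀ᶠ y in 𝓝 x, s < ‖y‖ :=
  (isOpen_lt continuous_const continuous_norm).eventually_mem h

theorem eventually_norm_lt {x : E n} {s : ℝ} (h : ‖x‖ < s) : ∀ᶠ y in 𝓝 x, ‖y‖ < s :=
  (isOpen_lt continuous_norm continuous_const).eventually_mem h

/-- the cut-off metric -/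
def gc (g : MetricField n) (R : ℝ) : MetricField n := fun y => 1 + eta R y • (g y - 1)

/-- the cut-off second fundamental form -/
def Kc (K : MetricField n) (R : ℝ) : MetricField n := fun y => eta R y • K y

theorem gc_sub (g : MetricField n) (R : ℝ) :
    (fun y => gc g R y - 1) = fun y => eta R y • (g y - 1) := by
  funext y; simp [gc]

theorem gc_near {g : MetricField n} (hR : 0 < R) {y : E n} (hy : ‖y‖ ≤ R) : gc g R y = g y := by
  simp [gc, eta_eq_one hR hy]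

theorem Kc_near {K : MetricField n} (hR : 0 < R) {y : E n} (hy : ‖y‖ ≤ R) : Kc K R y = K y := by
  simp [Kc, eta_eq_one hR hy]

theorem quadForm_gc (g : MetricField n) (R : ℝ) (x v : E n) :
    quadForm (gc g R) x v = (1 - eta R x) * ‖v‖ ^ 2 + eta R x * quadForm g x v := by
  rw [← quadForm_one x v]
  simp only [quadForm, gc, Matrix.add_apply, Matrix.smul_apply, Matrix.sub_apply, smul_eq_mul,
    Finset.mul_sum, ← Finset.sum_add_distrib]
  exact Finset.sum_congr rfl fun i _ => Finset.sum_congr rfl fun j _ => by ring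

variable {g K : MetricField n} {EE : VectorField n} {E1 : ℝ} {P : E n} {Q A Λ c0 θ0 r1 : ℝ}

theorem cut_est (hJL : JLStmt) (hX : Expo n q e0) (h : Strict n q e0 g K EE E1 P Q A Λ c0 θ0 r1) :
    ∃ D : ℝ, Λ ≤ D ∧ ∀ R : ℝ, 1 ≤ R → IsRiemannianOn (gc g R) Set.univ ∧ Sm (Kc K R) ∧
      (∀ x, Lo Λ (gc g R) x) ∧ ∀ x : E n, 1 ≤ ‖x‖ →
      JB (fun y => gc g R y - 1) (Kc K R) x ‖x‖ (D * ‖x‖ ^ (-q)) ∧
      |energyDensity (gc g R) (Kc K R) x - eta R x * energyDensity g K x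
        - (Lmu (fun y => eta R y • (g y - 1)) x - eta R x * Lmu (fun y => g y - 1) x)|
        ≤ D * sg n q e0 R ‖x‖ ∧
      (∀ i, |momentumDensity (gc g R) (Kc K R) x i - eta R x * momentumDensity g K x i
        - (LJ (fun y => eta R y • K y) x i - eta R x * LJ K x i)| ≤ D * sg n q e0 R ‖x‖) ∧
      ∀ i, |momentumDensity g K x i| ≤ D * (‖x‖ ^ (-q) / ‖x‖ ^ 2) := by
  obtain ⟨Cη, hCη, hη⟩ := exists_eta_jb n 2
  have hΛ := h.Λ_ge
  set D0 := 4 * (Cη * Λ) with hD0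
  have hD0' : Λ ≤ D0 := by nlinarith
  obtain ⟨C0, hC0, h0⟩ := JL0 hJL n (hΛ.trans hD0')
  have hk : Sm fun y => g y - 1 := (sm_riem h.riem).sub (Sm.const 1)
  have hpos : 0 ≤ C0 * D0 ^ 2 := by positivity
  have hpos' : 0 ≤ C0 * D0 := by have := hΛ.trans hD0'; positivity
  refine ⟨D0 + 2 * (C0 * D0 ^ 2) + C0 * D0, by linarith, fun R hR => ?_⟩
  have hR0 : 0 < R := by linarith
  have hlo : ∀ x, Lo Λ (gc g R) x := fun x v => by
    rw [quadForm_gc]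
    have h1 := h.g_lo x v
    have h2 := lo_one hΛ x v
    rw [quadForm_one] at h2
    have h3 := eta_nonneg R x
    have h4 := eta_le_one R x
    nlinarith
  have hsm : Sm (gc g R) := (Sm.const 1).add (hk.smul (contDiff_eta R))
  have hri : IsRiemannianOn (gc g R) Set.univ := riem_of_lo (by linarith) hsm
    (sy_one.add (((sy_riem h.riem).sub sy_one).smul _)) hlo
  have hKc : Sm (Kc K R) := h.K_smooth.smul (contDiff_eta R)
  refine ⟨hri, hKc, hlo, fun x hx => ?_⟩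
  have hx0 : 0 < ‖x‖ := by linarith
  have ha := a_le_one hX hx
  have ha0 : 0 ≤ ‖x‖ ^ (-q) := by positivity
  have hD1 : 0 ≤ D0 := by linarith
  have hJB : JB (fun y => gc g R y - 1) (Kc K R) x ‖x‖ (D0 * ‖x‖ ^ (-q)) := by
    rw [gc_sub]
    have := JB.smul (contDiff_eta R) hk h.K_smooth hx0 ((hη R hR0 x).2 _ hx0 (by linarith))
      (h.decay x hx)
    exact this.mono hx0 (le_of_eq (by ring))
  have hle : D0 * ‖x‖ ^ (-q) ≤ D0 := mul_le_of_le_one_right hD1 ha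
  have A1 := h0 _ _ hri hKc x _ _ hx0 (by positivity) hle ((hlo x).mono (by linarith) hD0') hJB
  have A2 := h0 _ _ h.riem h.K_smooth x _ _ hx0 (by positivity) hle
    ((h.g_lo x).mono (by linarith) hD0') ((h.decay x hx).mono hx0 (by gcongr))
  have hsg := sg_nonneg (n := n) (q := q) (e0 := e0) hR hx
  refine ⟨hJB.mono hx0 (by gcongr; linarith), ?_, fun i => ?_, fun i => (A2.2.2 i).trans ?_⟩
  rotate_left 2
  · rw [mul_div_assoc, ← mul_assoc]; gcongr; linarith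
  all_goals rcases lt_or_ge ‖x‖ R with hxR | hxR
  · have e1 : gc g R =ᶠ[𝓝 x] g := (eventually_norm_lt hxR).mono fun y hy => gc_near hR0 hy.le
    have e2 : (fun y => eta R y • (g y - 1)) =ᶠ[𝓝 x] fun y => g y - 1 :=
      (eventually_norm_lt hxR).mono fun y hy => by simp [eta_eq_one hR0 hy.le]
    rw [energyDensity_congr e1 (Kc_near hR0 hxR.le), Lmu_congr e2, eta_eq_one hR0 hxR.le]
    simp only [one_mul, sub_self, abs_zero]
    positivity
  · have hs : C0 * ((D0 * ‖x‖ ^ (-q)) ^ 2 / ‖x‖ ^ 2) ≤ C0 * D0 ^ 2 * sg n q e0 R ‖x‖ := by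
      rw [mul_pow, mul_div_assoc, ← mul_assoc]; gcongr; exact s2 hX hR hxR
    have B1 := abs_le.1 (A1.1.trans hs)
    have B2 := abs_le.1 (A2.1.trans hs)
    rw [gc_sub] at B1
    have h3 := eta_nonneg R x
    have h4 := eta_le_one R x
    have h5 : 0 ≤ (D0 + C0 * D0) * sg n q e0 R ‖x‖ := by positivity
    have h6 : 0 ≤ C0 * D0 ^ 2 * sg n q e0 R ‖x‖ := by positivity
    rw [abs_le]
    constructor <;> nlinarith [B1.1, B1.2, B2.1, B2.2]
  · have e1 : gc g R =ᶠ[𝓝 x] g := (eventually_norm_lt hxR).mono fun y hy => gc_near hR0 hy.le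
    have e2 : Kc K R =ᶠ[𝓝 x] K := (eventually_norm_lt hxR).mono fun y hy => Kc_near hR0 hy.le
    rw [momentumDensity_congr e1 e2, show (fun y => eta R y • K y) = Kc K R from rfl,
      LJ_congr e2, eta_eq_one hR0 hxR.le]
    simp only [one_mul, sub_self, abs_zero]
    positivity
  · have hs : C0 * ((D0 * ‖x‖ ^ (-q)) ^ 2 / ‖x‖ ^ 2) ≤ C0 * D0 ^ 2 * sg n q e0 R ‖x‖ := by
      rw [mul_pow, mul_div_assoc, ← mul_assoc]; gcongr; exact s2 hX hR hxR
    have B1 := abs_le.1 ((A1.2.1 i).trans hs)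
    have B2 := abs_le.1 ((A2.2.1 i).trans hs)
    rw [show (fun y => eta R y • K y) = Kc K R from rfl]
    have h3 := eta_nonneg R x
    have h4 := eta_le_one R x
    have h5 : 0 ≤ (D0 + C0 * D0) * sg n q e0 R ‖x‖ := by positivity
    have h6 : 0 ≤ C0 * D0 ^ 2 * sg n q e0 R ‖x‖ := by positivity
    rw [abs_le]
    constructor <;> nlinarith [B1.1, B1.2, B2.1, B2.2]

variable {w ξ : E n} {g0 : ℝ} {B : Matrix (Fin n) (Fin n) ℝ}

/-- metric perturbation -/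
def kp (B : Matrix (Fin n) (Fin n) ℝ) (ξ : E n) (ψ : E n → ℝ) : MetricField n :=
  fun y => (1 - eta 2 y) • (gS (Bᵀ * B) (fun z => ψ (lin B z)) (dotF ξ) y - 1)

/-- perturbation of the second fundamental form -/
def Kp (B : Matrix (Fin n) (Fin n) ℝ) (ξ : E n) (ψ : E n → ℝ) (T : MetricField n) : MetricField n :=
  fun y => (1 - eta 2 y) • (KS (Bᵀ * B) (fun z => ψ (lin B z)) (dotF ξ) y + T y)

theorem pert_est (hSTI : STIStmt) (hSJ : SJStmt) (hX : Expo n q e0) (hb : Boost w ξ g0 B) {C : ℝ}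
    (hC : 0 ≤ C) : ∃ D β : ℝ, 0 ≤ D ∧ 0 < β ∧ ∀ R : ℝ, 1 ≤ R → R ^ (-q) ≤ β →
    ∀ (m Λ' c1 η : ℝ) (ψ : E n → ℝ) (T : MetricField n) (s2 : E n → ℝ) (R1 C' c' : ℝ),
    LinOut n q e0 g K w g0 B m Λ' C c1 η R ψ T s2 R1 C' c' →
    Sm (kp B ξ ψ) ∧ Sy (kp B ξ ψ) ∧ Sm (Kp B ξ ψ T) ∧ Sy (Kp B ξ ψ T) ∧
    (∀ x i j, |kp B ξ ψ x i j| ≤ D * (R + ‖x‖) ^ (-q)) ∧ ∀ x : E n, 1 ≤ ‖x‖ →
      JB (kp B ξ ψ) (Kp B ξ ψ T) x ‖x‖ (D * (R + ‖x‖) ^ (-q)) ∧ (4 < ‖x‖ →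
        |Lmu (kp B ξ ψ) x + ((n : ℝ) - 1) * g0 ^ 2 * lap ψ (lin B x)| ≤ D * sg n q e0 R ‖x‖ ∧
        ∀ i, |LJ (Kp B ξ ψ T) x i + w i * (((n : ℝ) - 1) * g0 ^ 2 * lap ψ (lin B x)) - LJ T x i|
          ≤ D * sg n q e0 R ‖x‖) := by
  obtain ⟨Cη, hCη, hη⟩ := exists_eta_jb n 2
  obtain ⟨CS, βS, hCS, hβS, hS⟩ := hSTI n hX.n_ge _ hb.posDef ‖w‖ (norm_nonneg _) hb.w_lt
  obtain ⟨CJ, βJ, hCJ, hβJ, hJ⟩ := hSJ n hX.n_ge w ξ g0 B hb
  have hg0 := hb.g0_ge
  set G := g0 ^ 2 * C with hG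
  have hG0 : 0 ≤ G := by positivity
  have hGC : C ≤ G := le_mul_of_one_le_left hC (one_le_pow₀ hg0)
  set D1 := 4 * ((1 + Cη) * (CJ * G + C)) with hD1
  have hD10 : 0 ≤ D1 := by positivity
  have hD11 : 0 ≤ CJ * G ^ 2 := by positivity
  refine ⟨D1 + CJ * G ^ 2, min βS βJ / (G + 1), by positivity,
    by have := lt_min hβS hβJ; positivity, fun R hR hRβ m Λ' c1 η ψ T s2 R1 C' c' h => ?_⟩
  have hψ := h.far.smooth
  have hc : ContDiff ℝ ∞ fun z => ψ (lin B z) := contDiff_comp_lin B hψ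
  have hsmall : ∀ x : E n, G * (R + ‖x‖) ^ (-q) ≤ min βS βJ := fun x => by
    rw [le_div_iff₀ (by positivity)] at hRβ
    have h1 := t_le_R hX hR (norm_nonneg x)
    have h2 : 0 ≤ R ^ (-q) := by positivity
    nlinarith
  have hjet : ∀ (x : E n) (r : ℝ), 0 < r → r ≤ R + ‖x‖ →
      Jb 2 (fun z => ψ (lin B z)) x r (G * (R + ‖x‖) ^ (-q)) := fun x r hr hrx => by
    have h1 := hb.lo x
    have h2 : 0 < R + ‖x‖ := by positivity
    have h3 : Jb 2 ψ (lin B x) (R + ‖lin B x‖) (C * (R + ‖lin B x‖) ^ (-q)) :=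
      Jb.of_rpow (by positivity) fun k hk => h.ψ_jet k hk _
    refine (Jb.comp_clm _ hg0 hb.norm_lin_le hψ hr (h3.scale hr (by linarith))).mono hr ?_
    rw [hG, mul_assoc]
    gcongr g0 ^ 2 * (C * ?_)
    exact Real.rpow_le_rpow_of_nonpos h2 (by linarith) (by linarith [q_pos hX])
  have hcs : ∀ x, |ψ (lin B x)| ≤ min βS βJ := fun x =>
    (hjet x 1 one_pos (by linarith [norm_nonneg x])).abs_le.trans (hsmall x)
  obtain ⟨hri, -, -, hKs, hKy, -⟩ := hS _ _ hc (contDiff_dotF ξ)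
    (fun x => (hcs x).trans (min_le_left _ _)) fun x => by
      simp only [pd_dotF]; exact hb.qb_inv_ξ.le
  have hζ : ContDiff ℝ ∞ fun y : E n => 1 - eta 2 y := contDiff_const.sub (contDiff_eta 2)
  have hk : Sm fun y => gS (Bᵀ * B) (fun z => ψ (lin B z)) (dotF ξ) y - 1 :=
    (sm_riem hri).sub (Sm.const 1)
  have hJ' := fun (x : E n) (r : ℝ) (hr : 0 < r) (hrx : r ≤ R + ‖x‖) =>
    hJ _ hc (fun x => (hcs x).trans (min_le_right _ _)) x r _ hr (by positivity)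
      ((hsmall x).trans (min_le_right _ _)) (hjet x r hr hrx)
  refine ⟨hk.smul hζ, ((sy_riem hri).sub sy_one).smul _, (hKs.add h.T_smooth).smul hζ,
    (hKy.add h.T_symm).smul _, fun x i j => ?_, fun x hx => ⟨?_, fun hx4 => ?_⟩⟩
  · have h1 := ((hJ' x 1 one_pos (by linarith [norm_nonneg x])).1.1 i j).abs_le
    have h2 : |1 - eta 2 x| ≤ 1 :=
      abs_le.2 ⟨by linarith [eta_le_one 2 x], by linarith [eta_nonneg 2 x]⟩
    rw [kp, Matrix.smul_apply, smul_eq_mul, abs_mul]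
    refine (mul_le_mul h2 h1 (abs_nonneg _) zero_le_one).trans ?_
    rw [one_mul, ← mul_assoc]
    gcongr
    have : 0 ≤ CJ * G := by positivity
    nlinarith [mul_nonneg (show 0 ≤ Cη by linarith) (add_nonneg this hC)]
  · have hx0 : 0 < ‖x‖ := by linarith
    have hs : 0 < R + ‖x‖ := by positivity
    have h1 := (hJ' x _ hx0 (by linarith)).1
    have h2 : JB (fun _ => 0) T x ‖x‖ (C * (R + ‖x‖) ^ (-q)) := by
      refine ⟨fun i j => Jb.zero 2 x hx0 (by positivity), fun i j => ?_⟩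
      have : Jb 1 (fun y => T y i j) x (R + ‖x‖) (C * (R + ‖x‖) ^ (-q - 1)) :=
        Jb.of_rpow hs fun k hk => h.T_jet i j k hk x
      refine (this.scale hx0 (by linarith)).mono hx0 ?_
      rw [Real.rpow_sub_one hs.ne', ← mul_div_assoc]
      gcongr
      linarith
    have h3 := JB.add hk hKs (Sm.const 0) h.T_smooth h1 h2
    simp only [add_zero] at h3
    have h4 : Jb 2 (fun y : E n => 1 - eta 2 y) x ‖x‖ (1 + Cη) := by
      simpa using Jb.sub contDiff_const (contDiff_eta 2) (Jb.const 1 2 x hx0)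
        ((hη 2 two_pos x).2 _ hx0 (by linarith))
    refine (JB.smul hζ hk (hKs.add h.T_smooth) hx0 h4 h3).mono hx0 ?_
    have : 0 ≤ CJ * G ^ 2 * (R + ‖x‖) ^ (-q) := by positivity
    rw [hD1]
    nlinarith
  · have hx0 : 0 < ‖x‖ := by linarith
    have he : ∀ᶠ y in 𝓝 x, eta 2 y = 0 :=
      (eventually_lt_norm hx4).mono fun y hy => eta_eq_zero two_pos (by linarith)
    have e1 : kp B ξ ψ =ᶠ[𝓝 x] fun y => gS (Bᵀ * B) (fun z => ψ (lin B z)) (dotF ξ) y - 1 :=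
      he.mono fun y hy => by simp [kp, hy]
    have e2 : Kp B ξ ψ T =ᶠ[𝓝 x] fun y => KS (Bᵀ * B) (fun z => ψ (lin B z)) (dotF ξ) y + T y :=
      he.mono fun y hy => by simp [Kp, hy]
    obtain ⟨-, h1, h2⟩ := hJ' x _ hx0 (by linarith)
    rw [bl_comp_lin hb.det_ne hψ] at h1 h2
    have hs : CJ * ((G * (R + ‖x‖) ^ (-q)) ^ 2 / ‖x‖ ^ 2)
        ≤ (D1 + CJ * G ^ 2) * sg n q e0 R ‖x‖ := by
      have h3 := s1 hX hR hx
      have h4 := t_le_a hX hR hx
      have h5 := sg_nonneg (n := n) (q := q) (e0 := e0) hR hx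
      calc _ = CJ * G ^ 2 * ((R + ‖x‖) ^ (-q) * (R + ‖x‖) ^ (-q) / ‖x‖ ^ 2) := by ring
        _ ≤ CJ * G ^ 2 * (‖x‖ ^ (-q) * (R + ‖x‖) ^ (-q) / ‖x‖ ^ 2) := by gcongr
        _ ≤ _ := mul_le_mul (by linarith) h3 (by positivity) (by positivity)
    refine ⟨by rw [Lmu_congr e1]; exact h1.trans hs, fun i => ?_⟩
    rw [LJ_congr e2, LJ_add hKs h.T_smooth]
    refine le_trans (le_of_eq ?_) ((h2 i).trans hs)
    congr 1; ring

end Crest.Agent.N346.P0.GB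

end
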