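import Mathlib

/-! Row 346, Part 0, leaf JL (helper47): an abstract order calculus for pairs of values.

A context `X : Cx P` is a family (indexed by `c : X.ι`) of pairs of points `p c`, `p' c : P` with
sizes `a c` (distance of `p c` from the base point), `b c` (distance from `p c` to `p' c`) and an
inverse length `ρ c`.  `X.O0 w Q`, `X.O1 w Q`, `X.O2 w Q`: the quantity `Q : P → ℝ` of weight `w`
is Lipschitz of order `0`, `1`, `2`, uniformly over the family. -/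

set_option autoImplicit false

noncomputable section

namespace Crest.Agent.N346.P0.JLc

/-- `|u| ≤ C s` uniformly -/
def Bd {ι : Type} (u s : ι → ℝ) : Prop := ∃ C : ℝ, 0 ≤ C ∧ ∀ c, |u c| ≤ C * s c

namespace Bd
variable {ι : Type} {u v s t : ι → ℝ}

theorem of_le (h : ∀ c, |u c| ≤ s c) : Bd u s := ⟨1, zero_le_one, fun c => by simpa using h c⟩

theorem of_eq (hu : Bd u s) (h : ∀ c, v c = u c) : Bd v s := by
  obtain ⟨C, hC, h1⟩ := hu
  exact ⟨C, hC, fun c => by rw [h]; exact h1 c⟩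

theorem zero (s : ι → ℝ) : Bd (fun _ => 0) s := ⟨0, le_rfl, fun c => by simp⟩

theorem add (hu : Bd u s) (hv : Bd v s) : Bd (fun c => u c + v c) s := by
  obtain ⟨C, hC, h1⟩ := hu
  obtain ⟨D, hD, h2⟩ := hv
  exact ⟨C + D, by positivity, fun c => (abs_add_le _ _).trans (by
    have := h1 c; have := h2 c; linarith)⟩

theorem neg (hu : Bd u s) : Bd (fun c => -u c) s := by
  obtain ⟨C, hC, h1⟩ := hu
  exact ⟨C, hC, fun c => by rw [abs_neg]; exact h1 c⟩

theorem sub (hu : Bd u s) (hv : Bd v s) : Bd (fun c => u c - v c) s :=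
  (hu.add hv.neg).of_eq fun _ => sub_eq_add_neg _ _

theorem mul (hu : Bd u s) (hv : Bd v t) : Bd (fun c => u c * v c) fun c => s c * t c := by
  obtain ⟨C, hC, h1⟩ := hu
  obtain ⟨D, hD, h2⟩ := hv
  refine ⟨C * D, by positivity, fun c => ?_⟩
  rw [abs_mul]
  calc _ ≤ C * s c * (D * t c) :=
        mul_le_mul (h1 c) (h2 c) (abs_nonneg _) ((abs_nonneg _).trans (h1 c))
    _ = _ := by ring

theorem const_mul (k : ℝ) (hu : Bd u s) : Bd (fun c => k * u c) s := by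
  obtain ⟨C, hC, h1⟩ := hu
  refine ⟨|k| * C, by positivity, fun c => ?_⟩
  rw [abs_mul, mul_assoc]
  exact mul_le_mul_of_nonneg_left (h1 c) (abs_nonneg _)

theorem sum {κ : Type} (S : Finset κ) {U : κ → ι → ℝ} (h : ∀ k, Bd (U k) s) :
    Bd (fun c => ∑ k ∈ S, U k c) s := by
  classical
  induction S using Finset.induction_on with
  | empty => simpa using zero s
  | insert k S hk ih => simpa only [Finset.sum_insert hk] using (h k).add ih

theorem mono (hu : Bd u s) {D : ℝ} (hD : 0 ≤ D) (h : ∀ c, s c ≤ D * t c) : Bd u t := by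
  obtain ⟨C, hC, h1⟩ := hu
  refine ⟨C * D, by positivity, fun c => (h1 c).trans ?_⟩
  rw [mul_assoc]
  exact mul_le_mul_of_nonneg_left (h c) hC

theorem mono' (hu : Bd u s) (h : ∀ c, s c ≤ t c) : Bd u t :=
  hu.mono zero_le_one fun c => by simpa using h c

/-- a uniform constant over a finite family -/
theorem unif {κ : Type} [Fintype κ] {U : κ → ι → ℝ} (h : ∀ k, Bd (U k) s) (hs : ∀ c, 0 ≤ s c) :
    ∃ C : ℝ, 0 ≤ C ∧ ∀ k c, |U k c| ≤ C * s c := by
  choose C hC h1 using h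
  refine ⟨∑ k, C k, Finset.sum_nonneg fun k _ => hC k, fun k c => (h1 k c).trans ?_⟩
  exact mul_le_mul_of_nonneg_right
    (Finset.single_le_sum (f := C) (fun k _ => hC k) (Finset.mem_univ k)) (hs c)

end Bd

/-- a family of pairs of points with sizes -/
structure Cx (P : Type) where
  ι : Type
  p : ι → P
  p' : ι → P
  a : ι → ℝ
  b : ι → ℝ
  ρ : ι → ℝ
  L : ℝ
  a0 : ∀ c, 0 ≤ a c
  b0 : ∀ c, 0 ≤ b c
  ρ0 : ∀ c, 0 ≤ ρ c
  L0 : 0 ≤ L
  aL : ∀ c, a c ≤ L
  bL : ∀ c, b c ≤ L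

namespace Cx
variable {P : Type} (X : Cx P)

/-- `Q p = O(s)`, `Q p' - Q p = O(t)` -/
def O (s t : X.ι → ℝ) (Q : P → ℝ) : Prop :=
  Bd (fun c => Q (X.p c)) s ∧ Bd (fun c => Q (X.p' c) - Q (X.p c)) t

/-- order zero -/
def O0 (w : ℕ) (Q : P → ℝ) : Prop := X.O (fun c => X.ρ c ^ w) (fun c => X.b c * X.ρ c ^ w) Q

/-- order one -/
def O1 (w : ℕ) (Q : P → ℝ) : Prop :=
  X.O (fun c => X.a c * X.ρ c ^ w) (fun c => X.b c * X.ρ c ^ w) Q

/-- order two -/
def O2 (w : ℕ) (Q : P → ℝ) : Prop :=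
  X.O (fun c => X.a c * X.ρ c ^ w) (fun c => (X.a c + X.b c) * X.b c * X.ρ c ^ w) Q

variable {X} {s t s' t' S T : X.ι → ℝ} {Q R : P → ℝ} {v w u : ℕ}

theorem O.of_eq (h : X.O s t Q) (e : ∀ z, R z = Q z) : X.O s t R := by
  rw [show R = Q from funext e]; exact h

theorem O.add (hQ : X.O s t Q) (hR : X.O s t R) : X.O s t fun z => Q z + R z :=
  ⟨hQ.1.add hR.1, (hQ.2.add hR.2).of_eq fun _ => by ring⟩

theorem O.sub (hQ : X.O s t Q) (hR : X.O s t R) : X.O s t fun z => Q z - R z :=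
  ⟨hQ.1.sub hR.1, (hQ.2.sub hR.2).of_eq fun _ => by ring⟩

theorem O.neg (hQ : X.O s t Q) : X.O s t fun z => -Q z :=
  ⟨hQ.1.neg, hQ.2.neg.of_eq fun _ => by ring⟩

theorem O.const_mul (k : ℝ) (hQ : X.O s t Q) : X.O s t fun z => k * Q z :=
  ⟨hQ.1.const_mul k, (hQ.2.const_mul k).of_eq fun _ => by ring⟩

theorem O.sum {κ : Type} (A : Finset κ) {U : κ → P → ℝ} (h : ∀ k, X.O s t (U k)) :
    X.O s t fun z => ∑ k ∈ A, U k z :=
  ⟨Bd.sum A fun k => (h k).1, (Bd.sum A fun k => (h k).2).of_eq fun _ => by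
    rw [Finset.sum_sub_distrib]⟩

theorem O.mul (hQ : X.O s t Q) (hR : X.O s' t' R) {D : ℝ} (hD : 0 ≤ D)
    (h1 : ∀ c, s c * s' c ≤ D * S c) (h2 : ∀ c, t c * t' c ≤ D * T c)
    (h3 : ∀ c, t c * s' c ≤ D * T c) (h4 : ∀ c, s c * t' c ≤ D * T c) :
    X.O S T fun z => Q z * R z :=
  ⟨(hQ.1.mul hR.1).mono hD h1,
    ((((hQ.2.mul hR.2).mono hD h2).add ((hQ.2.mul hR.1).mono hD h3)).add
      ((hQ.1.mul hR.2).mono hD h4)).of_eq fun _ => by ring⟩

theorem le_aux (c : X.ι) (v w : ℕ) {x y z D : ℝ} (h : x * y ≤ D * z) :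
    x * X.ρ c ^ v * (y * X.ρ c ^ w) ≤ D * (z * X.ρ c ^ (v + w)) := by
  have := X.ρ0 c
  calc _ = x * y * X.ρ c ^ (v + w) := by rw [pow_add]; ring
    _ ≤ D * z * X.ρ c ^ (v + w) := by gcongr
    _ = _ := by ring

theorem O0.one_mul (h : X.O0 w Q) :
    X.O (fun c => 1 * X.ρ c ^ w) (fun c => X.b c * X.ρ c ^ w) Q := by
  simpa only [_root_.one_mul, O0] using h

theorem O0.mul (hQ : X.O0 v Q) (hR : X.O0 w R) (e : v + w = u := by rfl) :
    X.O0 u fun z => Q z * R z := by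
  subst e
  have hL := X.L0
  have : X.O (fun c => 1 * X.ρ c ^ (v + w)) (fun c => X.b c * X.ρ c ^ (v + w))
      fun z => Q z * R z := by
    refine O.mul hQ.one_mul hR.one_mul (D := X.L + 1) (by positivity) (fun c => ?_) (fun c => ?_)
      (fun c => ?_) (fun c => ?_) <;> refine le_aux c v w ?_ <;>
      have := X.b0 c <;> have := X.bL c <;> nlinarith
  simpa only [_root_.one_mul, O0] using this

theorem O0.mul1 (hQ : X.O0 v Q) (hR : X.O1 w R) (e : v + w = u := by rfl) :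
    X.O1 u fun z => Q z * R z := by
  subst e
  have hL := X.L0
  refine O.mul hQ.one_mul hR (D := X.L + 1) (by positivity) (fun c => ?_) (fun c => ?_)
      (fun c => ?_) (fun c => ?_) <;> refine le_aux c v w ?_ <;>
      have := X.b0 c <;> have := X.bL c <;> have := X.a0 c <;> have := X.aL c <;> nlinarith

theorem O1.mul0 (hQ : X.O1 v Q) (hR : X.O0 w R) (e : v + w = u := by rfl) :
    X.O1 u fun z => Q z * R z :=
  O.of_eq (hR.mul1 hQ (by omega)) fun _ => mul_comm _ _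

theorem O1.mul (hQ : X.O1 v Q) (hR : X.O1 w R) (e : v + w = u := by rfl) :
    X.O2 u fun z => Q z * R z := by
  subst e
  have hL := X.L0
  refine O.mul hQ hR (D := X.L + 1) (by positivity) (fun c => ?_) (fun c => ?_)
      (fun c => ?_) (fun c => ?_) <;> refine le_aux c v w ?_ <;>
      have h1 := X.b0 c <;> have := X.bL c <;> have h2 := X.a0 c <;> have := X.aL c <;>
      have := mul_nonneg h1 h2 <;> have := mul_nonneg h1 h1 <;>
      have := mul_nonneg hL (mul_nonneg (add_nonneg h2 h1) h1) <;> nlinarith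

theorem O2.o1 (hQ : X.O2 w Q) : X.O1 w Q := by
  have hL := X.L0
  refine ⟨hQ.1, hQ.2.mono (D := 2 * X.L) (by positivity) fun c => ?_⟩
  have := X.b0 c; have := X.bL c; have := X.aL c; have := X.ρ0 c
  rw [mul_assoc]
  gcongr
  linarith

theorem O1.o0 (hQ : X.O1 w Q) : X.O0 w Q := by
  refine ⟨hQ.1.mono X.L0 fun c => ?_, hQ.2⟩
  have := X.aL c; have := X.ρ0 c
  gcongr

theorem O0.const (k : ℝ) : X.O0 0 fun _ => k :=
  ⟨⟨|k|, abs_nonneg _, fun c => by simp⟩, (Bd.zero _).of_eq fun _ => sub_self _⟩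

/-- `Q` has linear part `l` -/
def Lin (X : Cx P) (w : ℕ) (Q l : P → ℝ) : Prop := X.O2 w (fun z => Q z - l z) ∧ X.O1 w l

variable {l m : P → ℝ}

theorem Lin.o1 (h : X.Lin w Q l) : X.O1 w Q :=
  O.of_eq (O.add h.1.o1 h.2) fun _ => by ring

theorem O1.lin (h : X.O1 w Q) : X.Lin w Q Q :=
  ⟨⟨(Bd.zero _).of_eq fun _ => sub_self _, (Bd.zero _).of_eq fun _ => by ring⟩, h⟩

theorem O2.lin (h : X.O2 w Q) : X.Lin w Q fun _ => 0 :=
  ⟨O.of_eq h fun _ => sub_zero _, ⟨Bd.zero _, (Bd.zero _).of_eq fun _ => sub_self _⟩⟩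

theorem Lin.of_eq (h : X.Lin w Q l) (e : ∀ z, R z = Q z) (e' : ∀ z, m z = l z) : X.Lin w R m := by
  rw [show R = Q from funext e, show m = l from funext e']; exact h

theorem Lin.add (hQ : X.Lin w Q l) (hR : X.Lin w R m) :
    X.Lin w (fun z => Q z + R z) fun z => l z + m z :=
  ⟨O.of_eq (O.add hQ.1 hR.1) fun _ => by ring, O.add hQ.2 hR.2⟩

theorem Lin.sub (hQ : X.Lin w Q l) (hR : X.Lin w R m) :
    X.Lin w (fun z => Q z - R z) fun z => l z - m z :=
  ⟨O.of_eq (O.sub hQ.1 hR.1) fun _ => by ring, O.sub hQ.2 hR.2⟩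

theorem Lin.const_mul (k : ℝ) (hQ : X.Lin w Q l) :
    X.Lin w (fun z => k * Q z) fun z => k * l z :=
  ⟨O.of_eq (O.const_mul k hQ.1) fun _ => by ring, O.const_mul k hQ.2⟩

theorem Lin.sum {κ : Type} (A : Finset κ) {U V : κ → P → ℝ} (h : ∀ k, X.Lin w (U k) (V k)) :
    X.Lin w (fun z => ∑ k ∈ A, U k z) fun z => ∑ k ∈ A, V k z :=
  ⟨O.of_eq (O.sum A fun k => (h k).1) fun _ => by rw [Finset.sum_sub_distrib],
    O.sum A fun k => (h k).2⟩

/-- multiplication by a coefficient that is close to the constant `k` -/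
theorem Lin.coef {k : ℝ} (hR : X.O1 0 fun z => R z - k) (hQ : X.Lin w Q l) :
    X.Lin w (fun z => R z * Q z) fun z => k * l z :=
  ⟨O.of_eq (O.add (hR.mul hQ.o1 (zero_add w)) (O.const_mul k hQ.1)) fun _ => by ring,
    O.const_mul k hQ.2⟩

theorem Lin.bd (h : X.Lin w Q l) :
    Bd (fun c => Q (X.p' c) - Q (X.p c) - (l (X.p' c) - l (X.p c)))
      fun c => (X.a c + X.b c) * X.b c * X.ρ c ^ w :=
  h.1.2.of_eq fun _ => by ring

end Cx

end Crest.Agent.N346.P0.JLc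

end
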