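import Crest.Agent.N346.P0.Jet
import Crest.Agent.N346.P0.JL1

/-! Row 346, Part 0, leaf JL (helper47): the constraint map written in jets. -/

set_option autoImplicit false
open MeasureTheory Filter Topology Matrix
open scoped ContDiff
open Crest.GeometryTopology.CoordMetric
open Crest.MathPhysics.ExteriorData

noncomputable section

namespace Crest.Agent.N346.P0
open Bs JLc JLc.Cx

variable {n : ℕ} {g K k : MetricField n}

/-! ### formulas -/

theorem pd_inverse (hg : IsRiemannianOn g Set.univ) (x : E n) (m i j : Fin n) :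
    pderiv m (fun y => inverseField g y i j) x = -∑ a, ∑ b,
      inverseField g x i a * pderiv m (fun y => g y a b) x * inverseField g x b j := by
  have hI := fun a b => smooth_diff (contDiff_inv hg a b) x
  have hG := fun a b => smooth_diff (contDiff_g hg a b) x
  have h1 : ∀ b, ∑ a, pderiv m (fun y => inverseField g y i a) x * g x a b
      = -∑ a, inverseField g x i a * pderiv m (fun y => g y a b) x := fun b => by
    have e : (fun y => ∑ a, inverseField g y i a * g y a b) = fun _ => if i = b then (1 : ℝ) else 0 :=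
      funext fun y => sum_inv_mul (riem_posDef hg y) i b
    have h2 := pd_sum (x := x) (s := Finset.univ) (F := fun a y => inverseField g y i a * g y a b)
      (fun a _ => (hI i a).mul (hG a b)) m
    rw [e, pd_const] at h2
    simp only [pd_mul (hI i _) (hG _ b), Finset.sum_add_distrib] at h2
    linarith
  have h3 : pderiv m (fun y => inverseField g y i j) x
      = ∑ b, (∑ a, pderiv m (fun y => inverseField g y i a) x * g x a b) * inverseField g x b j := by
    simp only [Finset.sum_mul]
    rw [Finset.sum_comm]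
    simp only [mul_assoc, ← Finset.mul_sum]
    simp only [inverseField, sum_mul_inv (riem_posDef hg x), mul_ite, mul_one, mul_zero,
      Finset.sum_ite_eq', Finset.mem_univ, if_true]
  rw [h3, Finset.sum_comm]
  simp only [h1, neg_mul, Finset.sum_mul, Finset.sum_neg_distrib]

theorem contDiff_chr (hg : IsRiemannianOn g Set.univ) (c i j : Fin n) :
    ContDiff ℝ ∞ fun y => christoffel g y c i j :=
  contDiff_const.mul (ContDiff.sum fun l _ => (contDiff_inv hg c l).mul
    (((contDiff_pd (contDiff_g hg j l) i).add (contDiff_pd (contDiff_g hg i l) j)).sub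
      (contDiff_pd (contDiff_g hg i j) l)))

theorem pd_chr (hg : IsRiemannianOn g Set.univ) (x : E n) (m c i j : Fin n) :
    pderiv m (fun y => christoffel g y c i j) x = (1 / 2) * ∑ l,
      (pderiv m (fun y => inverseField g y c l) x * (pderiv i (fun y => g y j l) x
          + pderiv j (fun y => g y i l) x - pderiv l (fun y => g y i j) x)
        + inverseField g x c l * (pderiv m (pderiv i fun y => g y j l) x
          + pderiv m (pderiv j fun y => g y i l) x - pderiv m (pderiv l fun y => g y i j) x)) := by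
  have hI := fun a b => smooth_diff (contDiff_inv hg a b) x
  have hD := fun a b c => smooth_diff (contDiff_pd (contDiff_g hg a b) c) x
  unfold christoffel
  rw [pd_const_mul,
    pd_sum fun l _ => (hI c l).fun_mul (((hD j l i).fun_add (hD i l j)).fun_sub (hD i j l))]
  congr 1
  refine Finset.sum_congr rfl fun l _ => ?_
  rw [pd_mul (hI c l) (((hD j l i).fun_add (hD i l j)).fun_sub (hD i j l)),
    pd_sub ((hD j l i).fun_add (hD i l j)) (hD i j l), pd_add (hD j l i) (hD i l j)]

theorem pd_traceK (hg : IsRiemannianOn g Set.univ) (hK : Sm K) (x : E n) (m : Fin n) :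
    pderiv m (traceK g K) x = ∑ a, ∑ b, (pderiv m (fun y => inverseField g y a b) x * K x a b
      + inverseField g x a b * pderiv m (fun y => K y a b) x) := by
  have hI := fun a b => smooth_diff (contDiff_inv hg a b) x
  have hK' := fun a b => smooth_diff (hK a b) x
  unfold traceK
  rw [pd_sum fun a _ => DifferentiableAt.fun_sum fun b _ => (hI a b).fun_mul (hK' a b)]
  refine Finset.sum_congr rfl fun a _ => ?_
  rw [pd_sum fun b _ => (hI a b).fun_mul (hK' a b)]
  refine Finset.sum_congr rfl fun b _ => ?_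
  rw [pd_mul (hI a b) (hK' a b)]

theorem Lmu_eq (hk : Sm k) (x : E n) : Lmu k x = (1 / 2) * ∑ i, ∑ j,
    (pderiv i (pderiv j fun y => k y i j) x - pderiv i (pderiv i fun y => k y j j) x) := by
  have hD := fun a b c => smooth_diff (contDiff_pd (hk a b) c) x
  rw [Lmu, divE, div_eq_inv_mul, one_div]
  congr 1
  refine Finset.sum_congr rfl fun i _ => ?_
  unfold eV
  rw [pd_sum fun j _ => (hD i j j).fun_sub (hD j j i)]
  exact Finset.sum_congr rfl fun j _ => pd_sub (hD i j j) (hD j j i) i

theorem LJ_eq (hK : Sm K) (x : E n) (i : Fin n) : LJ K x i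
    = ∑ j, pderiv j (fun y => K y i j) x - ∑ a, pderiv i (fun y => K y a a) x := by
  have hK' := fun a b => smooth_diff (hK a b) x
  have hT : DifferentiableAt ℝ (fun y => ∑ a, K y a a) x :=
    DifferentiableAt.fun_sum fun a _ => hK' a a
  rw [LJ, divE, ← pd_sum fun a _ => hK' a a]
  unfold pV
  simp only [pd_sub (hK' _ _) (hT.mul_const _), pd_mul_const, Finset.sum_sub_distrib]
  simp only [Matrix.one_apply, mul_ite, mul_one, mul_zero, Finset.sum_ite_eq, Finset.mem_univ,
    if_true]

theorem lapB_eq (hg : IsRiemannianOn g Set.univ) {v : E n → ℝ} (hv : ContDiff ℝ ∞ v) (x : E n) :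
    laplaceBeltrami g v x = ∑ i, ((∑ c, christoffel g x c c i) *
      (∑ j, inverseField g x i j * pderiv j v x) + ∑ j,
      (pderiv i (fun y => inverseField g y i j) x * pderiv j v x
        + inverseField g x i j * pderiv i (pderiv j v) x)) := by
  have hI := fun a b => smooth_diff (contDiff_inv hg a b) x
  have hD := fun a => smooth_diff (contDiff_pd hv a) x
  have hV : DifferentiableAt ℝ (fun y => Real.sqrt (g y).det) x :=
    smooth_diff (contDiff_volDensity hg) x
  have h0 : Real.sqrt (g x).det ≠ 0 := (volDensity_pos hg x).ne'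
  rw [laplaceBeltrami, Finset.mul_sum]
  refine Finset.sum_congr rfl fun i _ => ?_
  rw [pd_mul hV (DifferentiableAt.fun_sum fun j _ => (hI i j).fun_mul (hD j)),
    pd_sum fun j _ => (hI i j).fun_mul (hD j),
    R247.Bo84.pderiv_sqrt_det hg (Set.mem_univ x)]
  simp only [pd_mul (hI i _) (hD _)]
  field_simp

theorem abs_inv_sub_le {A B : Matrix (Fin n) (Fin n) ℝ} (hA : A.PosDef) (hB : B.PosDef) {L β : ℝ}
    (h1 : ∀ i j, |A⁻¹ i j| ≤ L) (h2 : ∀ i j, |B⁻¹ i j| ≤ L) (h : ∀ i j, |(B - A) i j| ≤ β)
    (i j : Fin n) : |B⁻¹ i j - A⁻¹ i j| ≤ n * (n * (L * L)) * β := by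
  have e := Matrix.inv_sub_inv (A := A) (B := B) (iff_of_true hA.isUnit hB.isUnit)
  have hL : 0 ≤ L := (abs_nonneg _).trans (h1 i j)
  have hβ : 0 ≤ β := (abs_nonneg _).trans (h i j)
  rw [abs_sub_comm, ← Matrix.sub_apply, e, Matrix.mul_apply]
  refine (Finset.abs_sum_le_sum_abs _ _).trans ?_
  calc _ ≤ ∑ _b : Fin n, n * (L * β) * L := by
        refine Finset.sum_le_sum fun b _ => ?_
        rw [abs_mul, Matrix.mul_apply]
        gcongr
        · refine (Finset.abs_sum_le_sum_abs _ _).trans ?_
          calc _ ≤ ∑ _a : Fin n, L * β := Finset.sum_le_sum fun a _ => by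
                rw [abs_mul]; gcongr; exacts [h1 i a, h a b]
            _ = _ := by simp
        · exact h2 b j
    _ = _ := by simp; ring

/-! ### order estimates -/

/-- initial data with a point -/
structure Pt (n : ℕ) where
  g : MetricField n
  K : MetricField n
  x : E n
  hg : IsRiemannianOn g Set.univ
  hK : Sm K

section First
variable {X : Cx (Pt n)}
  (hH : ∀ i j, X.O1 0 fun z => inverseField z.g z.x i j - (1 : Matrix (Fin n) (Fin n) ℝ) i j)
  (hg1 : ∀ m i j, X.O1 1 fun z => pderiv m (fun y => z.g y i j) z.x)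
include hH

theorem o_H (i j : Fin n) : X.O0 0 fun z => inverseField z.g z.x i j :=
  O.of_eq (O.add (hH i j).o0 (O0.const ((1 : Matrix (Fin n) (Fin n) ℝ) i j))) fun _ => by ring

include hg1

theorem o_dH (m i j : Fin n) : X.O1 1 fun z => pderiv m (fun y => inverseField z.g y i j) z.x :=
  O.of_eq (O.neg (O.sum _ fun a => O.sum _ fun b =>
    ((o_H hH i a).mul1 (hg1 m a b)).mul0 (o_H hH b j))) fun z => pd_inverse z.hg z.x m i j

theorem o_chr (c i j : Fin n) : X.O1 1 fun z => christoffel z.g z.x c i j :=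
  O.const_mul _ (O.sum _ fun l => (o_H hH c l).mul1
    (O.sub (O.add (hg1 i j l) (hg1 j i l)) (hg1 l i j)))

variable (hg2 : ∀ l m i j, X.O1 2 fun z => pderiv l (pderiv m fun y => z.g y i j) z.x)
  (hK0 : ∀ i j, X.O1 1 fun z => z.K z.x i j)
  (hK1 : ∀ m i j, X.O1 2 fun z => pderiv m (fun y => z.K y i j) z.x)

include hg2 in
theorem l_dchr (m c i j : Fin n) :
    X.Lin 2 (fun z => pderiv m (fun y => christoffel z.g y c i j) z.x) fun z => (1 / 2) *
      (pderiv m (pderiv i fun y => z.g y j c) z.x + pderiv m (pderiv j fun y => z.g y i c) z.x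
        - pderiv m (pderiv c fun y => z.g y i j) z.x) :=
  Lin.of_eq (Lin.const_mul (1 / 2) (Lin.sum Finset.univ fun l => Lin.add
    ((o_dH hH hg1 m c l).mul (O.sub (O.add (hg1 i j l) (hg1 j i l)) (hg1 l i j))).lin
    (Lin.coef (hH c l) (O1.lin (O.sub (O.add (hg2 m i j l) (hg2 m j i l)) (hg2 m l i j))))))
    (fun z => pd_chr z.hg z.x m c i j) fun z => by
      simp only [Matrix.one_apply, zero_add, ite_mul, one_mul, zero_mul, Finset.sum_ite_eq,
        Finset.mem_univ, if_true]

include hg2 in
theorem l_ric (i j : Fin n) : X.Lin 2 (fun z => ricci z.g z.x i j) fun z =>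
    ∑ c, (1 / 2) * (pderiv c (pderiv i fun y => z.g y j c) z.x
      + pderiv c (pderiv j fun y => z.g y i c) z.x - pderiv c (pderiv c fun y => z.g y i j) z.x)
    - ∑ c, (1 / 2) * (pderiv j (pderiv c fun y => z.g y i c) z.x
      + pderiv j (pderiv i fun y => z.g y c c) z.x - pderiv j (pderiv c fun y => z.g y c i) z.x) :=
  Lin.of_eq (Lin.sub (Lin.add (Lin.sub (Lin.sum Finset.univ fun c => l_dchr hH hg1 hg2 c c i j)
      (Lin.sum Finset.univ fun c => l_dchr hH hg1 hg2 j c c i))
      (O2.lin (O.sum Finset.univ fun c => O.sum Finset.univ fun l =>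
        (o_chr hH hg1 c c l).mul (o_chr hH hg1 l i j))))
      (O2.lin (O.sum Finset.univ fun c => O.sum Finset.univ fun l =>
        (o_chr hH hg1 c j l).mul (o_chr hH hg1 l c i))))
    (fun z => by
      rw [ricci, pd_sum fun c _ => smooth_diff (contDiff_chr z.hg c c i) z.x])
    fun z => by rw [add_zero, sub_zero]

include hg2 hK0 in
theorem l_mu : X.Lin 2 (fun z => energyDensity z.g z.K z.x) fun z => Lmu z.g z.x := by
  have hT : X.O1 1 fun z => traceK z.g z.K z.x :=
    O.sum _ fun i => O.sum _ fun j => (o_H hH i j).mul1 (hK0 i j)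
  have hN : X.O2 2 fun z => normSqK z.g z.K z.x :=
    O.sum _ fun i => O.sum _ fun j => O.sum _ fun a => O.sum _ fun b =>
      O1.mul (((o_H hH i a).mul (o_H hH j b)).mul1 (hK0 i j)) (hK0 a b)
  refine Lin.of_eq (Lin.const_mul (1 / 2) (Lin.sub (Lin.add (Lin.sum Finset.univ fun i =>
    Lin.sum Finset.univ fun j => Lin.coef (hH i j) (l_ric hH hg1 hg2 i j)) (hT.mul hT).lin) hN.lin))
    (fun z => by rw [energyDensity, scalarCurv]; ring) fun z => ?_
  have hs : ∀ a b, (fun y => z.g y a b) = fun y => z.g y b a :=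
    fun a b => funext fun y => riem_symm z.hg y a b
  rw [Lmu_eq (sm_riem z.hg)]
  congr 1
  simp only [Matrix.one_apply, ite_mul, one_mul, zero_mul, Finset.sum_ite_eq, Finset.mem_univ,
    if_true, add_zero, sub_zero, Finset.sum_sub_distrib, Finset.sum_add_distrib, mul_sub, mul_add]
  have e1 : ∑ i, ∑ c, (1 / 2 : ℝ) * pderiv c (pderiv i fun y => z.g y i c) z.x
      = ∑ i, ∑ c, (1 / 2 : ℝ) * pderiv i (pderiv c fun y => z.g y i c) z.x := by
    rw [Finset.sum_comm]
    exact Finset.sum_congr rfl fun i _ => Finset.sum_congr rfl fun c _ => by rw [hs c i]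
  have e2 : ∑ i, ∑ c, (1 / 2 : ℝ) * pderiv c (pderiv c fun y => z.g y i i) z.x
      = ∑ i, ∑ c, (1 / 2 : ℝ) * pderiv i (pderiv i fun y => z.g y c c) z.x := Finset.sum_comm
  have e3 : ∑ i, ∑ c, (1 / 2 : ℝ) * pderiv i (pderiv c fun y => z.g y c i) z.x
      = ∑ i, ∑ c, (1 / 2 : ℝ) * pderiv i (pderiv c fun y => z.g y i c) z.x :=
    Finset.sum_congr rfl fun i _ => Finset.sum_congr rfl fun c _ => by rw [hs c i]
  rw [e1, e2, e3]
  simp only [← Finset.mul_sum]
  ring

include hK0 hK1 in
theorem l_J (i : Fin n) :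
    X.Lin 2 (fun z => momentumDensity z.g z.K z.x i) fun z => LJ z.K z.x i := by
  refine Lin.of_eq (Lin.sub (Lin.sum Finset.univ fun j => Lin.sum Finset.univ fun c =>
    Lin.coef (hH j c) (Lin.sub (Lin.sub (hK1 c i j).lin
      (O2.lin (O.sum Finset.univ fun l => (o_chr hH hg1 l c i).mul (hK0 l j))))
      (O2.lin (O.sum Finset.univ fun l => (o_chr hH hg1 l c j).mul (hK0 i l)))))
    (Lin.sum Finset.univ fun a => Lin.sum Finset.univ fun b =>
      Lin.add ((o_dH hH hg1 i a b).mul (hK0 a b)).lin (Lin.coef (hH a b) (hK1 i a b).lin)))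
    (fun z => by rw [momentumDensity, pd_traceK z.hg z.hK]; rfl) fun z => ?_
  rw [LJ_eq z.hK]
  simp only [Matrix.one_apply, ite_mul, one_mul, zero_mul, Finset.sum_ite_eq, Finset.mem_univ,
    if_true, zero_add, sub_zero]

end First

end Crest.Agent.N346.P0

end
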