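import Crest.Agent.N346.P0.Defs
import Crest.Agent.R202.GeoCongr

/-! Row 346, Part 0 (helper11): calculus of jet bounds `Jb`, `JB`; linearity of `Lmu`, `LJ`;
germ lemmas; flat data. -/

set_option autoImplicit false
open MeasureTheory Filter Topology Matrix
open scoped ContDiff
open Crest.GeometryTopology.CoordMetric
open Crest.MathPhysics.ExteriorData

noncomputable section

namespace Crest.Agent.N346.P0
open Bs

variable {n j : ℕ} {f u v : E n → ℝ} {x : E n} {r a b : ℝ}

theorem natle (k : ℕ) : (k : WithTop ℕ∞) ≤ ∞ := by exact_mod_cast le_top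

namespace Jb

theorem abs_le (h : Jb j f x r a) : |f x| ≤ a := by simpa using h 0 (Nat.zero_le _)

theorem nonneg (h : Jb j f x r a) : 0 ≤ a := (abs_nonneg _).trans h.abs_le

theorem of_le {j' : ℕ} (h : Jb j f x r a) (hj : j' ≤ j) : Jb j' f x r a :=
  fun k hk => h k (hk.trans hj)

theorem mono (h : Jb j f x r a) (hr : 0 < r) (hab : a ≤ b) : Jb j f x r b :=
  fun k hk => (h k hk).trans (by gcongr)

/-- a smaller scale is a weaker bound -/
theorem scale {r' : ℝ} (h : Jb j f x r a) (hr' : 0 < r') (hr : r' ≤ r) : Jb j f x r' a :=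
  fun k hk => (h k hk).trans (by have := h.nonneg; gcongr)

/-- a larger scale costs a factor -/
theorem rescale {t : ℝ} (h : Jb j f x r a) (hr : 0 < r) (ht : 1 ≤ t) :
    Jb j f x (t * r) (t ^ j * a) := fun k hk => (h k hk).trans (by
  have := h.nonneg
  rw [mul_pow, div_le_div_iff₀ (by positivity) (by positivity)]
  have : t ^ k ≤ t ^ j := pow_le_pow_right₀ ht hk
  calc a * (t ^ k * r ^ k) ≤ a * (t ^ j * r ^ k) := by gcongr
    _ = _ := by ring)

theorem congr (h : Jb j f x r a) (e : u =ᶠ[𝓝 x] f) : Jb j u x r a := fun k hk => by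
  rw [(e.iteratedFDeriv ℝ k).self_of_nhds]; exact h k hk

theorem norm_fderiv_le (h : Jb (j + 1) f x r a) : ‖fderiv ℝ f x‖ ≤ a / r := by
  simpa using h 1 (by omega)

theorem abs_pd_le (h : Jb (j + 1) f x r a) (i : Fin n) : |pderiv i f x| ≤ a / r :=
  (Bs.abs_pd_le i f x).trans h.norm_fderiv_le

theorem pd (h : Jb (j + 1) f x r a) (hf : ContDiff ℝ ∞ f) (i : Fin n) :
    Jb j (pderiv i f) x r (a / r) := fun k hk => by
  have h1 := norm_iteratedFDeriv_clm_apply_const (𝕜 := ℝ) (f := fderiv ℝ f)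
    (c := EuclideanSpace.single i (1 : ℝ)) (x := x) (N := ∞) (n := k)
    (hf.fderiv_right (m := ∞) (by simp)).contDiffAt (natle k)
  rw [norm_iteratedFDeriv_fderiv] at h1
  have h2 := h (k + 1) (by omega)
  simp only [PiLp.norm_single, norm_one, one_mul] at h1
  calc _ ≤ _ := h1
    _ ≤ _ := h2
    _ = _ := by rw [pow_succ', div_div]

theorem abs_pd_pd_le (h : Jb 2 f x r a) (hf : ContDiff ℝ ∞ f) (i k : Fin n) :
    |pderiv i (pderiv k f) x| ≤ a / r ^ 2 := by
  have := (h.pd hf k).abs_pd_le i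
  rwa [div_div, ← sq] at this

theorem const (c : ℝ) (j : ℕ) (x : E n) (hr : 0 < r) : Jb j (fun _ => c) x r |c| := fun k _ => by
  rcases Nat.eq_zero_or_pos k with rfl | hk
  · simp
  · rw [iteratedFDeriv_const_of_ne hk.ne']; simp only [Pi.zero_apply, norm_zero]; positivity

theorem zero (j : ℕ) (x : E n) (hr : 0 < r) (ha : 0 ≤ a) : Jb j (fun _ => 0) x r a :=
  (const 0 j x hr).mono hr (by simpa using ha)

theorem of_eventually_zero (h : ∀ᶠ y in 𝓝 x, f y = 0) (hr : 0 < r) (ha : 0 ≤ a) : Jb j f x r a :=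
  (zero j x hr ha).congr h

theorem add (hu : ContDiff ℝ ∞ u) (hv : ContDiff ℝ ∞ v) (h1 : Jb j u x r a) (h2 : Jb j v x r b) :
    Jb j (fun y => u y + v y) x r (a + b) := fun k hk => by
  have := iteratedFDeriv_add_apply (𝕜 := ℝ) (i := k) (x := x)
    (hu.of_le (natle k)).contDiffAt (hv.of_le (natle k)).contDiffAt
  rw [show (fun y => u y + v y) = u + v from rfl, this, add_div]
  exact (norm_add_le _ _).trans (add_le_add (h1 k hk) (h2 k hk))

theorem neg (h : Jb j u x r a) : Jb j (fun y => -u y) x r a := fun k hk => by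
  rw [show (fun y => -u y) = -u from rfl, iteratedFDeriv_neg_apply, norm_neg]; exact h k hk

theorem sub (hu : ContDiff ℝ ∞ u) (hv : ContDiff ℝ ∞ v) (h1 : Jb j u x r a) (h2 : Jb j v x r b) :
    Jb j (fun y => u y - v y) x r (a + b) := by
  simpa only [sub_eq_add_neg] using add hu hv.neg h1 h2.neg

theorem const_mul (hu : ContDiff ℝ ∞ u) (c : ℝ) (h : Jb j u x r a) :
    Jb j (fun y => c * u y) x r (|c| * a) := fun k hk => by
  have := iteratedFDeriv_const_smul_apply (𝕜 := ℝ) (i := k) (a := c) (x := x)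
    (hu.of_le (natle k)).contDiffAt
  rw [show (fun y => c * u y) = c • u from rfl, this, norm_smul, Real.norm_eq_abs, mul_div_assoc]
  gcongr
  exact h k hk

theorem mul_const (hu : ContDiff ℝ ∞ u) (c : ℝ) (h : Jb j u x r a) :
    Jb j (fun y => u y * c) x r (|c| * a) := by
  simpa only [mul_comm _ c] using const_mul hu c h

theorem mul (hu : ContDiff ℝ ∞ u) (hv : ContDiff ℝ ∞ v) (hr : 0 < r) (h1 : Jb j u x r a)
    (h2 : Jb j v x r b) : Jb j (fun y => u y * v y) x r (2 ^ j * (a * b)) := fun k hk => by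
  have ha := h1.nonneg
  have hb := h2.nonneg
  refine (norm_iteratedFDeriv_mul_le hu hv x (natle k)).trans ?_
  calc _ ≤ ∑ i ∈ Finset.range (k + 1), (k.choose i : ℝ) * (a * b / r ^ k) := by
        refine Finset.sum_le_sum fun i hi => ?_
        have hi' : i ≤ k := Nat.lt_succ_iff.1 (Finset.mem_range.1 hi)
        have e : a * b / r ^ k = a / r ^ i * (b / r ^ (k - i)) := by
          rw [div_mul_div_comm, ← pow_add, Nat.add_sub_cancel' hi']
        rw [e, mul_assoc]
        gcongr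
        · exact h1 i (hi'.trans hk)
        · exact h2 _ ((Nat.sub_le _ _).trans hk)
    _ = 2 ^ k * (a * b / r ^ k) := by
        rw [← Finset.sum_mul, ← Nat.cast_sum, Nat.sum_range_choose]; norm_num
    _ ≤ 2 ^ j * (a * b / r ^ k) := by gcongr; norm_num
    _ = _ := by ring

theorem sum {ι : Type*} {s : Finset ι} {F : ι → E n → ℝ} {A : ι → ℝ} (hr : 0 < r)
    (hF : ∀ i ∈ s, ContDiff ℝ ∞ (F i)) (h : ∀ i ∈ s, Jb j (F i) x r (A i)) :
    Jb j (fun y => ∑ i ∈ s, F i y) x r (∑ i ∈ s, A i) := by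
  classical
  induction s using Finset.induction_on with
  | empty => simpa using zero j x hr le_rfl
  | insert i s hi ih =>
    simp only [Finset.sum_insert hi]
    exact add (hF i (by simp)) (ContDiff.sum fun k hk => hF k (by simp [hk])) (h i (by simp))
      (ih (fun k hk => hF k (by simp [hk])) fun k hk => h k (by simp [hk]))

/-- sum over `Fin n` with a common bound -/
theorem sum_fin {F : Fin n → E n → ℝ} (hr : 0 < r) (hF : ∀ i, ContDiff ℝ ∞ (F i))
    (h : ∀ i, Jb j (F i) x r a) : Jb j (fun y => ∑ i, F i y) x r (n * a) := by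
  simpa using sum (s := Finset.univ) (A := fun _ => a) hr (fun i _ => hF i) fun i _ => h i

/-- composition with a linear map of norm `≤ t`, `1 ≤ t` -/
theorem comp_clm (L : E n →L[ℝ] E n) {t : ℝ} (ht : 1 ≤ t) (hL : ‖L‖ ≤ t) (hf : ContDiff ℝ ∞ f)
    (hr : 0 < r) (h : Jb j f (L x) r a) : Jb j (fun y => f (L y)) x r (t ^ j * a) := fun k hk => by
  have ha := h.nonneg
  rw [show (fun y => f (L y)) = f ∘ L from rfl, L.iteratedFDeriv_comp_right hf x (natle k)]
  refine (ContinuousMultilinearMap.norm_compContinuousLinearMap_le _ _).trans ?_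
  simp only [Finset.prod_const, Finset.card_univ, Fintype.card_fin]
  calc _ ≤ a / r ^ k * t ^ j := by
        gcongr ?_ * ?_
        · exact h k hk
        · exact (pow_le_pow_left₀ (norm_nonneg _) hL k).trans (pow_le_pow_right₀ ht hk)
    _ = _ := by ring

/-- from a bound in powers of the scale -/
theorem of_rpow {C s : ℝ} (hr : 0 < r)
    (h : ∀ k : ℕ, k ≤ j → ‖iteratedFDeriv ℝ k f x‖ ≤ C * r ^ (s - (k : ℝ))) :
    Jb j f x r (C * r ^ s) := fun k hk => by
  have := h k hk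
  rwa [Real.rpow_sub hr, Real.rpow_natCast, ← mul_div_assoc] at this

theorem to_rpow {C s : ℝ} (hr : 0 < r) (h : Jb j f x r (C * r ^ s)) (k : ℕ) (hk : k ≤ j) :
    ‖iteratedFDeriv ℝ k f x‖ ≤ C * r ^ (s - (k : ℝ)) := by
  rw [Real.rpow_sub hr, Real.rpow_natCast, ← mul_div_assoc]; exact h k hk

end Jb

/-- composition with a smooth scalar function vanishing at `0` -/
theorem exists_jb_comp (n : ℕ) {θ : ℝ → ℝ} (hθ : ContDiff ℝ ∞ θ) (h0 : θ 0 = 0) (L : ℝ) :
    ∃ C : ℝ, 0 ≤ C ∧ ∀ (c : E n → ℝ) (x : E n) (r a : ℝ), ContDiff ℝ ∞ c → 0 < r → a ≤ L →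
      Jb 2 c x r a → Jb 2 (fun y => θ (c y)) x r (C * a) := by
  have hb : ∀ i : ℕ, ∃ D : ℝ, ∀ t ∈ Set.Icc (-L) L, ‖iteratedFDeriv ℝ i θ t‖ ≤ D := fun i =>
    isCompact_Icc.exists_bound_of_continuousOn
      (hθ.continuous_iteratedFDeriv (natle i)).continuousOn
  choose D hD using hb
  set M := |D 0| + |D 1| + |D 2| with hM
  have hM0 : 0 ≤ M := by positivity
  have hDM : ∀ i ≤ 2, ∀ t ∈ Set.Icc (-L) L, ‖iteratedFDeriv ℝ i θ t‖ ≤ M := by
    intro i hi t ht
    refine (hD i t ht).trans ((le_abs_self _).trans ?_)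
    have := abs_nonneg (D 0); have := abs_nonneg (D 1); have := abs_nonneg (D 2)
    interval_cases i <;> linarith
  set L' := max L 1 with hL'
  have hL1 : 1 ≤ L' := le_max_right _ _
  refine ⟨2 * M * L', by positivity, fun c x r a hc hr ha h k hk => ?_⟩
  have ha0 := h.nonneg
  have hcx : c x ∈ Set.Icc (-L) L := abs_le.1 (h.abs_le.trans ha)
  have hML : M ≤ 2 * M * L' := by nlinarith
  interval_cases k
  · have h1 : ‖θ (c x) - θ 0‖ ≤ M * ‖c x - 0‖ :=
      (convex_Icc (-L) L).norm_image_sub_le_of_norm_fderiv_le (𝕜 := ℝ)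
        (fun t _ => hθ.differentiable (by simp) t)
        (fun t ht => by simpa using hDM 1 (by norm_num) t ht)
        ⟨by linarith, by linarith⟩ hcx
    simp only [h0, sub_zero, Real.norm_eq_abs] at h1
    simp only [norm_iteratedFDeriv_zero, Real.norm_eq_abs, pow_zero, div_one]
    exact h1.trans (mul_le_mul hML h.abs_le (abs_nonneg _) (by positivity))
  · have := norm_iteratedFDeriv_comp_le (n := 1) hθ hc (natle 1) x (C := M) (D := a / r)
      (fun i hi => hDM i (by omega) _ hcx) fun i h1 h2 => by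
        obtain rfl : i = 1 := by omega
        simpa using h 1 (by norm_num)
    refine this.trans ?_
    simp only [Nat.factorial_one, Nat.cast_one, one_mul, pow_one, mul_div_assoc]
    gcongr
  · have haL : a ≤ a * L' := le_mul_of_one_le_right ha0 hL1
    have := norm_iteratedFDeriv_comp_le (n := 2) hθ hc (natle 2) x (C := M) (D := √(a * L') / r)
      (fun i hi => hDM i hi _ hcx) fun i h1 h2 => by
        refine (h i h2).trans ?_
        rw [div_pow]
        gcongr
        interval_cases i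
        · rw [pow_one]
          refine Real.le_sqrt_of_sq_le ?_
          rw [sq]; gcongr; exact ha.trans (le_max_left _ _)
        · rwa [Real.sq_sqrt (by positivity)]
    refine this.trans (le_of_eq ?_)
    rw [div_pow, Real.sq_sqrt (by positivity)]
    simp only [Nat.factorial_two, Nat.cast_ofNat]
    ring

/-- the cut-off has bounded jets at every scale `r ≤ 3 R` -/
theorem exists_eta_jb (n j : ℕ) : ∃ C : ℝ, 1 ≤ C ∧ ∀ R : ℝ, 0 < R → ∀ x : E n,
    Jb j (eta R) x R C ∧ ∀ r : ℝ, 0 < r → r ≤ R + ‖x‖ → Jb j (eta R) x r C := by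
  choose D hD0 hD using exists_eta_bound n
  set M := ∑ k ∈ Finset.range (j + 1), D k
  have hM : ∀ k ≤ j, D k ≤ M := fun k hk =>
    Finset.single_le_sum (f := D) (fun i _ => hD0 i) (Finset.mem_range.2 (by omega))
  have hM0 : 0 ≤ M := (hD0 0).trans (hM 0 (Nat.zero_le _))
  have h1 : ∀ R : ℝ, 0 < R → ∀ x : E n, Jb j (eta R) x R M := fun R hR x k hk =>
    (hD k R hR x).trans (by gcongr; exact hM k hk)
  have h3 : (1 : ℝ) ≤ 3 ^ j := one_le_pow₀ (by norm_num)
  refine ⟨3 ^ j * M + 1, by nlinarith, fun R hR x => ⟨(h1 R hR x).mono hR (by nlinarith), ?_⟩⟩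
  intro r hr hrx
  rcases le_or_gt ‖x‖ (2 * R) with hx | hx
  · exact (((h1 R hR x).rescale hR (t := 3) (by norm_num)).scale hr (by linarith)).mono hr
      (by linarith)
  · refine Jb.of_eventually_zero ?_ hr (by positivity)
    filter_upwards [(isOpen_lt continuous_const continuous_norm).mem_nhds hx] with y hy
    exact eta_eq_zero hR (le_of_lt hy)

theorem jb_of_decaysAt {s : ℝ} (h : DecaysAt j s f) :
    ∃ C : ℝ, 0 ≤ C ∧ ∀ x : E n, 1 ≤ ‖x‖ → Jb j f x ‖x‖ (C * ‖x‖ ^ (-s)) := by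
  classical
  have h' : ∀ k : ℕ, ∃ C : ℝ, k ≤ j → ∀ x : E n, 1 ≤ ‖x‖ →
      ‖iteratedFDeriv ℝ k f x‖ ≤ C * ‖x‖ ^ (-s - (k : ℝ)) := fun k => by
    by_cases hk : k ≤ j
    · exact (h k hk).imp fun C hC _ => hC
    · exact ⟨0, fun h => absurd h hk⟩
  choose D hD using h'
  refine ⟨∑ k ∈ Finset.range (j + 1), |D k|, by positivity, fun x hx => ?_⟩
  refine Jb.of_rpow (by linarith) fun k hk => (hD k hk x hx).trans ?_
  gcongr
  exact (le_abs_self _).trans (Finset.single_le_sum (f := fun k => |D k|)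
    (fun i _ => abs_nonneg _) (Finset.mem_range.2 (by omega)))

/-! ### matrix fields -/

variable {k k' K K' g g' : MetricField n}

theorem JB.mono (h : JB k K x r a) (hr : 0 < r) (hab : a ≤ b) : JB k K x r b :=
  ⟨fun i j => (h.1 i j).mono hr hab, fun i j => (h.2 i j).mono hr (by gcongr)⟩

theorem JB.congr (h : JB k K x r a) (e : k' =ᶠ[𝓝 x] k) (e' : K' =ᶠ[𝓝 x] K) : JB k' K' x r a :=
  ⟨fun i j => (h.1 i j).congr (e.mono fun _ hy => by simp only [hy]),
    fun i j => (h.2 i j).congr (e'.mono fun _ hy => by simp only [hy])⟩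

theorem Sm.add (h : Sm k) (h' : Sm k') : Sm fun y => k y + k' y := fun i j => (h i j).add (h' i j)
theorem Sm.sub (h : Sm k) (h' : Sm k') : Sm fun y => k y - k' y := fun i j => (h i j).sub (h' i j)
theorem Sm.smul (hu : ContDiff ℝ ∞ u) (h : Sm k) : Sm fun y => u y • k y :=
  fun i j => hu.mul (h i j)
theorem Sm.const (M : Matrix (Fin n) (Fin n) ℝ) : Sm fun _ : E n => M := fun _ _ => contDiff_const
theorem sm_riem (hg : IsRiemannianOn g Set.univ) : Sm g := contDiff_g hg
theorem sy_riem (hg : IsRiemannianOn g Set.univ) : Sy g := riem_symm hg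
theorem Sy.add (h : Sy k) (h' : Sy k') : Sy fun y => k y + k' y := fun x i j => by
  simp only [Matrix.add_apply, h x i j, h' x i j]
theorem Sy.sub (h : Sy k) (h' : Sy k') : Sy fun y => k y - k' y := fun x i j => by
  simp only [Matrix.sub_apply, h x i j, h' x i j]
theorem Sy.smul (u : E n → ℝ) (h : Sy k) : Sy fun y => u y • k y := fun x i j => by
  simp only [Matrix.smul_apply, h x i j]
theorem sy_one : Sy fun _ : E n => (1 : Matrix (Fin n) (Fin n) ℝ) := fun _ i j => by
  simp only [Matrix.one_apply, eq_comm]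

theorem JB.add (hk : Sm k) (hK : Sm K) (hk' : Sm k') (hK' : Sm K') (h : JB k K x r a)
    (h' : JB k' K' x r b) : JB (fun y => k y + k' y) (fun y => K y + K' y) x r (a + b) :=
  ⟨fun i j => Jb.add (hk i j) (hk' i j) (h.1 i j) (h'.1 i j),
    fun i j => add_div a b r ▸ Jb.add (hK i j) (hK' i j) (h.2 i j) (h'.2 i j)⟩

theorem JB.smul (hu : ContDiff ℝ ∞ u) (hk : Sm k) (hK : Sm K) (hr : 0 < r) (h1 : Jb 2 u x r a)
    (h : JB k K x r b) : JB (fun y => u y • k y) (fun y => u y • K y) x r (4 * (a * b)) := by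
  refine ⟨fun i j => (Jb.mul hu (hk i j) hr h1 (h.1 i j)).mono hr (by norm_num), fun i j =>
    (Jb.mul hu (hK i j) hr (h1.of_le (by norm_num)) (h.2 i j)).mono hr ?_⟩
  have : 0 ≤ a * (b / r) := mul_nonneg h1.nonneg (h.2 i j).nonneg
  rw [mul_div_assoc, mul_div_assoc]
  linarith

theorem riem_of_lo {Λ : ℝ} (hΛ : 0 < Λ) (hs : Sm g) (hy : Sy g) (h : ∀ x, Lo Λ g x) :
    IsRiemannianOn g Set.univ :=
  ⟨isOpen_univ, fun i j => (hs i j).contDiffOn, fun x _ => posDef_of_qb (hy x) fun w hw => by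
    have h1 := h x (WithLp.toLp 2 w)
    have h2 : 0 < ‖(WithLp.toLp 2 w : E n)‖ := norm_pos_iff.2 (by simpa using hw)
    exact lt_of_lt_of_le (by positivity) h1⟩

theorem Lo.mono {Λ Λ' : ℝ} (h : Lo Λ g x) (hΛ : 0 < Λ) (hl : Λ ≤ Λ') : Lo Λ' g x :=
  fun w => le_trans (by gcongr) (h w)

theorem Lo.norm_sq_le {Λ : ℝ} (h : Lo Λ g x) (hΛ : 0 < Λ) (w : E n) :
    ‖w‖ ^ 2 ≤ Λ * quadForm g x w := by
  have := h w
  rwa [inv_mul_le_iff₀ hΛ] at this

/-- `|k(w,w)| ≤ n a |w|²` -/
theorem abs_quadForm_le (h : ∀ i j, |k x i j| ≤ a) (w : E n) :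
    |quadForm k x w| ≤ n * a * ‖w‖ ^ 2 := by
  have h1 : |quadForm k x w| ≤ ∑ i, ∑ j, a * (|w i| * |w j|) := by
    refine (Finset.abs_sum_le_sum_abs _ _).trans (Finset.sum_le_sum fun i _ => ?_)
    refine (Finset.abs_sum_le_sum_abs _ _).trans (Finset.sum_le_sum fun j _ => ?_)
    rw [abs_mul, abs_mul, mul_assoc]
    gcongr
    exact h i j
  rcases Nat.eq_zero_or_pos n with rfl | hn
  · simp [quadForm]
  have ha : 0 ≤ a := (abs_nonneg _).trans (h ⟨0, hn⟩ ⟨0, hn⟩)
  simp only [← Finset.mul_sum, ← Finset.sum_mul, ← sq] at h1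
  have h2 := sq_sum_le_card_mul_sum_sq (s := Finset.univ) (f := fun i => |w i|)
  simp only [Finset.card_univ, Fintype.card_fin, sq_abs] at h2
  rw [EuclideanSpace.real_norm_sq_eq]
  calc _ ≤ _ := h1
    _ ≤ a * (n * ∑ i, w i ^ 2) := by gcongr
    _ = _ := by ring

theorem quadForm_sub (g g' : MetricField n) (x w : E n) :
    quadForm (fun y => g' y - g y) x w = quadForm g' x w - quadForm g x w := by
  simp only [quadForm, Matrix.sub_apply, sub_mul, Finset.sum_sub_distrib]

theorem quadForm_one (x w : E n) :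
    quadForm (fun _ => (1 : Matrix (Fin n) (Fin n) ℝ)) x w = ‖w‖ ^ 2 := by
  rw [quadForm_eq, qb_one, norm_sq_eq]

theorem abs_quadForm_sub_le (h : ∀ i j, |g' x i j - g x i j| ≤ a) (w : E n) :
    |quadForm g' x w - quadForm g x w| ≤ n * a * ‖w‖ ^ 2 := by
  rw [← quadForm_sub]; exact abs_quadForm_le h w

theorem Lo.abs_inv_le {Λ : ℝ} (h : Lo Λ g x) (hΛ : 0 < Λ) (hg : (g x).PosDef) (i j : Fin n) :
    |inverseField g x i j| ≤ Λ := by
  refine abs_entry_le hg.inv (fun w => ?_) i j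
  have := inv_upper hg (inv_pos.2 hΛ)
    (fun w => by simpa only [norm_sq_eq, quadForm_eq] using h (WithLp.toLp 2 w)) w
  rwa [inv_inv] at this

end Crest.Agent.N346.P0

end
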