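import Crest.Agent.N346.P0.Jet

/-! Row 346, Part 0 (helper11): linearity of `Lmu`, `LJ`; germ lemmas; flat data; the linear map
`lin B`; consequences of `JLStmt` at the flat base point. -/

set_option autoImplicit false
open MeasureTheory Filter Topology Matrix
open scoped ContDiff
open Crest.GeometryTopology.CoordMetric
open Crest.MathPhysics.ExteriorData

noncomputable section

namespace Crest.Agent.N346.P0
open Bs

variable {n : ℕ} {f u v : E n → ℝ} {x : E n} {r a b : ℝ} {k k' K K' g g' : MetricField n}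

/-! ### `Lmu`, `LJ` -/

theorem divE_congr {V W : VectorField n} (h : V =ᶠ[𝓝 x] W) : divE V x = divE W x :=
  Finset.sum_congr rfl fun i _ => pd_congr (h.mono fun _ hy => by simp only [hy]) i

theorem divE_add {V W : VectorField n} (hV : ∀ i, ContDiff ℝ ∞ fun y => V y i)
    (hW : ∀ i, ContDiff ℝ ∞ fun y => W y i) (x : E n) :
    divE (fun y i => V y i + W y i) x = divE V x + divE W x := by
  simp only [divE, pd_add (smooth_diff (hV _) x) (smooth_diff (hW _) x), Finset.sum_add_distrib]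

theorem contDiff_eV (h : Sm k) (i : Fin n) : ContDiff ℝ ∞ fun x => eV k x i :=
  ContDiff.sum fun j _ => (contDiff_pd (h i j) j).sub (contDiff_pd (h j j) i)

theorem contDiff_pV (h : Sm K) (i j : Fin n) : ContDiff ℝ ∞ fun x => pV K i x j :=
  (h i j).sub ((ContDiff.sum fun a _ => h a a).mul contDiff_const)

theorem contDiff_Lmu (h : Sm k) : ContDiff ℝ ∞ (Lmu k) :=
  (contDiff_divE (contDiff_eV h)).div_const 2

theorem contDiff_LJ (h : Sm K) (i : Fin n) : ContDiff ℝ ∞ fun x => LJ K x i :=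
  contDiff_divE (contDiff_pV h i)

theorem eV_add (h : Sm k) (h' : Sm k') :
    eV (fun y => k y + k' y) = fun y i => eV k y i + eV k' y i := by
  funext y i
  simp only [eV, Matrix.add_apply, pd_add (smooth_diff (h _ _) y) (smooth_diff (h' _ _) y),
    ← Finset.sum_add_distrib]
  exact Finset.sum_congr rfl fun j _ => by ring

theorem pV_add (K K' : MetricField n) (i : Fin n) :
    pV (fun y => K y + K' y) i = fun y j => pV K i y j + pV K' i y j := by
  funext y j
  simp only [pV, Matrix.add_apply, Finset.sum_add_distrib]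
  ring

theorem Lmu_add (h : Sm k) (h' : Sm k') (x : E n) :
    Lmu (fun y => k y + k' y) x = Lmu k x + Lmu k' x := by
  rw [Lmu, eV_add h h', divE_add (contDiff_eV h) (contDiff_eV h'), add_div]; rfl

theorem LJ_add (h : Sm K) (h' : Sm K') (x : E n) (i : Fin n) :
    LJ (fun y => K y + K' y) x i = LJ K x i + LJ K' x i := by
  rw [LJ, pV_add, divE_add (contDiff_pV h i) (contDiff_pV h' i)]; rfl

theorem Lmu_sub (h : Sm k) (h' : Sm k') (x : E n) :
    Lmu (fun y => k y - k' y) x = Lmu k x - Lmu k' x := by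
  have := Lmu_add (h.sub h') h' x
  simp only [sub_add_cancel] at this
  linarith

theorem LJ_sub (h : Sm K) (h' : Sm K') (x : E n) (i : Fin n) :
    LJ (fun y => K y - K' y) x i = LJ K x i - LJ K' x i := by
  have := LJ_add (h.sub h') h' x i
  simp only [sub_add_cancel] at this
  linarith

theorem eV_congr (h : k =ᶠ[𝓝 x] k') : eV k =ᶠ[𝓝 x] eV k' := by
  filter_upwards [h.eventually_nhds] with y hy
  funext i
  have e : ∀ l i j, pderiv l (fun z => k z i j) y = pderiv l (fun z => k' z i j) y :=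
    fun l i j => pd_congr (hy.mono fun _ hz => by simp only [hz]) l
  simp only [eV, e]

theorem Lmu_congr (h : k =ᶠ[𝓝 x] k') : Lmu k x = Lmu k' x := by
  rw [Lmu, Lmu, divE_congr (eV_congr h)]

theorem LJ_congr (h : K =ᶠ[𝓝 x] K') (i : Fin n) : LJ K x i = LJ K' x i :=
  divE_congr (h.mono fun y hy => by funext j; simp only [pV, hy])

theorem Lmu_const (M : Matrix (Fin n) (Fin n) ℝ) (x : E n) : Lmu (fun _ => M) x = 0 := by
  simp [Lmu, eV, divE]

theorem LJ_const (M : Matrix (Fin n) (Fin n) ℝ) (x : E n) (i : Fin n) : LJ (fun _ => M) x i = 0 := by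
  simp [LJ, pV, divE]

theorem jb_divE {j : ℕ} {V : VectorField n} (hr : 0 < r) (hV : ∀ i, ContDiff ℝ ∞ fun y => V y i)
    (h : ∀ i, Jb (j + 1) (fun y => V y i) x r a) : Jb j (divE V) x r (n * (a / r)) :=
  Jb.sum_fin hr (fun i => contDiff_pd (hV i) i) fun i => (h i).pd (hV i) i

theorem jb_eV {j : ℕ} (hr : 0 < r) (hk : Sm k) (h : ∀ i l, Jb (j + 1) (fun y => k y i l) x r a)
    (i : Fin n) : Jb j (fun y => eV k y i) x r (n * (a / r + a / r)) :=
  Jb.sum_fin hr (fun l => (contDiff_pd (hk i l) l).sub (contDiff_pd (hk l l) i)) fun l =>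
    Jb.sub (contDiff_pd (hk i l) l) (contDiff_pd (hk l l) i) ((h i l).pd (hk i l) l)
      ((h l l).pd (hk l l) i)

theorem jb_pV {j : ℕ} (hr : 0 < r) (hK : Sm K) (h : ∀ i l, Jb j (fun y => K y i l) x r a)
    (i l : Fin n) : Jb j (fun y => pV K i y l) x r (a + n * a) := by
  have hs : ContDiff ℝ ∞ fun y => ∑ c, K y c c := ContDiff.sum fun c _ => hK c c
  refine (Jb.sub (hK i l) (hs.mul contDiff_const) (h i l) (Jb.mul_const hs _
    (Jb.sum_fin hr (fun c => hK c c) fun c => h c c))).mono hr ?_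
  have := (h i l).nonneg
  refine add_le_add le_rfl (mul_le_of_le_one_left (mul_nonneg (Nat.cast_nonneg _) this) ?_)
  rw [Matrix.one_apply]; split_ifs <;> simp

theorem abs_Lmu_le (hr : 0 < r) (hk : Sm k) (h : ∀ i l, Jb 2 (fun y => k y i l) x r a) :
    |Lmu k x| ≤ n ^ 2 * (a / r ^ 2) := by
  have := (jb_divE (j := 0) hr (contDiff_eV hk) (jb_eV hr hk h)).abs_le
  rw [Lmu, abs_div, abs_two, div_le_iff₀ two_pos]
  refine this.trans (le_of_eq ?_)
  field_simp
  ring

theorem abs_LJ_le (hr : 0 < r) (hK : Sm K) (h : ∀ i l, Jb 1 (fun y => K y i l) x r (a / r))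
    (i : Fin n) : |LJ K x i| ≤ n * (n + 1) * (a / r ^ 2) := by
  have := (jb_divE (j := 0) hr (contDiff_pV hK i) (jb_pV hr hK h i)).abs_le
  refine this.trans (le_of_eq ?_)
  field_simp
  ring

theorem integral_Lmu (hk : Sm k) {R : ℝ} (h : ∀ y, R < ‖y‖ → k y = 0) : ∫ x, Lmu k x = 0 := by
  simp only [Lmu]
  rw [integral_div, integral_divE (fun i => smooth_one (contDiff_eV hk i)) fun i => ?_, zero_div]
  refine hasCompactSupport_of_far (R := R) fun y hy => ?_
  have : k =ᶠ[𝓝 y] fun _ => 0 :=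
    ((isOpen_lt continuous_const continuous_norm).eventually_mem hy).mono fun z hz => h z hz
  rw [(eV_congr this).self_of_nhds]
  simp [eV]

theorem integral_LJ (hK : Sm K) {R : ℝ} (h : ∀ y, R < ‖y‖ → K y = 0) (i : Fin n) :
    ∫ x, LJ K x i = 0 :=
  integral_divE (fun j => smooth_one (contDiff_pV hK i j)) fun j =>
    hasCompactSupport_of_far (R := R) fun y hy => by simp [pV, h y hy]

/-! ### germs -/

theorem scalarCurv_congr (h : g =ᶠ[𝓝 x] g') : scalarCurv g x = scalarCurv g' x := by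
  simp only [scalarCurv, inverseField, h.self_of_nhds, R202.Tens.ricci_congr h]

theorem energyDensity_congr (h : g =ᶠ[𝓝 x] g') (h' : K x = K' x) :
    energyDensity g K x = energyDensity g' K' x := by
  simp only [energyDensity, scalarCurv_congr h, traceK, normSqK, inverseField, h.self_of_nhds, h']

theorem momentumDensity_congr (h : g =ᶠ[𝓝 x] g') (h' : K =ᶠ[𝓝 x] K') (i : Fin n) :
    momentumDensity g K x i = momentumDensity g' K' x i := by
  have e : ∀ l i j, pderiv l (fun z => K z i j) x = pderiv l (fun z => K' z i j) x :=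
    fun l i j => pd_congr (h'.mono fun _ hz => by simp only [hz]) l
  have e2 : pderiv i (traceK g K) x = pderiv i (traceK g' K') x :=
    pd_congr ((h.and h').mono fun _ hz => by simp only [traceK, inverseField, hz.1, hz.2]) i
  simp only [momentumDensity, covDerivK, inverseField, h.self_of_nhds, h'.self_of_nhds, e, e2,
    R202.Tens.christoffel_congr h]

theorem eT_congr (h : g x = g' x) (EE : VectorField n) (w : E n) : eT g EE x w = eT g' EE x w := by
  simp only [eT, quadForm, eSq, vecNormSq, eDot, volDensity, h]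

theorem DECE_iff {EE : VectorField n} {m0 : ℝ} : DECE g K EE m0 x ↔ ∀ w : E n, quadForm g x w ≤ 1 →
    eT g EE x w + m0 ≤ energyDensity g K x - ∑ i, momentumDensity g K x i * w i := Iff.rfl

theorem DECE_congr {EE : VectorField n} {m0 : ℝ} (h : g =ᶠ[𝓝 x] g') (h' : K =ᶠ[𝓝 x] K')
    (hd : DECE g' K' EE m0 x) : DECE g K EE m0 x := by
  rw [DECE_iff] at hd ⊢
  intro w hw
  simp only [eT_congr h.self_of_nhds, energyDensity_congr h h'.self_of_nhds,
    momentumDensity_congr h h']
  exact hd w (by simpa only [quadForm, h.self_of_nhds] using hw)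

theorem DECE_mono {EE : VectorField n} {m0 m1 : ℝ} (hd : DECE g K EE m0 x) (h : m1 ≤ m0) :
    DECE g K EE m1 x := fun w hw => le_trans (by linarith) (hd w hw)

theorem levelExp_congr (h : g =ᶠ[𝓝 x] g') (h' : K x = K' x) (s : E n → ℝ) :
    levelExp g K s x = levelExp g' K' s x := by
  have e : ∀ y, g y = g' y → levelNormal g s y = levelNormal g' s y := fun y hy => by
    funext i; simp only [levelNormal, gradSq, gradDot, inverseField, hy]
  have e2 : ∀ i, pderiv i (fun y => volDensity g y * levelNormal g s y i) x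
      = pderiv i (fun y => volDensity g' y * levelNormal g' s y i) x := fun i =>
    pd_congr (h.mono fun y hy => by simp only [volDensity, e y hy, hy]) i
  simp only [levelExp, gDiv, e2, e x h.self_of_nhds, h', inverseField]
  simp only [volDensity, h.self_of_nhds]

/-! ### constant metrics -/

theorem christoffel_const (M : Matrix (Fin n) (Fin n) ℝ) (x : E n) (l i j : Fin n) :
    christoffel (fun _ => M) x l i j = 0 := by simp [christoffel]

theorem ricci_const (M : Matrix (Fin n) (Fin n) ℝ) (x : E n) (i j : Fin n) :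
    ricci (fun _ => M) x i j = 0 := by simp [ricci, christoffel_const]

theorem energyDensity_flat (M : Matrix (Fin n) (Fin n) ℝ) (x : E n) :
    energyDensity (fun _ => M) (fun _ => 0) x = 0 := by
  simp [energyDensity, scalarCurv, ricci_const, traceK, normSqK]

theorem momentumDensity_flat (M : Matrix (Fin n) (Fin n) ℝ) (x : E n) (i : Fin n) :
    momentumDensity (fun _ => M) (fun _ => 0) x i = 0 := by
  have : traceK (fun _ : E n => M) (fun _ => 0) = fun _ => 0 := by funext y; simp [traceK]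
  simp [momentumDensity, covDerivK, this]

theorem riem_const {M : Matrix (Fin n) (Fin n) ℝ} (hM : M.PosDef) :
    IsRiemannianOn (fun _ : E n => M) Set.univ :=
  ⟨isOpen_univ, fun _ _ => contDiffOn_const, fun _ _ => hM⟩

theorem lo_one {Λ : ℝ} (hΛ : 1 ≤ Λ) (x : E n) :
    Lo Λ (fun _ => (1 : Matrix (Fin n) (Fin n) ℝ)) x := fun w => by
  rw [quadForm_one]
  exact mul_le_of_le_one_left (by positivity) (inv_le_one_of_one_le₀ hΛ)

/-- `JLStmt` at the flat base point, and the size of `μ`, `J`. -/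
theorem JL0 (hJL : JLStmt) (n : ℕ) {Λ : ℝ} (hΛ : 1 ≤ Λ) : ∃ C : ℝ, 0 ≤ C ∧
    ∀ g K : MetricField n, IsRiemannianOn g Set.univ → Sm K → ∀ (x : E n) (r α : ℝ), 0 < r →
    0 ≤ α → α ≤ Λ → Lo Λ g x → JB (fun y => g y - 1) K x r α →
    |energyDensity g K x - Lmu (fun y => g y - 1) x| ≤ C * (α ^ 2 / r ^ 2) ∧
    (∀ i, |momentumDensity g K x i - LJ K x i| ≤ C * (α ^ 2 / r ^ 2)) ∧
    ∀ i, |momentumDensity g K x i| ≤ C * (α / r ^ 2) := by
  obtain ⟨C, hC, h⟩ := hJL n Λ hΛ
  refine ⟨C + (C * Λ + n * (n + 1)), by positivity, fun g K hg hK x r α hr h0 h1 hlo hJ => ?_⟩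
  have := h (fun _ => 1) g (fun _ => 0) K (riem_const PosDef.one) hg (Sm.const 0) hK x r 0 α hr
    le_rfl (by linarith) h0 h1 (lo_one hΛ x) hlo
    ⟨fun i j => by simpa using Jb.zero 2 x hr le_rfl, fun i j => by simpa using Jb.zero 1 x hr le_rfl⟩
    (by simpa using hJ)
  simp only [energyDensity_flat, momentumDensity_flat, sub_zero, zero_add, ← sq] at this
  have hp : 0 ≤ α ^ 2 / r ^ 2 := by positivity
  have hq : 0 ≤ C * Λ + n * (n + 1) := by positivity
  refine ⟨this.1.trans (by nlinarith), fun i => (this.2 i).trans (by nlinarith), fun i => ?_⟩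
  have h2 := this.2 i
  have h3 := abs_LJ_le hr hK hJ.2 i
  have h4 : α ^ 2 / r ^ 2 ≤ Λ * (α / r ^ 2) := by
    rw [sq α, mul_div_assoc]; gcongr
  have h5 : 0 ≤ C * (α / r ^ 2) := by positivity
  have h6 := abs_sub_abs_le_abs_sub (momentumDensity g K x i) (LJ K x i)
  have h7 := mul_le_mul_of_nonneg_left h4 hC
  nlinarith

/-! ### the linear map of a matrix -/

variable {B D : Matrix (Fin n) (Fin n) ℝ}

theorem lin_apply (B : Matrix (Fin n) (Fin n) ℝ) (x : E n) (i : Fin n) :
    lin B x i = ∑ j, B i j * x j := rfl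

theorem lin_lin (B D : Matrix (Fin n) (Fin n) ℝ) (x : E n) : lin B (lin D x) = lin (B * D) x := by
  rw [lin, lin, lin, map_mul]; rfl

theorem lin_one (x : E n) : lin 1 x = x := by rw [lin, map_one]; rfl

theorem lin_inv_lin (hB : B.det ≠ 0) (x : E n) : lin B⁻¹ (lin B x) = x := by
  rw [lin_lin, nonsing_inv_mul _ hB.isUnit, lin_one]

theorem lin_lin_inv (hB : B.det ≠ 0) (x : E n) : lin B (lin B⁻¹ x) = x := by
  rw [lin_lin, mul_nonsing_inv _ hB.isUnit, lin_one]

theorem pd_comp_lin (B : Matrix (Fin n) (Fin n) ℝ) (hu : DifferentiableAt ℝ u (lin B x))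
    (i : Fin n) : pderiv i (fun y => u (lin B y)) x = ∑ a, pderiv a u (lin B x) * B a i := by
  have := (hu.hasFDerivAt.comp x (lin B).hasFDerivAt).fderiv
  rw [pderiv, show (fun y => u (lin B y)) = u ∘ lin B from rfl, this,
    ContinuousLinearMap.comp_apply, fderiv_eq_sum]
  refine Finset.sum_congr rfl fun a _ => ?_
  simp [lin_apply, PiLp.single_apply]

theorem contDiff_comp_lin (B : Matrix (Fin n) (Fin n) ℝ) (hu : ContDiff ℝ ∞ u) :
    ContDiff ℝ ∞ fun y => u (lin B y) := hu.comp (lin B).contDiff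

theorem pd_pd_comp_lin (B : Matrix (Fin n) (Fin n) ℝ) (hu : ContDiff ℝ ∞ u) (x : E n)
    (i j : Fin n) : pderiv i (pderiv j fun y => u (lin B y)) x
      = ∑ a, ∑ c, pderiv c (pderiv a u) (lin B x) * B c i * B a j := by
  rw [show (pderiv j fun y => u (lin B y)) = fun y => ∑ a, pderiv a u (lin B y) * B a j from
    funext fun y => pd_comp_lin B (smooth_diff hu _) j,
    pd_sum fun a _ => smooth_diff ((contDiff_comp_lin B (contDiff_pd hu a)).mul contDiff_const) x]
  refine Finset.sum_congr rfl fun a _ => ?_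
  rw [pd_mul_const, pd_comp_lin B (smooth_diff (contDiff_pd hu a) _), Finset.sum_mul]

theorem bl_comp_lin (hB : B.det ≠ 0) (hu : ContDiff ℝ ∞ u) (x : E n) :
    bl (Bᵀ * B)⁻¹ (fun y => u (lin B y)) x = lap u (lin B x) := by
  have h1 : B * (Bᵀ * B)⁻¹ * Bᵀ = 1 := by
    have hT : IsUnit Bᵀ.det := by rw [det_transpose]; exact hB.isUnit
    rw [Matrix.mul_inv_rev, ← Matrix.mul_assoc, mul_nonsing_inv _ hB.isUnit, Matrix.one_mul,
      nonsing_inv_mul _ hT]
  have h2 : ∀ c a, ∑ i, ∑ j, (Bᵀ * B)⁻¹ i j * (B c i * B a j) = if c = a then 1 else 0 := by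
    intro c a
    have := congrFun (congrFun h1 c) a
    rw [one_apply, mul_apply] at this
    rw [← this, Finset.sum_comm]
    refine Finset.sum_congr rfl fun j _ => ?_
    rw [mul_apply, Finset.sum_mul]
    exact Finset.sum_congr rfl fun i _ => by rw [transpose_apply]; ring
  simp only [bl, pd_pd_comp_lin B hu, Finset.mul_sum, lap]
  calc _ = ∑ a, ∑ c, pderiv c (pderiv a u) (lin B x) *
        ∑ i, ∑ j, (Bᵀ * B)⁻¹ i j * (B c i * B a j) := by
        simp only [Finset.mul_sum]
        rw [Finset.sum_congr rfl fun i _ => Finset.sum_comm, Finset.sum_comm]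
        refine Finset.sum_congr rfl fun a _ => ?_
        rw [Finset.sum_congr rfl fun i _ => Finset.sum_comm, Finset.sum_comm]
        exact Finset.sum_congr rfl fun c _ => Finset.sum_congr rfl fun i _ =>
          Finset.sum_congr rfl fun j _ => by ring
    _ = _ := by simp [h2]

theorem det_lin (B : Matrix (Fin n) (Fin n) ℝ) :
    LinearMap.det ((lin B : E n →L[ℝ] E n) : E n →ₗ[ℝ] E n) = B.det := by
  rw [lin, coe_toEuclideanCLM_eq_toEuclideanLin, toEuclideanLin, toLpLin_eq_toLin, LinearMap.det_toLin]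

theorem map_lin_volume (hB : B.det ≠ 0) :
    Measure.map (lin B) (volume : Measure (E n)) = ENNReal.ofReal |B.det⁻¹| • volume := by
  have := Measure.map_linearMap_addHaar_eq_smul_addHaar (volume : Measure (E n))
    (f := ((lin B : E n →L[ℝ] E n) : E n →ₗ[ℝ] E n)) (by rwa [det_lin])
  rwa [det_lin] at this

theorem measurableEmbedding_lin (hB : B.det ≠ 0) : MeasurableEmbedding (lin B : E n → E n) :=
  (Homeomorph.mk ⟨lin B, lin B⁻¹, lin_inv_lin hB, lin_lin_inv hB⟩ (lin B).continuous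
    (lin B⁻¹).continuous).measurableEmbedding

theorem integral_comp_lin (hB : B.det ≠ 0) (f : E n → ℝ) :
    ∫ x, f (lin B x) = |B.det|⁻¹ * ∫ y, f y := by
  rw [← (measurableEmbedding_lin hB).integral_map, map_lin_volume hB, integral_smul_measure,
    ENNReal.toReal_ofReal (abs_nonneg _), abs_inv, smul_eq_mul]

theorem integrable_comp_lin (hB : B.det ≠ 0) (hf : Integrable f) :
    Integrable fun x => f (lin B x) := by
  refine (measurableEmbedding_lin hB).integrable_map_iff.1 ?_
  rw [map_lin_volume hB]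
  exact hf.smul_measure ENNReal.ofReal_ne_top

theorem contDiff_dotF (ξ : E n) : ContDiff ℝ ∞ (dotF ξ) :=
  ContDiff.sum fun i _ => contDiff_const.mul (EuclideanSpace.proj i : E n →L[ℝ] ℝ).contDiff

theorem pd_dotF (ξ x : E n) (i : Fin n) : pderiv i (dotF ξ) x = ξ i := by
  rw [show dotF ξ = fun y => ∑ j, ξ j * y j from rfl, pd_sum (F := fun j y => ξ j * y j) fun j _ =>
    smooth_diff (contDiff_const.mul (EuclideanSpace.proj j : E n →L[ℝ] ℝ).contDiff) x]
  simp [pd_const_mul, pd_coord]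

theorem abs_dotF_le (ξ x : E n) : |dotF ξ x| ≤ ‖ξ‖ * ‖x‖ := by
  have := abs_real_inner_le_norm ξ x
  simpa [dotF, PiLp.inner_apply, mul_comm] using this

namespace Boost
variable {w ξ : E n} {g0 : ℝ} (h : Boost w ξ g0 B)
include h

theorem g0_pos : 0 < g0 := one_pos.trans_le h.g0_ge
theorem det_ne : B.det ≠ 0 := h.det ▸ h.g0_pos.ne'
theorem norm_lin_le : ‖lin B‖ ≤ g0 := (lin B).opNorm_le_bound h.g0_pos.le h.hi
theorem norm_inv_le (y : E n) : ‖lin B⁻¹ y‖ ≤ ‖y‖ := by
  simpa only [lin_lin_inv h.det_ne] using h.lo (lin B⁻¹ y)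
theorem le_norm_inv (y : E n) : ‖y‖ ≤ g0 * ‖lin B⁻¹ y‖ := by
  simpa only [lin_lin_inv h.det_ne] using h.hi (lin B⁻¹ y)
theorem norm_lin_inv_le : ‖lin B⁻¹‖ ≤ 1 :=
  (lin B⁻¹).opNorm_le_bound zero_le_one fun y => by simpa using h.norm_inv_le y
theorem posDef : (Bᵀ * B).PosDef := by
  simpa using PosDef.conjTranspose_mul_self B
    (mulVec_injective_iff_isUnit.2 ((isUnit_iff_isUnit_det B).2 h.det_ne.isUnit))
theorem qb_inv (z : Fin n → ℝ) :
    qb (Bᵀ * B)⁻¹ z z = ∑ i, z i * z i - (∑ i, w i * z i) ^ 2 := by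
  rw [h.BtB_inv, ← qb_one, sq, Finset.sum_mul_sum]
  simp only [qb, Matrix.sub_apply, vecMulVec_apply, sub_mul, Finset.sum_sub_distrib]
  congr 1
  exact Finset.sum_congr rfl fun i _ => Finset.sum_congr rfl fun j _ => by ring
theorem qb_inv_ξ : qb (Bᵀ * B)⁻¹ ξ.ofLp ξ.ofLp = ‖w‖ ^ 2 := by
  have := h.g0_sq
  rw [h.qb_inv, h.ξ_eq]
  simp only [PiLp.smul_apply, smul_eq_mul]
  have e1 : ∑ i, g0 * w i * (g0 * w i) = g0 ^ 2 * ‖w‖ ^ 2 := by
    rw [norm_sq_eq, Finset.mul_sum]; exact Finset.sum_congr rfl fun i _ => by ring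
  have e2 : ∑ i, w i * (g0 * w i) = g0 * ‖w‖ ^ 2 := by
    rw [norm_sq_eq, Finset.mul_sum]; exact Finset.sum_congr rfl fun i _ => by ring
  rw [e1, e2]
  linear_combination ‖w‖ ^ 2 * this

end Boost

theorem unitSphereArea_nonneg (n : ℕ) : 0 ≤ unitSphereArea n := by
  have := Real.Gamma_nonneg_of_nonneg (s := (n : ℝ) / 2) (by positivity)
  have := Real.pi_pos
  unfold unitSphereArea
  positivity

theorem Far.mono {e0 m R1 C c0 R1' C' c0' m' : ℝ} {ψ : E n → ℝ} (h : Far n e0 m ψ R1 C c0)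
    (h1 : R1 ≤ R1') (h2 : C ≤ C') (h3 : c0' ≤ c0) (h4 : m ≤ m') : Far n e0 m' ψ R1' C' c0' where
  smooth := h.smooth
  decay k hk y := (h.decay k hk y).trans (by gcongr)
  bdd := h.bdd
  lap_le y := (h.lap_le y).trans (by gcongr)
  lap_pos y hy := le_trans (by gcongr) (h.lap_pos y (h1.trans hy))
  mass := h.mass.trans (by have := unitSphereArea_nonneg n; gcongr)

end Crest.Agent.N346.P0

end
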