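import Crest.Agent.N346.P0.Jet

/-!
Row 346, P0-NEWT (helper30), part 1: convolution calculus and kernel estimates.
-/

set_option autoImplicit false
open MeasureTheory Filter Topology Metric
open scoped ContDiff Convolution
open Crest.GeometryTopology.CoordMetric
open Crest.MathPhysics.ExteriorData

noncomputable section

namespace Crest.Agent.N346.P0.Nw
open Crest.Agent.N346.Bs

variable {n : ℕ} {a b u : E n → ℝ}

/-! ### norms of iterated derivatives and partial derivatives -/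

theorem nd_pd_le (hu : ContDiff ℝ ∞ u) (k : ℕ) (i : Fin n) (y : E n) :
    ‖iteratedFDeriv ℝ k (pderiv i u) y‖ ≤ ‖iteratedFDeriv ℝ (k + 1) u y‖ := by
  have h1 := norm_iteratedFDeriv_clm_apply_const (𝕜 := ℝ) (f := fderiv ℝ u)
    (c := EuclideanSpace.single i (1 : ℝ)) (x := y) (N := ∞) (n := k)
    (hu.fderiv_right (m := ∞) le_rfl).contDiffAt (natle k)
  rw [norm_iteratedFDeriv_fderiv, EuclideanSpace.norm_single, norm_one, one_mul] at h1
  exact h1

theorem nd_succ_le (hu : ContDiff ℝ ∞ u) (k : ℕ) (y : E n) :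
    ‖iteratedFDeriv ℝ (k + 1) u y‖ ≤ ∑ i, ‖iteratedFDeriv ℝ k (pderiv i u) y‖ := by
  set L : Fin n → ℝ →L[ℝ] (E n →L[ℝ] ℝ) := fun i =>
    ContinuousLinearMap.toSpanSingleton ℝ (EuclideanSpace.proj i : E n →L[ℝ] ℝ) with hL
  have e : fderiv ℝ u = fun z => ∑ i, (L i ∘ pderiv i u) z := by
    funext z; ext w
    simp [hL, fderiv_eq_sum]
  have hn : ∀ i, ‖L i‖ ≤ 1 := fun i => by
    rw [hL, ContinuousLinearMap.norm_toSpanSingleton]
    exact ContinuousLinearMap.opNorm_le_bound _ zero_le_one fun w => by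
      simpa using PiLp.norm_apply_le w i
  rw [← norm_iteratedFDeriv_fderiv, e, iteratedFDeriv_fun_sum_apply fun i _ =>
    (((L i).contDiff.comp (contDiff_pd hu i)).of_le (natle k)).contDiffAt]
  refine (norm_sum_le _ _).trans (Finset.sum_le_sum fun i _ => ?_)
  exact ((L i).norm_iteratedFDeriv_comp_left (contDiff_pd hu i).contDiffAt (natle k)).trans
    (mul_le_of_le_one_left (norm_nonneg _) (hn i))

theorem abs_pd_le1 (hu : ContDiff ℝ ∞ u) (i : Fin n) (y : E n) :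
    |pderiv i u y| ≤ ‖iteratedFDeriv ℝ 1 u y‖ := by simpa using nd_pd_le hu 0 i y

theorem norm_fderiv_pd_le (hu : ContDiff ℝ ∞ u) (i : Fin n) (y : E n) :
    ‖fderiv ℝ (pderiv i u) y‖ ≤ ‖iteratedFDeriv ℝ 2 u y‖ := by simpa using nd_pd_le hu 1 i y

theorem abs_pd_le2 (hu : ContDiff ℝ ∞ u) (i j : Fin n) (y : E n) :
    |pderiv j (pderiv i u) y| ≤ ‖iteratedFDeriv ℝ 2 u y‖ :=
  (abs_pd_le j _ y).trans (norm_fderiv_pd_le hu i y)

theorem nd1_le (hu : ContDiff ℝ ∞ u) (y : E n) {c : ℝ} (h : ∀ i, |pderiv i u y| ≤ c) :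
    ‖iteratedFDeriv ℝ 1 u y‖ ≤ n * c :=
  (nd_succ_le hu 0 y).trans (by
    simpa using Finset.sum_le_sum (s := Finset.univ) fun i _ => h i)

theorem nd2_le (hu : ContDiff ℝ ∞ u) (y : E n) {c : ℝ}
    (h : ∀ i j, |pderiv j (pderiv i u) y| ≤ c) : ‖iteratedFDeriv ℝ 2 u y‖ ≤ n * (n * c) :=
  (nd_succ_le hu 1 y).trans (by
    simpa using Finset.sum_le_sum (s := Finset.univ) fun i _ => nd1_le (contDiff_pd hu i) y (h i))

/-! ### convolution -/

/-- `∫ a(z) b(y - z) dz` -/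
def cv (a b : E n → ℝ) : E n → ℝ := b ⋆[ContinuousLinearMap.mul ℝ ℝ, volume] a

theorem cv_eq (a b : E n → ℝ) (y : E n) : cv a b y = ∫ z, a z * b (y - z) := by
  rw [cv, convolution_eq_swap]; simp [mul_comm]

theorem cv_eq' (a b : E n → ℝ) (y : E n) : cv a b y = ∫ w, a (y - w) * b w := by
  rw [cv, convolution_def]; simp [mul_comm]

theorem cv_smooth (ha : ContDiff ℝ ∞ a) (hc : HasCompactSupport a) (hb : Continuous b) :
    ContDiff ℝ ∞ (cv a b) := hc.contDiff_convolution_right _ hb.locallyIntegrable ha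

theorem pd_cv (ha : ContDiff ℝ 1 a) (hc : HasCompactSupport a) (hb : Continuous b) (i : Fin n) :
    pderiv i (cv a b) = cv (pderiv i a) b := by
  funext y
  rw [pderiv, cv, (hc.hasFDerivAt_convolution_right _ hb.locallyIntegrable ha y).fderiv,
    convolution_precompR_apply _ hb.locallyIntegrable (hc.fderiv ℝ)
      (ha.continuous_fderiv one_ne_zero)]
  rfl

theorem cv_pd (ha : ContDiff ℝ 1 a) (hc : HasCompactSupport a) (hb : ContDiff ℝ 1 b) (i : Fin n) :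
    cv (pderiv i a) b = cv a (pderiv i b) := by
  funext y
  have h1 : ContDiff ℝ 1 fun z => b (y - z) := hb.comp (contDiff_const.sub contDiff_id)
  have h2 : ∀ z, pderiv i (fun z => b (y - z)) z = -pderiv i b (y - z) := fun z => by
    have := ((hb.differentiable one_ne_zero (y - z)).hasFDerivAt.comp z
      ((hasFDerivAt_id z).const_sub y)).fderiv
    rw [pderiv, show (fun z => b (y - z)) = b ∘ HSub.hSub y from rfl, this]
    simp [pderiv]
  have := ibp ha hc h1 i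
  simp only [h2, mul_neg, integral_neg, neg_inj] at this
  rw [cv_eq, cv_eq, this]

theorem int_cv (ha : Continuous a) (hc : HasCompactSupport a) (hb : Continuous b) (y : E n) :
    Integrable fun z => a z * b (y - z) :=
  (ha.mul (hb.comp (continuous_const.sub continuous_id))).integrable_of_hasCompactSupport
    hc.mul_right

theorem cv_sum (ha : Continuous a) (hc : HasCompactSupport a) {b : Fin n → E n → ℝ}
    (hb : ∀ i, Continuous (b i)) (y : E n) :
    ∑ i, cv a (b i) y = cv a (fun w => ∑ i, b i w) y := by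
  simp only [cv_eq, Finset.mul_sum]
  rw [integral_finsetSum _ fun i _ => int_cv ha hc (hb i) y]

theorem lap_cv (ha : ContDiff ℝ ∞ a) (hc : HasCompactSupport a) (hb : ContDiff ℝ ∞ b) (y : E n) :
    lap (cv a b) y = cv a (lap b) y := by
  have h : ∀ i, pderiv i (pderiv i (cv a b)) = cv a (pderiv i (pderiv i b)) := fun i => by
    rw [pd_cv (smooth_one ha) hc hb.continuous, cv_pd (smooth_one ha) hc (smooth_one hb),
      pd_cv (smooth_one ha) hc (contDiff_pd hb i).continuous,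
      cv_pd (smooth_one ha) hc (smooth_one (contDiff_pd hb i))]
  simp only [lap, h]
  exact cv_sum ha.continuous hc (fun i => (contDiff_pd (contDiff_pd hb i) i).continuous) y

theorem cv_bdd {B : ℝ} (hb : Continuous b) (hB : ∀ w, |b w| ≤ B) (k : ℕ) :
    ∀ a : E n → ℝ, ContDiff ℝ ∞ a → HasCompactSupport a →
      ∃ D : ℝ, ∀ y, ‖iteratedFDeriv ℝ k (cv a b) y‖ ≤ D := by
  induction k with
  | zero =>
    intro a ha hc
    refine ⟨∫ z, ‖a z‖ * B, fun y => ?_⟩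
    rw [norm_iteratedFDeriv_zero, cv_eq]
    refine norm_integral_le_of_norm_le
      ((ha.continuous.integrable_of_hasCompactSupport hc).norm.mul_const B)
      (ae_of_all _ fun z => ?_)
    rw [norm_mul]
    exact mul_le_mul_of_nonneg_left (hB _) (norm_nonneg _)
  | succ k ih =>
    intro a ha hc
    choose D hD using fun i => ih (pderiv i a) (contDiff_pd ha i) (hasCompactSupport_pd hc i)
    refine ⟨∑ i, D i, fun y => (nd_succ_le (cv_smooth ha hc hb) k y).trans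
      (Finset.sum_le_sum fun i _ => ?_)⟩
    rw [pd_cv (smooth_one ha) hc hb]
    exact hD i y

/-! ### kernel estimates -/

theorem rpow_cmp {s t x : ℝ} (hs : 0 ≤ s) (hx : 0 < x) (ht : 0 < t) {y : ℝ} (h : x ≤ t * y) :
    y ^ (-s) ≤ t ^ s * x ^ (-s) := by
  have h1 : x / t ≤ y := by rw [div_le_iff₀ ht]; linarith
  refine (Real.rpow_le_rpow_of_nonpos (by positivity) h1 (by linarith)).trans (le_of_eq ?_)
  rw [Real.div_rpow hx.le ht.le, Real.rpow_neg ht.le, div_inv_eq_mul, mul_comm]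

theorem int_scale {Φ : E n → ℝ} (hΦ : Integrable Φ) {r : ℝ} (hr : 0 < r) (y : E n) :
    Integrable (fun z => Φ (r⁻¹ • (y - z))) ∧ ∫ z, Φ (r⁻¹ • (y - z)) = r ^ n * ∫ w, Φ w := by
  refine ⟨(hΦ.comp_smul (inv_pos.2 hr).ne').comp_sub_left y, ?_⟩
  rw [integral_sub_left_eq_self (fun w => Φ (r⁻¹ • w)) volume y,
    Measure.integral_comp_inv_smul_of_nonneg _ _ hr.le]
  simp

/-- far from the support -/
theorem cv_far (n : ℕ) {s : ℝ} (hs : 0 ≤ s) : ∃ C : ℝ, 0 ≤ C ∧ ∀ (a b : E n → ℝ) (m c ε ρ : ℝ),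
    0 < ε → 0 < ρ → 0 ≤ c → (∀ z, |a z| ≤ m) → (∀ z, ρ < ‖z‖ → a z = 0) →
    (∀ w, |b w| ≤ c * (ε + ‖w‖) ^ (-s)) → ∀ y, 2 * ρ ≤ ‖y‖ →
    |cv a b y| ≤ C * m * c * ρ ^ n * (ρ + ‖y‖) ^ (-s) := by
  set Φ : E n → ℝ := (closedBall (0 : E n) 1).indicator fun _ => 1 with hΦ
  have iΦ : Integrable Φ := (integrable_indicator_iff measurableSet_closedBall).2
    (integrableOn_const (measure_closedBall_lt_top).ne)
  have Φ0 : ∀ w, 0 ≤ Φ w := fun w => Set.indicator_nonneg (fun _ _ => zero_le_one) w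
  refine ⟨3 ^ s * ∫ w, Φ w, mul_nonneg (by positivity) (integral_nonneg Φ0), ?_⟩
  intro a b m c ε ρ hε hρ hc ha ha0 hb y hy
  have hm : 0 ≤ m := (abs_nonneg _).trans (ha 0)
  obtain ⟨i1, i2⟩ := int_scale iΦ hρ 0
  rw [cv_eq, ← Real.norm_eq_abs]
  refine (norm_integral_le_of_norm_le (i1.const_mul (m * (c * (3 ^ s * (ρ + ‖y‖) ^ (-s)))))
    (ae_of_all _ fun z => ?_)).trans (le_of_eq ?_)
  · rcases lt_or_ge ρ ‖z‖ with hz | hz
    · rw [ha0 z hz, zero_mul, norm_zero]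
      exact mul_nonneg (by positivity) (Φ0 _)
    · have h1 : Φ (ρ⁻¹ • (0 - z)) = 1 := Set.indicator_of_mem (by
        rw [mem_closedBall_zero_iff, norm_smul, zero_sub, norm_neg, norm_inv,
          Real.norm_of_nonneg hρ.le, inv_mul_le_iff₀ hρ]; linarith) _
      have h2 : (ε + ‖y - z‖) ^ (-s) ≤ 3 ^ s * (ρ + ‖y‖) ^ (-s) :=
        rpow_cmp hs (by positivity) (by norm_num) (by linarith [norm_sub_norm_le y z])
      rw [h1, mul_one, norm_mul]
      exact mul_le_mul (ha z) ((hb _).trans (by gcongr)) (norm_nonneg _) hm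
  · rw [integral_const_mul, i2]; ring

/-- near the support (integrable singularity) -/
theorem cv_near (n : ℕ) (hn : 1 ≤ n) {s : ℝ} (hs : 0 ≤ s) (hsn : s < n) : ∃ C : ℝ, 0 ≤ C ∧
    ∀ (a b : E n → ℝ) (m c ε ρ : ℝ),
    0 < ε → 0 < ρ → 0 ≤ c → (∀ z, |a z| ≤ m) → (∀ z, ρ < ‖z‖ → a z = 0) →
    (∀ w, |b w| ≤ c * (ε + ‖w‖) ^ (-s)) → ∀ y, ‖y‖ ≤ 2 * ρ →
    |cv a b y| ≤ C * m * c * ρ ^ n * (ρ + ‖y‖) ^ (-s) := by
  set Φ : E n → ℝ := (ball (0 : E n) 1).indicator fun w => ‖w‖ ^ (-s) with hΦ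
  have iΦ : Integrable Φ := (integrable_indicator_iff measurableSet_ball).2
    (integrableOn_ball_of_norm_le_rpow (C := 1) (α := s) (by simpa using hn) (by simpa using hsn)
      (ae_of_all _ fun w => by rw [one_mul, Real.norm_of_nonneg (by positivity)])
      (Measurable.aestronglyMeasurable (by fun_prop)))
  have Φ0 : ∀ w, 0 ≤ Φ w := fun w => Set.indicator_nonneg (fun _ _ => by positivity) w
  refine ⟨4 ^ n * ∫ w, Φ w, mul_nonneg (by positivity) (integral_nonneg Φ0), ?_⟩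
  intro a b m c ε ρ hε hρ hc ha ha0 hb y hy
  have hm : 0 ≤ m := (abs_nonneg _).trans (ha 0)
  have hρ4 : 0 < 4 * ρ := by positivity
  obtain ⟨i1, i2⟩ := int_scale iΦ hρ4 y
  have : Nontrivial (E n) := Module.nontrivial_of_finrank_pos (R := ℝ) (by simp; omega)
  rw [cv_eq, ← Real.norm_eq_abs]
  refine (norm_integral_le_of_norm_le (i1.const_mul (m * (c * (4 * ρ) ^ (-s)))) ?_).trans ?_
  · filter_upwards [compl_mem_ae_iff.2 (measure_singleton y)] with z hzy
    have hw : 0 < ‖y - z‖ := norm_pos_iff.2 (sub_ne_zero.2 (Ne.symm hzy))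
    rcases lt_or_ge ρ ‖z‖ with hz | hz
    · rw [ha0 z hz, zero_mul, norm_zero]
      exact mul_nonneg (by positivity) (Φ0 _)
    · have h0 : ‖(4 * ρ)⁻¹ • (y - z)‖ = ‖y - z‖ / (4 * ρ) := by
        rw [norm_smul, norm_inv, Real.norm_of_nonneg hρ4.le, div_eq_inv_mul]
      have h1 : Φ ((4 * ρ)⁻¹ • (y - z)) = (‖y - z‖ / (4 * ρ)) ^ (-s) := by
        rw [← h0]
        exact Set.indicator_of_mem (by
          rw [mem_ball_zero_iff, h0, div_lt_one hρ4]; linarith [norm_sub_le y z]) _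
      have h2 : (ε + ‖y - z‖) ^ (-s) ≤ (4 * ρ) ^ (-s) * (‖y - z‖ / (4 * ρ)) ^ (-s) := by
        rw [← Real.mul_rpow hρ4.le (by positivity), mul_div_cancel₀ _ hρ4.ne']
        exact Real.rpow_le_rpow_of_nonpos hw (by linarith) (by linarith)
      rw [h1, norm_mul, mul_assoc, mul_assoc]
      exact mul_le_mul (ha z) ((hb _).trans (by gcongr)) (norm_nonneg _) hm
  · have h3 : (4 * ρ) ^ (-s) ≤ (ρ + ‖y‖) ^ (-s) :=
      Real.rpow_le_rpow_of_nonpos (by positivity) (by linarith) (by linarith)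
    have : 0 ≤ ∫ w, Φ w := integral_nonneg Φ0
    rw [integral_const_mul, i2, mul_pow]
    calc m * (c * (4 * ρ) ^ (-s)) * (4 ^ n * ρ ^ n * ∫ w, Φ w)
        ≤ m * (c * (ρ + ‖y‖) ^ (-s)) * (4 ^ n * ρ ^ n * ∫ w, Φ w) := by gcongr
      _ = _ := by ring

theorem cv_all (n : ℕ) (hn : 1 ≤ n) {s : ℝ} (hs : 0 ≤ s) (hsn : s < n) : ∃ C : ℝ, 0 ≤ C ∧
    ∀ (a b : E n → ℝ) (m c ε ρ : ℝ),
    0 < ε → 0 < ρ → 0 ≤ c → (∀ z, |a z| ≤ m) → (∀ z, ρ < ‖z‖ → a z = 0) →
    (∀ w, |b w| ≤ c * (ε + ‖w‖) ^ (-s)) → ∀ y,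
    |cv a b y| ≤ C * m * c * ρ ^ n * (ρ + ‖y‖) ^ (-s) := by
  obtain ⟨C1, h1, H1⟩ := cv_far n hs
  obtain ⟨C2, h2, H2⟩ := cv_near n hn hs hsn
  refine ⟨C1 + C2, by positivity, fun a b m c ε ρ hε hρ hc ha ha0 hb y => ?_⟩
  have hm : 0 ≤ m := (abs_nonneg _).trans (ha 0)
  rcases le_total (2 * ρ) ‖y‖ with hy | hy
  · exact (H1 a b m c ε ρ hε hρ hc ha ha0 hb y hy).trans (by gcongr; linarith)
  · exact (H2 a b m c ε ρ hε hρ hc ha ha0 hb y hy).trans (by gcongr; linarith)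

end Crest.Agent.N346.P0.Nw

end
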