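import Crest.Agent.N346.P0.Lin

/-! Row 346, Part 0, step 0.5: covariance of the data under a linear change of coordinates. -/

set_option autoImplicit false
open MeasureTheory Filter Topology Matrix
open scoped ContDiff
open Crest.GeometryTopology.CoordMetric
open Crest.MathPhysics.ExteriorData

noncomputable section

namespace Crest.Agent.N346.P0.Pl
open Bs

variable {n : ℕ} {B D : Matrix (Fin n) (Fin n) ℝ} {g K : MetricField n} {y : E n}

/-- pull-back of a two-tensor under `lin D` -/
def pb (D : Matrix (Fin n) (Fin n) ℝ) (T : MetricField n) : MetricField n :=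
  fun y => Dᵀ * T (lin D y) * D

/-- push-forward of a vector field -/
def pf (c : ℝ) (B D : Matrix (Fin n) (Fin n) ℝ) (V : VectorField n) : VectorField n :=
  fun y => c • B *ᵥ V (lin D y)

/-- full contraction of two matrices -/
def ip (H M : Matrix (Fin n) (Fin n) ℝ) : ℝ := ∑ i, ∑ j, H i j * M i j

theorem ip_eq (H M : Matrix (Fin n) (Fin n) ℝ) : ip H M = trace (Hᵀ * M) := by
  simp only [ip, trace, diag, mul_apply, transpose_apply]
  exact Finset.sum_comm

theorem conj_apply (D M : Matrix (Fin n) (Fin n) ℝ) (i j : Fin n) :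
    (Dᵀ * M * D) i j = ∑ a, ∑ b, M a b * D a i * D b j := by
  simp only [mul_apply, transpose_apply, Finset.sum_mul]
  rw [Finset.sum_comm]
  exact Finset.sum_congr rfl fun a _ => Finset.sum_congr rfl fun b _ => by ring

theorem ip_conj (h : D * B = 1) (H M : Matrix (Fin n) (Fin n) ℝ) :
    ip (B * H * Bᵀ) (Dᵀ * M * D) = ip H M := by
  have h' : Bᵀ * Dᵀ = 1 := by rw [← transpose_mul, h, transpose_one]
  rw [ip_eq, ip_eq, transpose_mul, transpose_mul, transpose_transpose]
  calc trace (B * (Hᵀ * Bᵀ) * (Dᵀ * M * D)) = trace (B * (Hᵀ * (Bᵀ * Dᵀ) * M * D)) := by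
        simp only [Matrix.mul_assoc]
    _ = trace (Hᵀ * M * (D * B)) := by
        rw [h', trace_mul_comm]; simp only [Matrix.mul_assoc, Matrix.mul_one]
    _ = _ := by rw [h, Matrix.mul_one]

theorem qb_conj' (D M : Matrix (Fin n) (Fin n) ℝ) (v w : Fin n → ℝ) :
    qb (Dᵀ * M * D) v w = qb M (D *ᵥ v) (D *ᵥ w) := by
  rw [qb_eq_dot, qb_eq_dot, ← mulVec_mulVec, ← mulVec_mulVec, dotProduct_mulVec, vecMul_transpose]

theorem lin_ofLp (D : Matrix (Fin n) (Fin n) ℝ) (w : E n) : (lin D w).ofLp = D *ᵥ w.ofLp := rfl

theorem sm_pb (hK : Sm K) : Sm (pb D K) := fun i j => by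
  simp only [pb, conj_apply]
  exact ContDiff.sum fun a _ => ContDiff.sum fun b _ =>
    ((contDiff_comp_lin D (hK a b)).mul contDiff_const).mul contDiff_const

theorem sy_pb (hK : Sy K) : Sy (pb D K) := fun y i j => by
  simp only [pb, conj_apply]
  rw [Finset.sum_comm]
  exact Finset.sum_congr rfl fun a _ => Finset.sum_congr rfl fun b _ => by rw [hK]; ring

theorem quadForm_pb (g : MetricField n) (y w : E n) :
    quadForm (pb D g) y w = quadForm g (lin D y) (lin D w) := qb_conj' _ _ _ _

theorem pd_pb (hK : Sm K) (k i j : Fin n) : pderiv k (fun z => pb D K z i j) y =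
    (Dᵀ * (∑ c, D c k • Matrix.of fun a b => pderiv c (fun z => K z a b) (lin D y)) * D) i j := by
  simp only [pb, conj_apply]
  have hd : ∀ a b, DifferentiableAt ℝ (fun z => K (lin D z) a b) y := fun a b =>
    smooth_diff (contDiff_comp_lin D (hK a b)) y
  rw [pd_sum fun a _ => DifferentiableAt.fun_sum fun b _ => ((hd a b).mul_const _).mul_const _]
  refine Finset.sum_congr rfl fun a _ => ?_
  rw [pd_sum fun b _ => ((hd a b).mul_const _).mul_const _]
  refine Finset.sum_congr rfl fun b _ => ?_
  rw [pd_mul_const, pd_mul_const, pd_comp_lin D (u := fun z => K z a b) (smooth_diff (hK a b) _)]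
  simp only [Matrix.sum_apply, Matrix.smul_apply, of_apply, smul_eq_mul, mul_comm (D _ k)]

theorem divE_pf (h : D * B = 1) (c : ℝ) {V : VectorField n}
    (hV : ∀ j, DifferentiableAt ℝ (fun x => V x j) (lin D y)) :
    divE (pf c B D V) y = c * divE V (lin D y) := by
  have hd : ∀ j, DifferentiableAt ℝ (fun z => V (lin D z) j) y := fun j =>
    (hV j).comp y (lin D).differentiableAt
  have e : ∀ i, pderiv i (fun z => pf c B D V z i) y =
      c * ∑ j, ∑ a, pderiv a (fun x => V x j) (lin D y) * (D a i * B i j) := fun i => by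
    simp only [pf, Pi.smul_apply, smul_eq_mul, mulVec, dotProduct]
    rw [pd_const_mul, pd_sum fun j _ => (hd j).const_mul _]
    congr 1
    refine Finset.sum_congr rfl fun j _ => ?_
    rw [pd_const_mul, pd_comp_lin D (u := fun x => V x j) (hV j), Finset.mul_sum]
    exact Finset.sum_congr rfl fun a _ => by ring
  simp only [divE, e, ← Finset.mul_sum]
  congr 1
  rw [Finset.sum_comm]
  refine Finset.sum_congr rfl fun j _ => ?_
  rw [Finset.sum_comm]
  simp only [← Finset.mul_sum, ← mul_apply, h, one_apply]
  simp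

section
variable (h : D * B = 1)
include h

theorem det_ne : D.det ≠ 0 := (isUnit_det_of_right_inverse h).ne_zero

theorem pull_str (hg : IsRiemannianOn g Set.univ) :
    R202.Tens.Pull (pb D g) g (lin D) Set.univ Set.univ := by
  refine ⟨isOpen_univ, hg, fun _ _ => trivial, (lin D).contDiff.contDiffOn, fun y _ i j => ?_,
    fun y _ => ?_⟩
  · simp [pb, conj_apply, lin_apply]
  · rw [ContinuousLinearMap.fderiv]
    exact Function.LeftInverse.injective (lin_inv_lin (det_ne h))

theorem riem_pb (hg : IsRiemannianOn g Set.univ) : IsRiemannianOn (pb D g) Set.univ :=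
  (pull_str h hg).riem'

theorem inv_pb (g : MetricField n) (y : E n) :
    inverseField (pb D g) y = B * inverseField g (lin D y) * Bᵀ := by
  have hB : D⁻¹ = B := inv_eq_right_inv h
  simp only [inverseField, pb, Matrix.mul_inv_rev, ← transpose_nonsing_inv, hB, Matrix.mul_assoc]

omit h in
theorem vol_pb (g : MetricField n) (y : E n) :
    volDensity (pb D g) y = |D.det| * volDensity g (lin D y) := by
  rw [volDensity, volDensity, pb, det_mul, det_mul, det_transpose, ← Real.sqrt_sq_eq_abs,
    ← Real.sqrt_mul (sq_nonneg _)]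
  congr 1; ring

theorem scalarCurv_pb (hg : IsRiemannianOn g Set.univ) (y : E n) :
    scalarCurv (pb D g) y = scalarCurv g (lin D y) := by
  have e : (Matrix.of fun i j => ricci (pb D g) y i j) =
      Dᵀ * (Matrix.of fun i j => ricci g (lin D y) i j) * D := by
    ext i j
    have := (pull_str h hg).ricci_pull (Set.mem_univ y) (EuclideanSpace.single i 1)
      (EuclideanSpace.single j 1)
    simpa [conj_apply, lin_apply, Pi.single_apply] using this
  have := ip_conj h (inverseField g (lin D y)) (Matrix.of fun i j => ricci g (lin D y) i j)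
  rw [← e, ← inv_pb h] at this
  exact this

theorem traceK_pb (g K : MetricField n) (y : E n) :
    traceK (pb D g) (pb D K) y = traceK g K (lin D y) := by
  have := ip_conj h (inverseField g (lin D y)) (K (lin D y))
  rw [← inv_pb h] at this
  exact this

omit h in
theorem normSqK_eq (g K : MetricField n) (x : E n) :
    normSqK g K x = ip ((inverseField g x)ᵀ * K x * inverseField g x) (K x) := by
  simp only [normSqK, ip, conj_apply, Finset.sum_mul]
  calc _ = ∑ i, ∑ a, ∑ j, ∑ b, inverseField g x i a * inverseField g x j b * K x i j * K x a b :=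
        Finset.sum_congr rfl fun i _ => Finset.sum_comm
    _ = ∑ a, ∑ i, ∑ b, ∑ j, inverseField g x i a * inverseField g x j b * K x i j * K x a b := by
        rw [Finset.sum_comm]
        exact Finset.sum_congr rfl fun a _ => Finset.sum_congr rfl fun i _ => Finset.sum_comm
    _ = _ := by
        refine Finset.sum_congr rfl fun a _ => ?_
        rw [Finset.sum_comm]
        exact Finset.sum_congr rfl fun b _ => Finset.sum_congr rfl fun i _ =>
          Finset.sum_congr rfl fun j _ => by ring

theorem normSqK_pb (g K : MetricField n) (y : E n) :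
    normSqK (pb D g) (pb D K) y = normSqK g K (lin D y) := by
  have h' : Bᵀ * Dᵀ = 1 := by rw [← transpose_mul, h, transpose_one]
  rw [normSqK_eq, normSqK_eq, inv_pb h, ← ip_conj h _ (K (lin D y))]
  congr 1
  rw [pb, transpose_mul, transpose_mul, transpose_transpose]
  calc _ = B * ((inverseField g (lin D y))ᵀ * (Bᵀ * Dᵀ) * K (lin D y) * (D * B) *
        inverseField g (lin D y)) * Bᵀ := by simp only [Matrix.mul_assoc]
    _ = _ := by rw [h, h', Matrix.mul_one, Matrix.mul_one]

theorem energyDensity_pb (hg : IsRiemannianOn g Set.univ) (K : MetricField n) (y : E n) :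
    energyDensity (pb D g) (pb D K) y = energyDensity g K (lin D y) := by
  rw [energyDensity, energyDensity, scalarCurv_pb h hg, traceK_pb h, normSqK_pb h]

omit h in
theorem cov_eq (g K : MetricField n) (x : E n) (k : Fin n) :
    (Matrix.of fun i j => covDerivK g K x k i j) =
      (Matrix.of fun a b => pderiv k (fun z => K z a b) x)
        - (Matrix.of fun l i => christoffel g x l k i)ᵀ * K x
        - K x * Matrix.of fun l i => christoffel g x l k i := by
  ext i j
  simp only [covDerivK, of_apply, Matrix.sub_apply, mul_apply, transpose_apply,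
    mul_comm (K x i _)]

theorem cov_pb (hg : IsRiemannianOn g Set.univ) (hK : Sm K) (y : E n) (k : Fin n) :
    (Matrix.of fun i j => covDerivK (pb D g) (pb D K) y k i j) =
      Dᵀ * (∑ c, D c k • Matrix.of fun i j => covDerivK g K (lin D y) c i j) * D := by
  have e : D * (Matrix.of fun l i => christoffel (pb D g) y l k i) =
      (∑ c, D c k • Matrix.of fun l i => christoffel g (lin D y) l c i) * D := by
    ext m i
    have := congrArg (fun v : E n => v m) ((pull_str h hg).gam_eq (Set.mem_univ y)
      (EuclideanSpace.single k 1) (EuclideanSpace.single i 1))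
    have h2 : fderiv ℝ (fderiv ℝ (lin D : E n → E n)) y = 0 := by
      rw [show fderiv ℝ (lin D : E n → E n) = fun _ => lin D from
        funext fun _ => ContinuousLinearMap.fderiv _]
      simp
    rw [h2] at this
    simp only [ContinuousLinearMap.fderiv, lin_apply, R202.Tens.Gam_apply, PiLp.single_apply,
      _root_.zero_apply, add_zero, mul_ite, mul_one, mul_zero, Finset.sum_ite_eq',
      Finset.mem_univ, if_true] at this
    simp only [mul_apply, of_apply, Matrix.sum_apply, Matrix.smul_apply, smul_eq_mul,
      Finset.sum_mul]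
    rw [this, Finset.sum_comm]
    exact Finset.sum_congr rfl fun a _ => Finset.sum_congr rfl fun b _ => by ring
  have e2 : (Matrix.of fun a b => pderiv k (fun z => pb D K z a b) y) =
      Dᵀ * (∑ c, D c k • Matrix.of fun a b => pderiv c (fun z => K z a b) (lin D y)) * D := by
    ext i j; exact pd_pb hK k i j
  simp only [cov_eq, smul_sub, Finset.sum_sub_distrib, Matrix.mul_sub, Matrix.sub_mul]
  rw [e2]
  congr 1
  · congr 1
    rw [pb, ← Matrix.mul_assoc, ← Matrix.mul_assoc, ← transpose_mul, e, transpose_mul]
    simp only [transpose_sum, transpose_smul, Matrix.sum_mul, Matrix.smul_mul, Matrix.mul_assoc]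
  · rw [pb, Matrix.mul_assoc, e]
    simp only [Matrix.mul_sum, Matrix.mul_smul, Matrix.sum_mul, Matrix.smul_mul, Matrix.mul_assoc]

theorem momentum_pb (hg : IsRiemannianOn g Set.univ) (hK : Sm K) (y : E n) (i : Fin n) :
    momentumDensity (pb D g) (pb D K) y i = ∑ a, momentumDensity g K (lin D y) a * D a i := by
  have ht : ContDiff ℝ ∞ (traceK g K) :=
    ContDiff.sum fun i _ => ContDiff.sum fun j _ => (contDiff_inv hg i j).mul (hK i j)
  have e1 : ∑ j, ∑ k, inverseField (pb D g) y j k * covDerivK (pb D g) (pb D K) y k i j =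
      ∑ a, (∑ j, ∑ k, inverseField g (lin D y) j k * covDerivK g K (lin D y) k a j) * D a i := by
    have e : (Matrix.of fun j k => covDerivK (pb D g) (pb D K) y k i j) =
        Dᵀ * (Matrix.of fun b c => ∑ a, covDerivK g K (lin D y) c a b * D a i) * D := by
      ext j k
      have := congrFun (congrFun (cov_pb h hg hK y k) i) j
      rw [of_apply, conj_apply] at this
      rw [of_apply, this, conj_apply, Finset.sum_comm]
      refine Finset.sum_congr rfl fun b _ => ?_
      simp only [Matrix.sum_apply, Matrix.smul_apply, of_apply, smul_eq_mul, Finset.sum_mul]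
      rw [Finset.sum_comm]
      exact Finset.sum_congr rfl fun c _ => Finset.sum_congr rfl fun a _ => by ring
    have := ip_conj h (inverseField g (lin D y))
      (Matrix.of fun b c => ∑ a, covDerivK g K (lin D y) c a b * D a i)
    rw [← e, ← inv_pb h] at this
    refine this.trans ?_
    simp only [ip, of_apply, Finset.mul_sum, Finset.sum_mul]
    calc _ = ∑ b, ∑ a, ∑ c, inverseField g (lin D y) b c * (covDerivK g K (lin D y) c a b * D a i) :=
          Finset.sum_congr rfl fun b _ => Finset.sum_comm
      _ = _ := by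
          rw [Finset.sum_comm]
          simp only [mul_assoc]
  rw [momentumDensity, e1, funext (traceK_pb h g K), pd_comp_lin D (smooth_diff ht _),
    ← Finset.sum_sub_distrib]
  simp only [momentumDensity, sub_mul]

theorem momentum_dot (hg : IsRiemannianOn g Set.univ) (hK : Sm K) (y w : E n) :
    ∑ i, momentumDensity (pb D g) (pb D K) y i * w i =
      ∑ a, momentumDensity g K (lin D y) a * lin D w a := by
  simp only [momentum_pb h hg hK, lin_apply, Finset.sum_mul, Finset.mul_sum, mul_assoc]
  exact Finset.sum_comm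

theorem mulVec_pf (c : ℝ) (V : VectorField n) (y : E n) :
    D *ᵥ pf c B D V y = c • V (lin D y) := by
  rw [pf, mulVec_smul, mulVec_mulVec, h, one_mulVec]

theorem eSq_pb (g : MetricField n) (EE : VectorField n) (y : E n) :
    eSq (pb D g) (pf |D.det| B D EE) y = eSq g EE (lin D y) := by
  have h0 := det_ne h
  have e : vecNormSq (pb D g) (pf |D.det| B D EE) y = D.det ^ 2 * vecNormSq g EE (lin D y) := by
    change qb (Dᵀ * _ * D) _ _ = _ * qb _ _ _
    rw [qb_conj', mulVec_pf h, qb_eq_dot, qb_eq_dot, mulVec_smul, dotProduct_smul, smul_dotProduct,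
      smul_eq_mul, smul_eq_mul, ← mul_assoc, abs_mul_abs_self, sq]
  rw [eSq, eSq, e, pb, det_mul, det_mul, det_transpose,
    show D.det * (g (lin D y)).det * D.det = D.det ^ 2 * (g (lin D y)).det by ring,
    mul_div_mul_left _ _ (pow_ne_zero 2 h0)]

theorem eDot_pb (g : MetricField n) (EE : VectorField n) (y w : E n) :
    eDot (pb D g) (pf |D.det| B D EE) y w = eDot g EE (lin D y) (lin D w) := by
  have h0 := abs_ne_zero.2 (det_ne h)
  change qb (Dᵀ * _ * D) _ _ / _ = qb _ _ _ / _
  rw [qb_conj', mulVec_pf h, vol_pb, qb_eq_dot, qb_eq_dot, mulVec_smul, dotProduct_smul,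
    smul_eq_mul, mul_div_mul_left _ _ h0, lin_ofLp]

theorem dece_pb (hg : IsRiemannianOn g Set.univ) (hK : Sm K) {EE : VectorField n} {m0 : ℝ}
    (hd : DECE g K EE m0 (lin D y)) : DECE (pb D g) (pb D K) (pf |D.det| B D EE) m0 y := by
  intro w hw
  rw [quadForm_pb] at hw
  rw [quadForm_pb, eSq_pb h, eDot_pb h, energyDensity_pb h hg, momentum_dot h hg hK]
  exact hd _ hw

omit h in
theorem pd_lin_vec {s : E n → ℝ} (hs : DifferentiableAt ℝ s (lin D y)) :
    (fun i => pderiv i (fun z => s (lin D z)) y) = Dᵀ *ᵥ fun a => pderiv a s (lin D y) := by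
  funext i
  rw [pd_comp_lin D hs]
  simp only [mulVec, dotProduct, transpose_apply, mul_comm]

theorem gradSq_pb (g : MetricField n) {s : E n → ℝ} (hs : DifferentiableAt ℝ s (lin D y)) :
    gradSq (pb D g) (fun z => s (lin D z)) y = gradSq g s (lin D y) := by
  have h' : Bᵀ * Dᵀ = 1 := by rw [← transpose_mul, h, transpose_one]
  change qb (inverseField (pb D g) y) _ _ = qb (inverseField g (lin D y)) _ _
  have := qb_conj' Bᵀ (inverseField g (lin D y))
  rw [transpose_transpose] at this
  rw [inv_pb h, pd_lin_vec hs, this, mulVec_mulVec, h', one_mulVec]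

theorem levelNormal_pb (g : MetricField n) {s : E n → ℝ} (hs : Differentiable ℝ s) :
    levelNormal (pb D g) (fun z => s (lin D z)) = pf 1 B D (levelNormal g s) := by
  have h' : Bᵀ * Dᵀ = 1 := by rw [← transpose_mul, h, transpose_one]
  funext y
  have e : ∀ (g : MetricField n) (s : E n → ℝ) (x : E n), levelNormal g s x =
      (√(gradSq g s x))⁻¹ • inverseField g x *ᵥ fun j => pderiv j s x := fun g s x => by
    funext i
    simp only [levelNormal, Pi.smul_apply, smul_eq_mul, mulVec, dotProduct, div_eq_inv_mul]
  rw [pf, e, e, gradSq_pb h g (hs _), inv_pb h, pd_lin_vec (hs _), one_smul, mulVec_smul,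
    mulVec_mulVec, mulVec_mulVec, Matrix.mul_assoc _ Bᵀ, h', Matrix.mul_one]

theorem levelExp_pb (hg : IsRiemannianOn g Set.univ) (K : MetricField n) {s : E n → ℝ}
    (hs : ContDiff ℝ ∞ s) (h0 : fderiv ℝ s (lin D y) ≠ 0) :
    levelExp (pb D g) (pb D K) (fun z => s (lin D z)) y = levelExp g K s (lin D y) := by
  have hd := abs_ne_zero.2 (det_ne h)
  have hν : ∀ j, DifferentiableAt ℝ (fun x => volDensity g x * levelNormal g s x j) (lin D y) :=
    fun j => ((contDiff_volDensity hg).contDiffAt.mul ((contDiff_grad hg hs j).contDiffAt.div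
      ((contDiff_gradSq hg hs).contDiffAt.sqrt (gradSq_pos hg h0).ne')
      (Real.sqrt_pos.2 (gradSq_pos hg h0)).ne')).differentiableAt (by simp)
  rw [levelExp, levelExp, levelNormal_pb h g (hs.differentiable (by simp))]
  congr 1
  · have e : (fun z i => volDensity (pb D g) z * pf 1 B D (levelNormal g s) z i) =
        pf |D.det| B D fun x j => volDensity g x * levelNormal g s x j := by
      funext z i
      simp only [pf, vol_pb, Pi.smul_apply, smul_eq_mul, mulVec, dotProduct,
        Finset.mul_sum]
      exact Finset.sum_congr rfl fun j _ => by ring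
    rw [gDiv_eq, gDiv_eq, e, divE_pf h _ hν, vol_pb, mul_div_mul_left _ _ hd]
  · have := ip_conj h (inverseField g (lin D y) - vecMulVec (levelNormal g s (lin D y))
      (levelNormal g s (lin D y))) (K (lin D y))
    rw [Matrix.mul_sub, Matrix.sub_mul, ← inv_pb h, mul_vecMulVec, vecMulVec_mul,
      vecMul_transpose] at this
    simp only [ip, Matrix.sub_apply, vecMulVec_apply] at this
    simp only [pf, one_smul]
    exact this

theorem bv_pb {A : ℝ} {Z : Set (E n)} (hA : BV g Z A) : BV (pb D g) (lin D ⁻¹' Z) A := by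
  intro F hF h0 ⟨R, hR⟩
  have hD := det_ne h
  have hB : D⁻¹ = B := inv_eq_right_inv h
  have e1 : ∀ x, lin D (lin B x) = x := fun x => hB ▸ lin_lin_inv hD x
  have e2 : ∀ x, lin B (lin D x) = x := fun x => hB ▸ lin_inv_lin hD x
  have hF' := contDiff_comp_lin B hF
  refine (hA _ hF' (fun x hx => h0 _ (by rwa [Set.mem_preimage, e1]))
    ⟨‖lin D‖ * |R| + 1, fun x hx => hR _ ?_⟩).trans (le_of_eq ?_)
  · by_contra hc
    have h1 := (lin D).le_opNorm (lin B x)
    rw [e1] at h1
    have := mul_le_mul_of_nonneg_left ((not_le.1 hc).le.trans (le_abs_self R)) (norm_nonneg (lin D))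
    linarith
  · have e3 : ∀ y, √(gradSq (pb D g) F y) * volDensity (pb D g) y = |D.det| *
        (√(gradSq g (fun x => F (lin B x)) (lin D y)) * volDensity g (lin D y)) := fun y => by
      rw [← gradSq_pb h g (smooth_diff hF' _), vol_pb]
      simp only [e2]
      ring
    simp only [e3]
    rw [integral_const_mul, integral_comp_lin hD
      fun x => √(gradSq g (fun x => F (lin B x)) x) * volDensity g x,
      mul_inv_cancel_left₀ (abs_ne_zero.2 hD)]

end

end Crest.Agent.N346.P0.Pl

end
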